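import Claimed.Agent.R289.Rsw.Topo

/-!
# Row 289 (S0537), box RSW part I, file Rsw/Main : THE ABSTRACT RSW THEOREM OF TASSION      (owner helper188; design helper259, notes/R289/rsw_259.md sec. 1, 3, 4; prefix `rsw`)

`RswModel P Bk c0` : a random set `Bk ω ⊆ ℂ`, `P : Set Ω → ℝ` monotone + subadditive (NO measurability in this file), FKG for finite lists of nice patterns, invariance under translations, `conj`, `-conj`, `i·`,
squares are crossed with probability `≥ c0`, finite energy, and ARM DECAY (`ad`).      PRODUCER of the instance for Poisson-Voronoi: part II (helper262, Rsw/Ver*.lean; FKG: helper159).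

**THEOREM** `rsw_main` : `∀ ρ > 0, ∃ c > 0, ∀ s > 0, c ≤ P(left-right crossing of [0, ρ s] x [0, s])`.

Jordan-free and continuity-free version of Tassion's proof: every gluing is a deterministic lemma `rsw_det_*` of Rsw/Topo.
-/

set_option autoImplicit false

namespace Claimed.Agent.R289

open Set

/-- probability of a pattern -/
def rswP {Ω : Type} (P : Set Ω → ℝ) (Bk : Ω → Set ℂ) (e : RswTri) : ℝ := P {ω | e.Holds (Bk ω)}

/-- `f(s,ρ)` : probability of a left-right crossing of `[0, ρ s] x [0, s]` -/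
def rswF {Ω : Type} (P : Set Ω → ℝ) (Bk : Ω → Set ℂ) (s ρ : ℝ) : ℝ := rswP P Bk (rswLR 0 (ρ * s) 0 s)

/-- `P[H_s(α,β)]` : window crossing of the square `B_s = [-s/2,s/2]^2` -/
noncomputable def rswH {Ω : Type} (P : Set Ω → ℝ) (Bk : Ω → Set ℂ) (s α β : ℝ) : ℝ :=
  rswP P Bk (rswWin (-s / 2) (s / 2) (-s / 2) (s / 2) α β)

/-- the abstract model -/
structure RswModel {Ω : Type} (P : Set Ω → ℝ) (Bk : Ω → Set ℂ) (c0 : ℝ) : Prop where
  c0_pos : 0 < c0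
  c0_le : c0 ≤ 1
  nonneg : ∀ A, 0 ≤ P A
  le_one : ∀ A, P A ≤ 1
  mono : ∀ A B : Set Ω, A ⊆ B → P A ≤ P B
  sub : ∀ A B : Set Ω, P (A ∪ B) ≤ P A + P B
  fkg : ∀ l : List RswTri, (∀ e ∈ l, e.Nice) → (l.map (rswP P Bk)).prod ≤ P {ω | ∀ e ∈ l, e.Holds (Bk ω)}
  inv_tr : ∀ (w : ℂ) (e : RswTri), e.Nice → rswP P Bk (e.map (fun z => z + w)) = rswP P Bk e
  inv_conj : ∀ e : RswTri, e.Nice → rswP P Bk (e.map (fun z => (starRingEnd ℂ) z)) = rswP P Bk e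
  inv_nconj : ∀ e : RswTri, e.Nice → rswP P Bk (e.map (fun z => -(starRingEnd ℂ) z)) = rswP P Bk e
  inv_I : ∀ e : RswTri, e.Nice → rswP P Bk (e.map (fun z => Complex.I * z)) = rswP P Bk e
  sq : ∀ s : ℝ, 0 < s → c0 ≤ rswP P Bk (rswLR 0 s 0 s)
  fe : ∀ M : ℝ, ∃ c > 0, ∀ x0 x1 y0 y1 : ℝ, x0 ≤ x1 → y0 ≤ y1 → x1 - x0 ≤ M → y1 - y0 ≤ M → c ≤ P {ω | rswRect x0 x1 y0 y1 ⊆ Bk ω}
  ad : ∀ c : ℝ, 0 < c → ∃ C : ℝ, 12 ≤ C ∧ ∀ t : ℝ, 1 ≤ t → (∀ u, 4 * t ≤ u → u ≤ C * t → c ≤ rswF P Bk u 6) →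
    rswP P Bk (rswArm 0 0 t (C * t)) < c0 / 4

/-- Tassion's `α_s` (sup instead of a continuity argument) -/
noncomputable def rswAl {Ω : Type} (P : Set Ω → ℝ) (Bk : Ω → Set ℂ) (c0 s : ℝ) : ℝ :=
  sSup {α | 0 ≤ α ∧ α ≤ s / 4 ∧ c0 / 4 ≤ rswH P Bk s α (s / 2)}

/-- the constant of a good scale -/
noncomputable def rswC2 (c0 : ℝ) : ℝ := (c0 / 4) ^ 2 * (c0 * (c0 / 4) ^ 4)

theorem rsw_main_eqns_cite : True := by
  have := @rswP.eq_1
  have := @rswF.eq_1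
  have := @rswH.eq_1
  have := @rswAl.eq_1
  have := @rswC2.eq_1
  trivial

variable {Ω : Type} {P : Set Ω → ℝ} {Bk : Ω → Set ℂ} {c0 : ℝ}

/-! ## 1. Calculus of patterns -/

theorem RswModel.p_nonneg (M : RswModel P Bk c0) (e : RswTri) : 0 ≤ rswP P Bk e := M.nonneg _

theorem RswModel.p_le_one (M : RswModel P Bk c0) (e : RswTri) : rswP P Bk e ≤ 1 := M.le_one _

theorem RswModel.p_mono (M : RswModel P Bk c0) {e e' : RswTri} (h : ∀ B, e.Holds B → e'.Holds B) :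
    rswP P Bk e ≤ rswP P Bk e' := M.mono _ _ (fun _ hω => h _ hω)

theorem RswModel.p_or (M : RswModel P Bk c0) {e e1 e2 : RswTri} (h : ∀ B, e.Holds B → e1.Holds B ∨ e2.Holds B) :
    rswP P Bk e ≤ rswP P Bk e1 + rswP P Bk e2 :=
  (M.mono _ _ (fun _ hω => h _ hω)).trans (M.sub _ _)

theorem RswModel.p_fkg (M : RswModel P Bk c0) (l : List RswTri) (hl : ∀ e ∈ l, e.Nice) {e' : RswTri}
    (h : ∀ B, (∀ e ∈ l, e.Holds B) → e'.Holds B) : (l.map (rswP P Bk)).prod ≤ rswP P Bk e' :=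
  (M.fkg l hl).trans (M.mono _ _ (fun _ hω => h _ hω))

theorem RswModel.p_LR (M : RswModel P Bk c0) (x0 x1 y0 y1 : ℝ) :
    rswP P Bk (rswLR x0 x1 y0 y1) = rswP P Bk (rswLR 0 (x1 - x0) 0 (y1 - y0)) := by
  have h := M.inv_tr ⟨x0, y0⟩ _ (rsw_nice_LR 0 (x1 - x0) 0 (y1 - y0))
  rw [rsw_map_tr_LR] at h
  simpa using h

theorem RswModel.p_TB (M : RswModel P Bk c0) (x0 x1 y0 y1 : ℝ) :
    rswP P Bk (rswTB x0 x1 y0 y1) = rswP P Bk (rswLR 0 (y1 - y0) 0 (x1 - x0)) := by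
  have h := M.inv_I _ (rsw_nice_LR y0 y1 (-x1) (-x0))
  rw [rsw_map_I_LR] at h
  rw [neg_neg, neg_neg] at h
  rw [h, M.p_LR]
  congr 2
  ring

theorem RswModel.p_LR_F (M : RswModel P Bk c0) {x0 x1 y0 y1 s ρ : ℝ} (h1 : x1 - x0 = ρ * s) (h2 : y1 - y0 = s) :
    rswP P Bk (rswLR x0 x1 y0 y1) = rswF P Bk s ρ := by
  rw [M.p_LR, h1, h2, rswF]

theorem RswModel.p_TB_F (M : RswModel P Bk c0) {x0 x1 y0 y1 s ρ : ℝ} (h1 : y1 - y0 = ρ * s) (h2 : x1 - x0 = s) :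
    rswP P Bk (rswTB x0 x1 y0 y1) = rswF P Bk s ρ := by
  rw [M.p_TB, h1, h2, rswF]

/-- window crossing of the square of centre `(cx,cy)` and side `s` -/
theorem RswModel.p_Win (M : RswModel P Bk c0) (cx cy s α β : ℝ) :
    rswP P Bk (rswWin (cx - s / 2) (cx + s / 2) (cy - s / 2) (cy + s / 2) (cy + α) (cy + β)) = rswH P Bk s α β := by
  have h := M.inv_tr ⟨cx, cy⟩ _ (rsw_nice_Win (-s / 2) (s / 2) (-s / 2) (s / 2) α β)
  rw [rsw_map_tr_Win] at h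
  rw [rswH, ← h]
  congr 2 <;> simp <;> ring

theorem RswModel.p_Win_conj (M : RswModel P Bk c0) (s α β : ℝ) : rswH P Bk s (-β) (-α) = rswH P Bk s α β := by
  have h := M.inv_conj _ (rsw_nice_Win (-s / 2) (s / 2) (-s / 2) (s / 2) α β)
  rw [rsw_map_conj_Win] at h
  rw [rswH, rswH, ← h]
  congr 2 <;> ring

theorem RswModel.p_WinL (M : RswModel P Bk c0) (cx cy s α β : ℝ) :
    rswP P Bk (rswWinL (cx - s / 2) (cx + s / 2) (cy - s / 2) (cy + s / 2) (cy + α) (cy + β)) = rswH P Bk s α β := by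
  have h := M.inv_nconj _ (rsw_nice_Win (-s / 2) (s / 2) (-s / 2) (s / 2) α β)
  rw [rsw_map_nconj_Win] at h
  have h2 := M.inv_tr ⟨cx, cy⟩ _ (rsw_nice_WinL (-(s / 2)) (-(-s / 2)) (-s / 2) (s / 2) α β)
  rw [rsw_map_tr_WinL] at h2
  rw [rswH, ← h, ← h2]
  congr 2 <;> simp <;> ring

theorem RswModel.p_Arm (M : RswModel P Bk c0) (cx cy t r : ℝ) :
    rswP P Bk (rswArm cx cy t r) = rswP P Bk (rswArm 0 0 t r) := by
  have h := M.inv_tr ⟨cx, cy⟩ _ (rsw_nice_Arm 0 0 t r)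
  rw [rsw_map_tr_Arm] at h
  simpa using h

/-! ## 2. Elementary consequences (E1 - E5) -/

theorem RswModel.F_nonneg (M : RswModel P Bk c0) (s ρ : ℝ) : 0 ≤ rswF P Bk s ρ := M.p_nonneg _

theorem RswModel.F_one (M : RswModel P Bk c0) {s : ℝ} (hs : 0 < s) : c0 ≤ rswF P Bk s 1 := by
  have := M.sq s hs
  rwa [rswF, one_mul]

/-- (E3) -/
theorem RswModel.F_anti (M : RswModel P Bk c0) {s ρ ρ' : ℝ} (hs : 0 < s) (h0 : 0 ≤ ρ') (h : ρ' ≤ ρ) :
    rswF P Bk s ρ ≤ rswF P Bk s ρ' :=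
  M.p_mono (fun _ hB => rsw_det_shorten (by positivity) (by nlinarith) hB)

/-- (E5) a thinner rectangle of the same length -/
theorem RswModel.F_thin (M : RswModel P Bk c0) {s g ρ : ℝ} (hg : 0 < g) (h : g ≤ s) :
    rswF P Bk g (ρ * s / g) ≤ rswF P Bk s ρ := by
  rw [rswF, rswF, div_mul_cancel₀ _ hg.ne']
  exact M.p_mono (fun _ hB => rsw_det_mono (e := rswLR 0 (ρ * s) 0 g) (e' := rswLR 0 (ρ * s) 0 s) subset_rfl
    (rsw_rect_mono le_rfl le_rfl le_rfl h) (rsw_rect_mono le_rfl le_rfl le_rfl h) (rsw_rect_mono le_rfl le_rfl le_rfl h) hB)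

/-- (E2) lengthening -/
theorem RswModel.F_len (M : RswModel P Bk c0) {s ρ ρ' : ℝ} (hs : 0 < s) (h1 : 1 ≤ ρ) (h2 : 1 ≤ ρ') :
    rswF P Bk s ρ * rswF P Bk s ρ' * c0 ≤ rswF P Bk s (ρ + ρ' - 1) := by
  have key := M.p_fkg [rswLR 0 (ρ * s) 0 s, rswLR ((ρ - 1) * s) ((ρ + ρ' - 1) * s) 0 s, rswTB ((ρ - 1) * s) (ρ * s) 0 s]
    (by
      intro e he
      simp only [List.mem_cons, List.not_mem_nil, or_false] at he
      rcases he with rfl | rfl | rfl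
      · exact rsw_nice_LR _ _ _ _
      · exact rsw_nice_LR _ _ _ _
      · exact rsw_nice_TB _ _ _ _)
    (e' := rswLR 0 ((ρ + ρ' - 1) * s) 0 s)
    (by
      intro B hB
      refine rsw_det_len (x0' := (ρ - 1) * s) (x1 := ρ * s) (by nlinarith) (by nlinarith) (by nlinarith)
        (hB _ (by simp)) (hB _ (by simp)) (hB _ (by simp)))
  simp only [List.map_cons, List.map_nil, List.prod_cons, List.prod_nil, mul_one] at key
  have e2 : rswP P Bk (rswLR ((ρ - 1) * s) ((ρ + ρ' - 1) * s) 0 s) = rswF P Bk s ρ' := M.p_LR_F (by ring) (by ring)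
  have e3 : rswP P Bk (rswTB ((ρ - 1) * s) (ρ * s) 0 s) = rswF P Bk s 1 := M.p_TB_F (by ring) (by ring)
  rw [e2, e3] at key
  have h3 := M.F_one hs
  have h4 : 0 ≤ rswF P Bk s ρ * rswF P Bk s ρ' := mul_nonneg (M.F_nonneg _ _) (M.F_nonneg _ _)
  calc rswF P Bk s ρ * rswF P Bk s ρ' * c0 ≤ rswF P Bk s ρ * rswF P Bk s ρ' * rswF P Bk s 1 :=
        mul_le_mul_of_nonneg_left h3 h4
    _ = rswP P Bk (rswLR 0 (ρ * s) 0 s) * (rswF P Bk s ρ' * rswF P Bk s 1) := by rw [rswF]; ring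
    _ ≤ _ := key

/-- iterated lengthening: from aspect `4/3` to aspect `1 + k/3` -/
theorem RswModel.F_iter (M : RswModel P Bk c0) {s q : ℝ} (hs : 0 < s) (hq0 : 0 ≤ q) (hq : q ≤ rswF P Bk s (4 / 3)) (k : ℕ) :
    q ^ (k + 1) * c0 ^ k ≤ rswF P Bk s (1 + ((k : ℝ) + 1) / 3) := by
  induction k with
  | zero =>
    have e : (1 : ℝ) + (((0 : ℕ) : ℝ) + 1) / 3 = 4 / 3 := by norm_num
    rw [e]
    simpa using hq
  | succ k ih =>
    have h1 := M.F_len (ρ := 1 + ((k : ℝ) + 1) / 3) (ρ' := 4 / 3) hs (by have : (0 : ℝ) ≤ k := Nat.cast_nonneg k; linarith) (by norm_num)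
    have e : (1 : ℝ) + ((k : ℝ) + 1) / 3 + 4 / 3 - 1 = 1 + (((k + 1 : ℕ) : ℝ) + 1) / 3 := by push_cast; ring
    rw [e] at h1
    refine le_trans ?_ h1
    have hc0 := M.c0_pos
    calc q ^ (k + 1 + 1) * c0 ^ (k + 1) = (q ^ (k + 1) * c0 ^ k) * q * c0 := by ring
      _ ≤ rswF P Bk s (1 + ((k : ℝ) + 1) / 3) * rswF P Bk s (4 / 3) * c0 :=
          mul_le_mul_of_nonneg_right (mul_le_mul ih hq hq0 (M.F_nonneg _ _)) hc0.le

/-- a good scale has all aspect ratios -/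
theorem RswModel.of_good (M : RswModel P Bk c0) {q : ℝ} (hq : 0 < q) (ρ : ℝ) (hρ : 0 ≤ ρ) :
    ∃ c > 0, ∀ s : ℝ, 0 < s → q ≤ rswF P Bk s (4 / 3) → c ≤ rswF P Bk s ρ := by
  have hc0 := M.c0_pos
  refine ⟨q ^ (⌈3 * ρ⌉₊ + 1) * c0 ^ ⌈3 * ρ⌉₊, by positivity, fun s hs hqs => ?_⟩
  refine (M.F_iter hs hq.le hqs ⌈3 * ρ⌉₊).trans (M.F_anti hs hρ ?_)
  have := Nat.le_ceil (3 * ρ)
  linarith

/-- small scales: finite energy -/
theorem RswModel.of_fe (M : RswModel P Bk c0) (ρ s1 : ℝ) (hρ : 0 < ρ) :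
    ∃ c > 0, ∀ s : ℝ, 0 < s → s ≤ s1 → c ≤ rswF P Bk s ρ := by
  obtain ⟨c, hc, h⟩ := M.fe (max (ρ * s1) s1)
  refine ⟨c, hc, fun s hs hs1 => ?_⟩
  have h1 := h 0 (ρ * s) 0 s (by positivity) hs.le
    (by rw [sub_zero]; exact (mul_le_mul_of_nonneg_left hs1 hρ.le).trans (le_max_left _ _))
    (by rw [sub_zero]; exact hs1.trans (le_max_right _ _))
  exact h1.trans (M.mono _ _ fun ω hω => rsw_det_full (by positivity) hs.le hω)

/-! ## 3. Windows, `α_s`, (P1), (P2) -/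

theorem RswModel.H_nonneg (M : RswModel P Bk c0) (s α β : ℝ) : 0 ≤ rswH P Bk s α β := M.p_nonneg _

theorem RswModel.H_mono (M : RswModel P Bk c0) {s α β α' β' : ℝ} (h0 : α' ≤ α) (h1 : β ≤ β') :
    rswH P Bk s α β ≤ rswH P Bk s α' β' := M.p_mono (fun _ hB => rsw_det_win_mono h0 h1 hB)

theorem RswModel.H_split (M : RswModel P Bk c0) {s : ℝ} (hs : 0 < s) (α β γ : ℝ) :
    rswH P Bk s α γ ≤ rswH P Bk s α β + rswH P Bk s β γ :=
  M.p_or (fun _ hB => rsw_det_win_split (by linarith) hB)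

/-- `P[H_s(0,s/2)] ≥ c0/2` -/
theorem RswModel.H_half (M : RswModel P Bk c0) {s : ℝ} (hs : 0 < s) : c0 / 2 ≤ rswH P Bk s 0 (s / 2) := by
  have h1 : c0 ≤ rswH P Bk s (-s / 2) (s / 2) := by
    have h := M.sq s hs
    have e : rswP P Bk (rswLR (-s / 2) (s / 2) (-s / 2) (s / 2)) = rswP P Bk (rswLR 0 s 0 s) := by
      rw [M.p_LR]; congr 2 <;> ring
    rw [← e] at h
    exact h.trans (M.p_mono (fun _ hB => rsw_det_lr_win (by linarith) hB))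
  have h2 := M.H_split hs (-s / 2) 0 (s / 2)
  have h3 : rswH P Bk s (-s / 2) 0 = rswH P Bk s 0 (s / 2) := by
    have := M.p_Win_conj s 0 (s / 2)
    rw [← this]; congr 1 <;> ring
  linarith

theorem RswModel.al_set_bdd (s : ℝ) : BddAbove {α | 0 ≤ α ∧ α ≤ s / 4 ∧ c0 / 4 ≤ rswH P Bk s α (s / 2)} :=
  ⟨s / 4, fun _ h => h.2.1⟩

theorem RswModel.al_zero_mem (M : RswModel P Bk c0) {s : ℝ} (hs : 0 < s) :
    (0 : ℝ) ∈ {α | 0 ≤ α ∧ α ≤ s / 4 ∧ c0 / 4 ≤ rswH P Bk s α (s / 2)} :=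
  ⟨le_rfl, by positivity, by have := M.H_half hs; have := M.c0_pos; linarith⟩

theorem RswModel.al_nonneg (M : RswModel P Bk c0) {s : ℝ} (hs : 0 < s) : 0 ≤ rswAl P Bk c0 s :=
  le_csSup (RswModel.al_set_bdd s) (M.al_zero_mem hs)

theorem RswModel.al_le (M : RswModel P Bk c0) {s : ℝ} (hs : 0 < s) : rswAl P Bk c0 s ≤ s / 4 :=
  csSup_le ⟨0, M.al_zero_mem hs⟩ (fun _ h => h.2.1)

/-- (P1), first half -/
theorem RswModel.P1a (M : RswModel P Bk c0) {s α : ℝ} (hs : 0 < s) (h : α < rswAl P Bk c0 s ∨ α = 0) :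
    c0 / 4 ≤ rswH P Bk s α (s / 2) := by
  rcases h with h | rfl
  · obtain ⟨α', hα', hlt⟩ := exists_lt_of_lt_csSup ⟨0, M.al_zero_mem hs⟩ h
    exact hα'.2.2.trans (M.H_mono hlt.le le_rfl)
  · exact (M.al_zero_mem hs).2.2

/-- (P2) -/
theorem RswModel.P2 (M : RswModel P Bk c0) {s α : ℝ} (hs : 0 < s) (h1 : rswAl P Bk c0 s < α) (h2 : rswAl P Bk c0 s < s / 4) :
    c0 / 4 ≤ rswH P Bk s 0 α := by
  -- `α'' := min α (s/4)` is not in the set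
  obtain ⟨a, ha1, ha2, ha3⟩ : ∃ a, rswAl P Bk c0 s < a ∧ a ≤ α ∧ a ≤ s / 4 := ⟨min α (s / 4), lt_min h1 h2, min_le_left _ _, min_le_right _ _⟩
  have hn : ¬ c0 / 4 ≤ rswH P Bk s a (s / 2) := by
    intro hc
    have : a ≤ rswAl P Bk c0 s := le_csSup (RswModel.al_set_bdd s) ⟨(M.al_nonneg hs).trans ha1.le, ha3, hc⟩
    linarith
  have h3 := M.H_split hs 0 a (s / 2)
  have h4 := M.H_half hs
  have h5 : rswH P Bk s 0 a ≤ rswH P Bk s 0 α := M.H_mono le_rfl ha2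
  have hn' := not_le.1 hn
  linarith

/-- (P1), second half: probability of the five patterns of the X -/
theorem RswModel.X_prod (M : RswModel P Bk c0) {s α : ℝ} (cx cy : ℝ) (hs : 0 < s) (h : c0 / 4 ≤ rswH P Bk s α (s / 2)) :
    c0 * (c0 / 4) ^ 4 ≤ ((rswX cx cy s α).map (rswP P Bk)).prod := by
  have hc0 := M.c0_pos
  have e1 := M.p_Win cx cy s α (s / 2)
  have e2 : rswP P Bk (rswWin (cx - s / 2) (cx + s / 2) (cy - s / 2) (cy + s / 2) (cy - s / 2) (cy - α)) = rswH P Bk s α (s / 2) := by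
    have := M.p_Win cx cy s (-(s / 2)) (-α)
    rw [M.p_Win_conj] at this
    rw [← this]; rfl
  have e3 := M.p_WinL cx cy s α (s / 2)
  have e4 : rswP P Bk (rswWinL (cx - s / 2) (cx + s / 2) (cy - s / 2) (cy + s / 2) (cy - s / 2) (cy - α)) = rswH P Bk s α (s / 2) := by
    have := M.p_WinL cx cy s (-(s / 2)) (-α)
    rw [M.p_Win_conj] at this
    rw [← this]; rfl
  have e5 : rswP P Bk (rswTB (cx - s / 2) (cx + s / 2) (cy - s / 2) (cy + s / 2)) = rswF P Bk s 1 := M.p_TB_F (by ring) (by ring)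
  simp only [rswX, List.map_cons, List.map_nil, List.prod_cons, List.prod_nil, mul_one]
  rw [e1, e2, e3, e4, e5]
  have h5 := M.F_one hs
  have h0 : 0 ≤ c0 / 4 := by positivity
  have h4 : (c0 / 4) ^ 4 ≤ rswH P Bk s α (s / 2) ^ 4 := pow_le_pow_left₀ h0 h 4
  have hH := M.H_nonneg s α (s / 2)
  calc c0 * (c0 / 4) ^ 4 ≤ rswF P Bk s 1 * rswH P Bk s α (s / 2) ^ 4 := mul_le_mul h5 h4 (by positivity) (M.F_nonneg _ _)
    _ = _ := by ring


/-! ## 4. Lemma A -/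

theorem RswModel.C2_pos (M : RswModel P Bk c0) : 0 < rswC2 c0 := by
  have := M.c0_pos
  unfold rswC2
  positivity

/-- case 1 -/
theorem RswModel.lemA1 (M : RswModel P Bk c0) {s : ℝ} (hs : 0 < s) (h1 : rswAl P Bk c0 s ≤ s / 6)
    (h2 : rswAl P Bk c0 s < 2 * rswAl P Bk c0 (2 * s / 3)) : rswC2 c0 ≤ rswF P Bk s (4 / 3) := by
  have hc0 := M.c0_pos
  obtain ⟨a, ha1, ha2, ha3⟩ : ∃ a, rswAl P Bk c0 s < a ∧ a < 2 * rswAl P Bk c0 (2 * s / 3) ∧ a < s / 4 := by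
    obtain ⟨a, h3, h4⟩ := exists_between (lt_min h2 (by linarith : rswAl P Bk c0 s < s / 4))
    exact ⟨a, h3, h4.trans_le (min_le_left _ _), h4.trans_le (min_le_right _ _)⟩
  have ha0 : 0 ≤ a := (M.al_nonneg hs).trans ha1.le
  have hH : c0 / 4 ≤ rswH P Bk s 0 a := M.P2 hs ha1 (by linarith)
  have hs' : 0 < 2 * s / 3 := by positivity
  have hX := M.X_prod (s / 6) (a / 2) hs' (M.P1a hs' (Or.inl (by linarith : a / 2 < rswAl P Bk c0 (2 * s / 3))))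
  have key := M.p_fkg (rswWin (-s / 2) (s / 2) (-s / 2) (s / 2) 0 a :: rswWinL (-s / 6) (5 * s / 6) (-s / 2) (s / 2) 0 a ::
      rswX (s / 6) (a / 2) (2 * s / 3) (a / 2))
    (by
      intro e he
      simp only [List.mem_cons] at he
      rcases he with rfl | rfl | he
      · exact rsw_nice_Win _ _ _ _ _ _
      · exact rsw_nice_WinL _ _ _ _ _ _
      · exact rsw_nice_X _ _ _ _ e he)
    (e' := rswLR (-s / 2) (5 * s / 6) (-s / 2) (s / 2))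
    (by
      intro B hB
      exact rsw_det_A1 hs ha0 (by linarith) (hB _ (by simp)) (hB _ (by simp)) (fun e he => hB e (by simp [he])))
  simp only [List.map_cons, List.prod_cons] at key
  have e1 : rswP P Bk (rswWin (-s / 2) (s / 2) (-s / 2) (s / 2) 0 a) = rswH P Bk s 0 a := rfl
  have e2 : rswP P Bk (rswWinL (-s / 6) (5 * s / 6) (-s / 2) (s / 2) 0 a) = rswH P Bk s 0 a := by
    rw [← M.p_WinL (s / 3) 0 s 0 a]
    congr 2 <;> ring
  have e3 : rswP P Bk (rswLR (-s / 2) (5 * s / 6) (-s / 2) (s / 2)) = rswF P Bk s (4 / 3) := M.p_LR_F (by ring) (by ring)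
  rw [e1, e2, e3] at key
  refine le_trans ?_ key
  unfold rswC2
  have h0 : 0 ≤ c0 / 4 := by positivity
  have hc1 : 0 ≤ c0 * (c0 / 4) ^ 4 := by positivity
  have hHn := M.H_nonneg s 0 a
  calc (c0 / 4) ^ 2 * (c0 * (c0 / 4) ^ 4) = c0 / 4 * (c0 / 4 * (c0 * (c0 / 4) ^ 4)) := by ring
    _ ≤ _ := mul_le_mul hH (mul_le_mul hH hX hc1 hHn) (by positivity) hHn

/-- case 2 -/
theorem RswModel.lemA2 (M : RswModel P Bk c0) {s : ℝ} (hs : 0 < s) (h1 : s / 6 < rswAl P Bk c0 s) :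
    rswC2 c0 ≤ rswF P Bk s (4 / 3) := by
  have hc0 := M.c0_pos
  have hH : c0 / 4 ≤ rswH P Bk s (s / 6) (s / 2) := M.P1a hs (Or.inl h1)
  have hX := M.X_prod 0 (s / 3) hs hH
  have key := M.p_fkg (rswWin (-s / 2) (s / 2) (-s / 2) (s / 2) (s / 6) (s / 2) :: rswTB (-s / 2) (s / 2) (-s / 2) (s / 2) ::
      rswX 0 (s / 3) s (s / 6))
    (by
      intro e he
      simp only [List.mem_cons] at he
      rcases he with rfl | rfl | he
      · exact rsw_nice_Win _ _ _ _ _ _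
      · exact rsw_nice_TB _ _ _ _
      · exact rsw_nice_X _ _ _ _ e he)
    (e' := rswTB (-s / 2) (s / 2) (-s / 2) (5 * s / 6))
    (by
      intro B hB
      exact rsw_det_A2 hs (hB _ (by simp)) (hB _ (by simp)) (fun e he => hB e (by simp [he])))
  simp only [List.map_cons, List.prod_cons] at key
  have e1 : rswP P Bk (rswWin (-s / 2) (s / 2) (-s / 2) (s / 2) (s / 6) (s / 2)) = rswH P Bk s (s / 6) (s / 2) := rfl
  have e2 : rswP P Bk (rswTB (-s / 2) (s / 2) (-s / 2) (s / 2)) = rswF P Bk s 1 := M.p_TB_F (by ring) (by ring)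
  have e3 : rswP P Bk (rswTB (-s / 2) (s / 2) (-s / 2) (5 * s / 6)) = rswF P Bk s (4 / 3) := M.p_TB_F (by ring) (by ring)
  rw [e1, e2, e3] at key
  refine le_trans ?_ key
  unfold rswC2
  have h0 : 0 ≤ c0 / 4 := by positivity
  have hc1 : 0 ≤ c0 * (c0 / 4) ^ 4 := by positivity
  have hHn := M.H_nonneg s (s / 6) (s / 2)
  have hF : c0 / 4 ≤ rswF P Bk s 1 := by have := M.F_one hs; linarith
  calc (c0 / 4) ^ 2 * (c0 * (c0 / 4) ^ 4) = c0 / 4 * (c0 / 4 * (c0 * (c0 / 4) ^ 4)) := by ring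
    _ ≤ _ := mul_le_mul hH (mul_le_mul hF hX hc1 (M.F_nonneg _ _)) (by positivity) hHn

theorem RswModel.lemA (M : RswModel P Bk c0) {s : ℝ} (hs : 0 < s)
    (h : s / 6 < rswAl P Bk c0 s ∨ rswAl P Bk c0 s < 2 * rswAl P Bk c0 (2 * s / 3)) : rswC2 c0 ≤ rswF P Bk s (4 / 3) := by
  by_cases h1 : s / 6 < rswAl P Bk c0 s
  · exact M.lemA2 hs h1
  · exact M.lemA1 hs (not_lt.1 h1) (h.resolve_left h1)

/-! ## 5. Lemma B -/

/-- the gluing step of Lemma B -/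
theorem RswModel.lemB_two (M : RswModel P Bk c0) {u t c : ℝ} (ht : 0 < t) (hu : 4 * t ≤ u) (hc0 : 0 ≤ c) (hc : c ≤ rswF P Bk t 4)
    (hH : c0 / 4 ≤ rswH P Bk u 0 t) : (c0 / 4) ^ 2 * c ^ 4 ≤ rswF P Bk u 2 := by
  have hc0' := M.c0_pos
  have key := M.p_fkg [rswWin (-u / 2) (u / 2) (-u / 2) (u / 2) 0 t, rswWinL (u / 2) (3 * u / 2) (-u / 2) (u / 2) 0 t,
      rswLR (u / 2 - 2 * t) (u / 2 + 2 * t) (0 + t) (0 + 2 * t), rswLR (u / 2 - 2 * t) (u / 2 + 2 * t) (0 - 2 * t) (0 - t),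
      rswTB (u / 2 - 2 * t) (u / 2 - t) (0 - 2 * t) (0 + 2 * t), rswTB (u / 2 + t) (u / 2 + 2 * t) (0 - 2 * t) (0 + 2 * t)]
    (by
      intro e he
      simp only [List.mem_cons, List.not_mem_nil, or_false] at he
      rcases he with rfl | rfl | rfl | rfl | rfl | rfl
      · exact rsw_nice_Win _ _ _ _ _ _
      · exact rsw_nice_WinL _ _ _ _ _ _
      · exact rsw_nice_LR _ _ _ _
      · exact rsw_nice_LR _ _ _ _
      · exact rsw_nice_TB _ _ _ _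
      · exact rsw_nice_TB _ _ _ _)
    (e' := rswLR (-u / 2) (3 * u / 2) (-u / 2) (u / 2))
    (by
      intro B hB
      exact rsw_det_B ht hu (hB _ (by simp)) (hB _ (by simp)) (hB _ (by simp)) (hB _ (by simp)) (hB _ (by simp)) (hB _ (by simp)))
  simp only [List.map_cons, List.map_nil, List.prod_cons, List.prod_nil, mul_one] at key
  have e1 : rswP P Bk (rswWin (-u / 2) (u / 2) (-u / 2) (u / 2) 0 t) = rswH P Bk u 0 t := rfl
  have e2 : rswP P Bk (rswWinL (u / 2) (3 * u / 2) (-u / 2) (u / 2) 0 t) = rswH P Bk u 0 t := by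
    rw [← M.p_WinL u 0 u 0 t]
    congr 2 <;> ring
  have e3 : rswP P Bk (rswLR (u / 2 - 2 * t) (u / 2 + 2 * t) (0 + t) (0 + 2 * t)) = rswF P Bk t 4 := M.p_LR_F (by ring) (by ring)
  have e4 : rswP P Bk (rswLR (u / 2 - 2 * t) (u / 2 + 2 * t) (0 - 2 * t) (0 - t)) = rswF P Bk t 4 := M.p_LR_F (by ring) (by ring)
  have e5 : rswP P Bk (rswTB (u / 2 - 2 * t) (u / 2 - t) (0 - 2 * t) (0 + 2 * t)) = rswF P Bk t 4 := M.p_TB_F (by ring) (by ring)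
  have e6 : rswP P Bk (rswTB (u / 2 + t) (u / 2 + 2 * t) (0 - 2 * t) (0 + 2 * t)) = rswF P Bk t 4 := M.p_TB_F (by ring) (by ring)
  have e7 : rswP P Bk (rswLR (-u / 2) (3 * u / 2) (-u / 2) (u / 2)) = rswF P Bk u 2 := M.p_LR_F (by ring) (by ring)
  rw [e1, e2, e3, e4, e5, e6, e7] at key
  refine le_trans ?_ key
  have h0 : 0 ≤ c0 / 4 := by positivity
  have hHn := M.H_nonneg u 0 t
  have hFn := M.F_nonneg t 4
  have h2 : (c0 / 4) ^ 2 ≤ rswH P Bk u 0 t ^ 2 := pow_le_pow_left₀ h0 hH 2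
  have h4 : c ^ 4 ≤ rswF P Bk t 4 ^ 4 := pow_le_pow_left₀ hc0 hc 4
  calc (c0 / 4) ^ 2 * c ^ 4 ≤ rswH P Bk u 0 t ^ 2 * rswF P Bk t 4 ^ 4 := mul_le_mul h2 h4 (by positivity) (by positivity)
    _ = _ := by ring

/-- from aspect 2 to aspect 6 -/
theorem RswModel.two_six (M : RswModel P Bk c0) {u q : ℝ} (hu : 0 < u) (hq0 : 0 ≤ q) (hq : q ≤ rswF P Bk u 2) :
    (q ^ 2 * c0) ^ 2 * c0 * q * c0 ≤ rswF P Bk u 6 := by
  have hc0 := M.c0_pos
  have hF2 := M.F_nonneg u 2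
  have h3 := M.F_len (ρ := 2) (ρ' := 2) hu (by norm_num) (by norm_num)
  have h5 := M.F_len (ρ := 3) (ρ' := 3) hu (by norm_num) (by norm_num)
  have h6 := M.F_len (ρ := 5) (ρ' := 2) hu (by norm_num) (by norm_num)
  norm_num at h3 h5 h6
  have a3 : q ^ 2 * c0 ≤ rswF P Bk u 3 := by
    refine le_trans ?_ h3
    have : q ^ 2 ≤ rswF P Bk u 2 * rswF P Bk u 2 := by rw [pow_two]; exact mul_le_mul hq hq hq0 hF2
    exact mul_le_mul_of_nonneg_right this hc0.le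
  have a5 : (q ^ 2 * c0) ^ 2 * c0 ≤ rswF P Bk u 5 := by
    refine le_trans ?_ h5
    have : (q ^ 2 * c0) ^ 2 ≤ rswF P Bk u 3 * rswF P Bk u 3 := by
      rw [pow_two]; exact mul_le_mul a3 a3 (by positivity) (M.F_nonneg _ _)
    exact mul_le_mul_of_nonneg_right this hc0.le
  refine le_trans ?_ h6
  exact mul_le_mul_of_nonneg_right (mul_le_mul a5 hq hq0 (M.F_nonneg _ _)) hc0.le

theorem RswModel.lemB (M : RswModel P Bk c0) {c : ℝ} (hc : 0 < c) :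
    ∃ C : ℝ, 12 ≤ C ∧ ∀ t : ℝ, 1 ≤ t → c ≤ rswF P Bk t 4 → ∃ t', 4 * t ≤ t' ∧ t' ≤ C * t ∧ t ≤ rswAl P Bk c0 t' := by
  have hc0 := M.c0_pos
  obtain ⟨C, hC, had⟩ := M.ad ((((c0 / 4) ^ 2 * c ^ 4) ^ 2 * c0) ^ 2 * c0 * ((c0 / 4) ^ 2 * c ^ 4) * c0) (by positivity)
  refine ⟨C, hC, fun t ht hct => ?_⟩
  by_contra hcon
  push Not at hcon
  have ht0 : 0 < t := by linarith
  have hH : ∀ u, 4 * t ≤ u → u ≤ C * t → c0 / 4 ≤ rswH P Bk u 0 t := by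
    intro u h1 h2
    have h3 := hcon u h1 h2
    exact M.P2 (by linarith) h3 (by linarith)
  have h6 : ∀ u, 4 * t ≤ u → u ≤ C * t →
      (((c0 / 4) ^ 2 * c ^ 4) ^ 2 * c0) ^ 2 * c0 * ((c0 / 4) ^ 2 * c ^ 4) * c0 ≤ rswF P Bk u 6 := by
    intro u h1 h2
    exact M.two_six (by linarith) (by positivity) (M.lemB_two ht0 h1 hc.le hct (hH u h1 h2))
  have h7 := had t ht h6
  have h8 : c0 / 4 ≤ rswH P Bk (C * t) 0 t := hH (C * t) (by nlinarith) le_rfl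
  have h9 : rswH P Bk (C * t) 0 t ≤ rswP P Bk (rswArm (C * t / 2) 0 t (C * t)) :=
    M.p_mono (fun _ hB => rsw_det_arm ht0.le (by nlinarith) hB)
  rw [M.p_Arm] at h9
  linarith

/-! ## 6. Good scales -/

/-- (i): a scale with `α_{t'} ≥ t'/C` is followed by a good scale `(3/2)^j t'`, `1 ≤ j ≤ k0(C)`.
Otherwise Lemma A gives `α_{(3/2)^j t'} ≥ 2 α_{(3/2)^(j-1) t'}`, so `(3/2)^k t'/4 ≥ α ≥ 2^k t'/C`: false as soon as `(4/3)^k > C/4`. -/
theorem RswModel.good_next (M : RswModel P Bk c0) {C : ℝ} (hC : 0 < C) :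
    ∃ k0 : ℕ, ∀ t' : ℝ, 0 < t' → t' / C ≤ rswAl P Bk c0 t' →
      ∃ j : ℕ, 1 ≤ j ∧ j ≤ k0 ∧ rswC2 c0 ≤ rswF P Bk ((3 / 2) ^ j * t') (4 / 3) := by
  obtain ⟨k0, hk0⟩ := pow_unbounded_of_one_lt (C / 4) (by norm_num : (1 : ℝ) < 4 / 3)
  refine ⟨k0, fun t' ht' hal => ?_⟩
  by_contra hcon
  push Not at hcon
  have hind : ∀ j : ℕ, j ≤ k0 → 2 ^ j * (t' / C) ≤ rswAl P Bk c0 ((3 / 2) ^ j * t') := by
    intro j
    induction j with
    | zero => intro _; simpa using hal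
    | succ j ih =>
      intro hj
      have h1 := ih (by omega)
      have h2 := hcon (j + 1) (by omega) hj
      have hs : 0 < (3 / 2 : ℝ) ^ (j + 1) * t' := by positivity
      have h3 : ¬ (((3 / 2 : ℝ) ^ (j + 1) * t') / 6 < rswAl P Bk c0 ((3 / 2) ^ (j + 1) * t') ∨
          rswAl P Bk c0 ((3 / 2) ^ (j + 1) * t') < 2 * rswAl P Bk c0 (2 * ((3 / 2) ^ (j + 1) * t') / 3)) := by
        intro h
        exact absurd (M.lemA hs h) (not_le.2 h2)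
      push Not at h3
      have e : 2 * ((3 / 2 : ℝ) ^ (j + 1) * t') / 3 = (3 / 2) ^ j * t' := by rw [pow_succ]; ring
      rw [e] at h3
      calc (2 : ℝ) ^ (j + 1) * (t' / C) = 2 * (2 ^ j * (t' / C)) := by rw [pow_succ]; ring
        _ ≤ 2 * rswAl P Bk c0 ((3 / 2) ^ j * t') := by linarith
        _ ≤ _ := h3.2
  have h1 := hind k0 le_rfl
  have h2 := M.al_le (s := (3 / 2 : ℝ) ^ k0 * t') (by positivity)
  have h3 : (2 : ℝ) ^ k0 = (4 / 3) ^ k0 * (3 / 2) ^ k0 := by rw [← mul_pow]; norm_num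
  have h4 : (2 : ℝ) ^ k0 * (t' / C) ≤ (3 / 2) ^ k0 * t' / 4 := h1.trans h2
  rw [h3] at h4
  have h5 : (0 : ℝ) < (3 / 2) ^ k0 * t' := by positivity
  have h6 : (4 / 3 : ℝ) ^ k0 / C ≤ 1 / 4 := by
    have : (4 / 3 : ℝ) ^ k0 / C * ((3 / 2) ^ k0 * t') ≤ 1 / 4 * ((3 / 2) ^ k0 * t') := by
      calc (4 / 3 : ℝ) ^ k0 / C * ((3 / 2) ^ k0 * t') = (4 / 3) ^ k0 * (3 / 2) ^ k0 * (t' / C) := by ring
        _ ≤ (3 / 2) ^ k0 * t' / 4 := h4
        _ = _ := by ring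
    exact le_of_mul_le_mul_right this h5
  rw [div_le_iff₀ hC] at h6
  linarith

/-- (ii) + (iii) in one statement: if `f(t,4) ≥ c` at a scale `t ≥ 1`, there is a good scale in `[4t, C5 t]`, `C5 = C5(c)` -/
theorem RswModel.good_after (M : RswModel P Bk c0) {c : ℝ} (hc : 0 < c) :
    ∃ C5 : ℝ, 4 ≤ C5 ∧ ∀ t : ℝ, 1 ≤ t → c ≤ rswF P Bk t 4 →
      ∃ g, 4 * t ≤ g ∧ g ≤ C5 * t ∧ rswC2 c0 ≤ rswF P Bk g (4 / 3) := by
  obtain ⟨C, hC, hB⟩ := M.lemB hc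
  obtain ⟨k0, hk⟩ := M.good_next (C := C) (by linarith)
  refine ⟨(3 / 2) ^ k0 * C, ?_, fun t ht hct => ?_⟩
  · have : (1 : ℝ) ≤ (3 / 2) ^ k0 := one_le_pow₀ (by norm_num)
    nlinarith
  · obtain ⟨t', h1, h2, h3⟩ := hB t ht hct
    have ht' : 0 < t' := by linarith
    obtain ⟨j, hj1, hj2, hg⟩ := hk t' ht' (by
      rw [div_le_iff₀ (by linarith)]
      nlinarith)
    refine ⟨(3 / 2) ^ j * t', ?_, ?_, hg⟩
    · have : (1 : ℝ) ≤ (3 / 2) ^ j := one_le_pow₀ (by norm_num)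
      nlinarith
    · have h4 : ((3 : ℝ) / 2) ^ j ≤ (3 / 2) ^ k0 := pow_le_pow_right₀ (by norm_num) hj2
      have h5 : (0 : ℝ) < (3 / 2) ^ j := by positivity
      calc (3 / 2 : ℝ) ^ j * t' ≤ (3 / 2) ^ k0 * (C * t) := by gcongr
        _ = _ := by ring

/-- (iv): the good scales are relatively dense in `[s1, ∞)` -/
theorem RswModel.good_cover (M : RswModel P Bk c0) :
    ∃ s1 C5 : ℝ, 0 < s1 ∧ 0 < C5 ∧ ∀ s : ℝ, s1 ≤ s → ∃ g, 0 < g ∧ g ≤ s ∧ s ≤ C5 * g ∧ rswC2 c0 ≤ rswF P Bk g (4 / 3) := by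
  obtain ⟨ca, hca, ha⟩ := M.of_fe 4 1 (by norm_num)
  obtain ⟨Ca, hCa, hga⟩ := M.good_after hca
  obtain ⟨g1, hg1a, hg1b, hg1⟩ := hga 1 le_rfl (ha 1 one_pos le_rfl)
  obtain ⟨cb, hcb, hb⟩ := M.of_good M.C2_pos 4 (by norm_num)
  obtain ⟨Cb, hCb, hgb⟩ := M.good_after hcb
  have step : ∀ n : ℕ, ∀ g : ℝ, 1 ≤ g → rswC2 c0 ≤ rswF P Bk g (4 / 3) → ∀ s, g ≤ s → s < 4 ^ n * g →
      ∃ g', 0 < g' ∧ g' ≤ s ∧ s ≤ Cb * g' ∧ rswC2 c0 ≤ rswF P Bk g' (4 / 3) := by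
    intro n
    induction n with
    | zero => intro g _ _ s h1 h2; simp at h2; linarith
    | succ n ih =>
      intro g hg hgood s h1 h2
      obtain ⟨g', h3, h4, h5⟩ := hgb g hg (hb g (by linarith) hgood)
      rcases lt_or_ge s g' with h | h
      · exact ⟨g, by linarith, h1, by linarith, hgood⟩
      · refine ih g' (by linarith) h5 s h ?_
        have : (0 : ℝ) < 4 ^ n := by positivity
        calc s < 4 ^ (n + 1) * g := h2
          _ = 4 ^ n * (4 * g) := by rw [pow_succ]; ring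
          _ ≤ 4 ^ n * g' := by gcongr
  refine ⟨g1, Cb, by linarith, by linarith, fun s hs => ?_⟩
  have hg1pos : 0 < g1 := by linarith
  obtain ⟨n, hn⟩ := pow_unbounded_of_one_lt (s / g1) (by norm_num : (1 : ℝ) < 4)
  rw [div_lt_iff₀ hg1pos] at hn
  exact step n g1 (by linarith) hg1 s hs hn


/-! ## 7. The theorem -/

/-- **RSW (Tassion), abstract form.** -/
theorem rsw_main (M : RswModel P Bk c0) (ρ : ℝ) (hρ : 0 < ρ) :
    ∃ c > 0, ∀ s : ℝ, 0 < s → c ≤ rswP P Bk (rswLR 0 (ρ * s) 0 s) := by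
  obtain ⟨s1, C5, hs1, hC5, hcov⟩ := M.good_cover
  obtain ⟨ca, hca, ha⟩ := M.of_good M.C2_pos (C5 * ρ) (by positivity)
  obtain ⟨cb, hcb, hb⟩ := M.of_fe ρ s1 hρ
  refine ⟨min ca cb, lt_min hca hcb, fun s hs => ?_⟩
  rcases le_total s1 s with h | h
  · obtain ⟨g, hg, hgs, hsg, hgood⟩ := hcov s h
    have h1 := ha g hg hgood
    have h2 : rswF P Bk g (C5 * ρ) ≤ rswF P Bk g (ρ * s / g) := M.F_anti hg (by positivity) (by
      rw [div_le_iff₀ hg]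
      nlinarith)
    have h3 := M.F_thin (ρ := ρ) hg hgs
    exact (min_le_left _ _).trans (h1.trans (h2.trans h3))
  · exact (min_le_right _ _).trans (hb s hs h)

end Claimed.Agent.R289
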