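import Claimed.Agent.R289.Rsw.Topo
import Claimed.Agent.R289.PppCnt
import Claimed.Agent.R289.PppPv

/-!
# Row 289 (S0537), box RSW part II, file Rsw/VerMeas : MEAS = connection events are measurable      (owner helper238, head helper262; design helper259 rsw_259.md sec. 6 MEAS; prefix `pvrm`)

GOAL `pv_conn_meas` : for a nice pattern `e = (K, S, T)` (`K` convex sigma-compact, `S`, `T` compact) the event `{η | e.Holds (black region of η)} ∩ {η | PvLF η}` is measurable for the void sigma-algebra of `Conf PvPt`.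
The black region is the MONOTONE one, `pvrmB η = {z | ∃ v black, ∀ w white, ‖z - v‖ ≤ ‖z - w‖}` (`= cfB η` of Rsw/Ver by `rfl`).

ROUTE
1. `pvrm_holds_bdd`   : a path is bounded, so `e.Holds B ↔ ∃ m, (K ∩ closedBall 0 m, S, T).Holds B`.
2. `pvrm_loc`         : EXACT localisation: if `η` has a point in `closedBall 0 m` then the region of `η` and of `η ∩ closedBall 0 (2 r + m)` coincide on `closedBall 0 r`.
3. `pvrm_B_ofFn`      : the region of a finite family `x : Fin n → PvPt` is the union of the closed convex pieces `pvrmPc x i`; CH (`rsw_chain_iff_path`) turns `Holds` into a statement on the finite relation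
                        `(pvrmPc x i ∩ pvrmPc x j ∩ K).Nonempty`.
4. `pvrm_proj_closed` : the projection along a compact set of a closed set is closed; so each entry of the relation is an `F_σ` condition on `x`; `pvrm_fin_meas`.
5. `pvrm_T2`          : GENERIC bridge 'FinMeas ⇒ measurable' from the measurable enumeration `pvcn_enum` of PppCnt.
6. `pv_conn_meas` and its corollaries (white region, lists of patterns, restricted configurations, null measurability under `pvP ε`).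
-/

set_option autoImplicit false
set_option linter.unusedSectionVars false

namespace Claimed.Agent.R289

open MeasureTheory Set Metric Topology

/-! ## 0. Vocabulary -/

/-- the monotone region: points at least as close to some point of `A` as to every point of `W` -/
def pvrmReg (A W : Set ℂ) : Set ℂ := {z | ∃ v ∈ A, ∀ w ∈ W, ‖z - v‖ ≤ ‖z - w‖}

/-- the black region of a coloured configuration (monotone form) -/
def pvrmB (η : Conf PvPt) : Set ℂ := pvrmReg {v | (v, true) ∈ η.pts} {w | (w, false) ∈ η.pts}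

/-- the white region of a coloured configuration (monotone form) -/
def pvrmW (η : Conf PvPt) : Set ℂ := pvrmReg {w | (w, false) ∈ η.pts} {v | (v, true) ∈ η.pts}

/-- the piece of the index `i` in a family of coloured points: empty if `i` is white -/
def pvrmPc {ι : Type*} (x : ι → PvPt) (i : ι) : Set ℂ :=
  {z | (x i).2 = true ∧ ∀ j, (x j).2 = false → ‖z - (x i).1‖ ≤ ‖z - (x j).1‖}

/-- the window of radius `R` in the space of coloured points -/
def pvrmWin (R : ℝ) : Set PvPt := {p | ‖p.1‖ ≤ R}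

theorem pvrm_defs_eqns_cite : True := by
  have := @pvrmReg.eq_1
  have := @pvrmB.eq_1
  have := @pvrmW.eq_1
  have := @pvrmPc.eq_1.{0}
  have := @pvrmWin.eq_1
  trivial

/-! ## 1. Reduction to bounded `K` -/

theorem pvrm_holds_bdd (e : RswTri) (B : Set ℂ) :
    e.Holds B ↔ ∃ m : ℕ, (⟨e.K ∩ closedBall 0 m, e.S, e.T⟩ : RswTri).Holds B := by
  constructor
  · rintro ⟨x, hx, y, hy, γ, hγ⟩
    obtain ⟨r, hr⟩ := (isCompact_range γ.continuous).isBounded.subset_closedBall (0 : ℂ)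
    refine ⟨⌈r⌉₊, x, hx, y, hy, γ, fun t => ⟨(hγ t).1, (hγ t).2, ?_⟩⟩
    exact closedBall_subset_closedBall (Nat.le_ceil r) (hr ⟨t, rfl⟩)
  · rintro ⟨m, x, hx, y, hy, h⟩
    exact ⟨x, hx, y, hy, h.mono (inter_subset_inter_right _ inter_subset_left)⟩

theorem pvrm_nice_bdd {e : RswTri} (he : e.Nice) (m : ℕ) : (⟨e.K ∩ closedBall 0 m, e.S, e.T⟩ : RswTri).Nice := by
  obtain ⟨h1, h2, h3, h4⟩ := he
  refine ⟨h1.inter (convex_closedBall _ _), ?_, h3, h4⟩
  obtain ⟨Q, hQ, hQK⟩ := h2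
  refine ⟨fun l => Q l ∩ closedBall 0 m, fun l => (hQ l).inter_right isClosed_closedBall, ?_⟩
  show ⋃ l, Q l ∩ closedBall 0 m = e.K ∩ closedBall 0 m
  rw [← iUnion_inter, hQK]

/-! ## 2. Exact localisation -/

theorem pvrm_loc {A W : Set ℂ} {r m : ℝ} {p0 : ℂ} (hp0 : p0 ∈ A ∪ W) (hm : ‖p0‖ ≤ m) {z : ℂ} (hz : ‖z‖ ≤ r) :
    z ∈ pvrmReg A W ↔ z ∈ pvrmReg (A ∩ closedBall 0 (2 * r + m)) (W ∩ closedBall 0 (2 * r + m)) := by
  have hr : 0 ≤ r := (norm_nonneg z).trans hz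
  have hzp : ‖z - p0‖ ≤ r + m := (norm_sub_le z p0).trans (add_le_add hz hm)
  have hp0b : p0 ∈ closedBall (0 : ℂ) (2 * r + m) := by
    rw [mem_closedBall_zero_iff]; linarith
  have hin : ∀ v : ℂ, ‖z - v‖ ≤ r + m → v ∈ closedBall (0 : ℂ) (2 * r + m) := by
    intro v hv
    rw [mem_closedBall_zero_iff]
    have : ‖v‖ ≤ ‖z‖ + ‖z - v‖ := by
      have := norm_sub_le z (z - v)
      simpa using this
    linarith
  have hout : ∀ w : ℂ, w ∉ closedBall (0 : ℂ) (2 * r + m) → r + m < ‖z - w‖ := by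
    intro w hw
    by_contra hc
    exact hw (hin w (not_lt.1 hc))
  constructor
  · rintro ⟨v, hv, hw⟩
    by_cases hvn : ‖z - v‖ ≤ r + m
    · exact ⟨v, ⟨hv, hin v hvn⟩, fun w hw' => hw w hw'.1⟩
    · rcases hp0 with hA | hW
      · exact ⟨p0, ⟨hA, hp0b⟩, fun w hw' => hzp.trans ((not_le.1 hvn).le.trans (hw w hw'.1))⟩
      · exact absurd ((hw p0 hW).trans hzp) hvn
  · rintro ⟨v, hv, hw⟩
    by_cases hvn : ‖z - v‖ ≤ r + m
    · refine ⟨v, hv.1, fun w hw' => ?_⟩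
      by_cases hwb : w ∈ closedBall (0 : ℂ) (2 * r + m)
      · exact hw w ⟨hw', hwb⟩
      · exact hvn.trans (hout w hwb).le
    · rcases hp0 with hA | hW
      · refine ⟨p0, hA, fun w hw' => ?_⟩
        by_cases hwb : w ∈ closedBall (0 : ℂ) (2 * r + m)
        · exact hzp.trans ((not_le.1 hvn).le.trans (hw w ⟨hw', hwb⟩))
        · exact hzp.trans (hout w hwb).le
      · exact absurd ((hw p0 ⟨hW, hp0b⟩).trans hzp) hvn

/-- localisation for configurations -/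
theorem pvrm_loc_conf {η : Conf PvPt} {r m : ℝ} (hne : (η.pts ∩ pvrmWin m).Nonempty) {K : Set ℂ} (hK : K ⊆ closedBall 0 r) :
    pvrmB η ∩ K = pvrmB (Conf.restr (pvrmWin (2 * r + m)) η) ∩ K := by
  obtain ⟨⟨p0, c⟩, hp, hpm⟩ := hne
  have hpm' : ‖p0‖ ≤ m := hpm
  have hp0 : p0 ∈ {v | (v, true) ∈ η.pts} ∪ {w | (w, false) ∈ η.pts} := by
    cases c
    · exact Or.inr hp
    · exact Or.inl hp
  have e1 : ∀ c : Bool, {v | (v, c) ∈ (Conf.restr (pvrmWin (2 * r + m)) η).pts} = {v | (v, c) ∈ η.pts} ∩ closedBall 0 (2 * r + m) := by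
    intro c
    ext v
    simp only [Conf.restr, pvrmWin, mem_inter_iff, mem_ofPred_eq, mem_closedBall_zero_iff]
  ext z
  simp only [mem_inter_iff]
  refine and_congr_left fun hz => ?_
  have hz' : ‖z‖ ≤ r := by simpa using hK hz
  unfold pvrmB
  rw [e1, e1]
  exact pvrm_loc hp0 hpm' hz'

/-! ## 3. Finite families: pieces and chains -/

theorem pvrm_pc_closed {ι : Type*} (x : ι → PvPt) (i : ι) : IsClosed (pvrmPc x i) := by
  by_cases hc : (x i).2 = true
  · have : pvrmPc x i = ⋂ j, ⋂ (_ : (x j).2 = false), {z | ‖z - (x i).1‖ ≤ ‖z - (x j).1‖} := by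
      ext z
      simp only [pvrmPc, mem_ofPred_eq, mem_iInter, hc, true_and]
    rw [this]
    refine isClosed_iInter fun j => isClosed_iInter fun _ => ?_
    exact isClosed_le (by fun_prop) (by fun_prop)
  · have : pvrmPc x i = ∅ := by
      ext z
      simp only [pvrmPc, mem_ofPred_eq, mem_empty_iff_false, iff_false, not_and]
      exact fun h => absurd h hc
    rw [this]; exact isClosed_empty

theorem pvrm_half_convex (a b : ℂ) : Convex ℝ {z : ℂ | ‖z - a‖ ≤ ‖z - b‖} := by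
  have : {z : ℂ | ‖z - a‖ ≤ ‖z - b‖} = {z : ℂ | 2 * ((b.re - a.re) * z.re + (b.im - a.im) * z.im) ≤ b.re ^ 2 + b.im ^ 2 - a.re ^ 2 - a.im ^ 2} := by
    ext z
    simp only [mem_ofPred_eq]
    rw [← abs_of_nonneg (norm_nonneg (z - a)), ← abs_of_nonneg (norm_nonneg (z - b)), ← sq_le_sq, Complex.sq_norm, Complex.sq_norm,
      Complex.normSq_apply, Complex.normSq_apply]
    simp only [Complex.sub_re, Complex.sub_im]
    constructor <;> intro h <;> nlinarith
  rw [this]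
  intro z hz w hw s t hs ht hst
  simp only [mem_ofPred_eq, Complex.add_re, Complex.add_im, Complex.real_smul, Complex.mul_re, Complex.mul_im, Complex.ofReal_re, Complex.ofReal_im, zero_mul, sub_zero, add_zero] at hz hw ⊢
  have h1 := mul_le_mul_of_nonneg_left hz hs
  have h2 := mul_le_mul_of_nonneg_left hw ht
  have h3 : s * (b.re ^ 2 + b.im ^ 2 - a.re ^ 2 - a.im ^ 2) + t * (b.re ^ 2 + b.im ^ 2 - a.re ^ 2 - a.im ^ 2) = b.re ^ 2 + b.im ^ 2 - a.re ^ 2 - a.im ^ 2 := by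
    rw [← add_mul, hst, one_mul]
  nlinarith

theorem pvrm_pc_convex {ι : Type*} (x : ι → PvPt) (i : ι) : Convex ℝ (pvrmPc x i) := by
  by_cases hc : (x i).2 = true
  · have : pvrmPc x i = ⋂ j, ⋂ (_ : (x j).2 = false), {z | ‖z - (x i).1‖ ≤ ‖z - (x j).1‖} := by
      ext z
      simp only [pvrmPc, mem_ofPred_eq, mem_iInter, hc, true_and]
    rw [this]
    exact convex_iInter fun j => convex_iInter fun _ => pvrm_half_convex _ _
  · have : pvrmPc x i = ∅ := by
      ext z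
      simp only [pvrmPc, mem_ofPred_eq, mem_empty_iff_false, iff_false, not_and]
      exact fun h => absurd h hc
    rw [this]; exact convex_empty

theorem pvrm_B_ofFn {n : ℕ} (x : Fin n → PvPt) : pvrmB (Conf.ofFn x) = ⋃ i, pvrmPc x i := by
  ext z
  simp only [pvrmB, pvrmReg, Conf.ofFn, pvrmPc, mem_ofPred_eq, mem_iUnion, mem_range]
  constructor
  · rintro ⟨v, ⟨i, hi⟩, hw⟩
    refine ⟨i, by rw [hi], fun j hj => ?_⟩
    rw [hi]
    exact hw _ ⟨j, Prod.ext rfl hj⟩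
  · rintro ⟨i, hi, hw⟩
    refine ⟨(x i).1, ⟨i, Prod.ext rfl hi⟩, ?_⟩
    rintro w ⟨j, hj⟩
    have := hw j (by rw [hj])
    rwa [hj] at this

/-- CH for a finite family -/
theorem pvrm_holds_ofFn {n : ℕ} (x : Fin n → PvPt) (e : RswTri) (hK : Convex ℝ e.K) :
    e.Holds (pvrmB (Conf.ofFn x)) ↔ ∃ i j, (pvrmPc x i ∩ (e.K ∩ e.S)).Nonempty ∧ (pvrmPc x j ∩ (e.K ∩ e.T)).Nonempty ∧
      Relation.ReflTransGen (fun i j => (pvrmPc x i ∩ pvrmPc x j ∩ e.K).Nonempty) i j := by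
  have hC : ∀ i, IsClosed (pvrmPc x i) ∧ Convex ℝ (pvrmPc x i) := fun i => ⟨pvrm_pc_closed x i, pvrm_pc_convex x i⟩
  rw [pvrm_B_ofFn]
  constructor
  · rintro ⟨a, ha, b, hb, h⟩
    obtain ⟨i, j, hi, hj, hR⟩ := (rsw_chain_iff_path hK hC).1 h
    exact ⟨i, j, ⟨a, hi.1, hi.2, ha⟩, ⟨b, hj.1, hj.2, hb⟩, hR⟩
  · rintro ⟨i, j, ⟨a, ha1, ha2, ha3⟩, ⟨b, hb1, hb2, hb3⟩, hR⟩
    exact ⟨a, ha3, b, hb3, (rsw_chain_iff_path hK hC).2 ⟨i, j, ⟨ha1, ha2⟩, ⟨hb1, hb2⟩, hR⟩⟩

/-! ## 4. Closed projections -/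

theorem pvrm_proj_closed {X : Type*} [TopologicalSpace X] {Q : Set ℂ} (hQ : IsCompact Q) {F : Set (ℂ × X)} (hF : IsClosed F) :
    IsClosed {x | ∃ z ∈ Q, (z, x) ∈ F} := by
  have : CompactSpace Q := isCompact_iff_compactSpace.1 hQ
  have h1 : IsClosed ((fun q : Q × X => ((q.1 : ℂ), q.2)) ⁻¹' F) := hF.preimage (by fun_prop)
  have h2 := isClosedMap_snd_of_compactSpace _ h1
  have h3 : {x | ∃ z ∈ Q, (z, x) ∈ F} = Prod.snd '' ((fun q : Q × X => ((q.1 : ℂ), q.2)) ⁻¹' F) := by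
    ext x
    constructor
    · rintro ⟨z, hz, hzx⟩
      exact ⟨(⟨z, hz⟩, x), hzx, rfl⟩
    · rintro ⟨⟨z, x'⟩, hzx, rfl⟩
      exact ⟨z, z.2, hzx⟩
  rw [h3]
  exact h2

theorem pvrm_proj_meas {X : Type*} [TopologicalSpace X] [MeasurableSpace X] [OpensMeasurableSpace X] {K : Set ℂ} (hK : IsSigmaCompact K)
    {F : Set (ℂ × X)} (hF : IsClosed F) : MeasurableSet {x | ∃ z ∈ K, (z, x) ∈ F} := by
  obtain ⟨Q, hQ, hQK⟩ := hK
  have : {x | ∃ z ∈ K, (z, x) ∈ F} = ⋃ l, {x | ∃ z ∈ Q l, (z, x) ∈ F} := by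
    ext x
    simp only [mem_ofPred_eq, mem_iUnion, ← hQK]
    constructor
    · rintro ⟨z, ⟨l, hl⟩, hz⟩; exact ⟨l, z, hl, hz⟩
    · rintro ⟨l, z, hl, hz⟩; exact ⟨z, ⟨l, hl⟩, hz⟩
  rw [this]
  exact MeasurableSet.iUnion fun l => (pvrm_proj_closed (hQ l) hF).measurableSet

theorem pvrm_graph_closed {ι : Type*} (i : ι) : IsClosed {q : ℂ × (ι → PvPt) | q.1 ∈ pvrmPc q.2 i} := by
  have : {q : ℂ × (ι → PvPt) | q.1 ∈ pvrmPc q.2 i} = {q | (q.2 i).2 = true} ∩ ⋂ j, ({q : ℂ × (ι → PvPt) | (q.2 j).2 = true} ∪ {q | ‖q.1 - (q.2 i).1‖ ≤ ‖q.1 - (q.2 j).1‖}) := by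
    ext q
    simp only [pvrmPc, mem_ofPred_eq, mem_inter_iff, mem_iInter, mem_union]
    refine and_congr_right fun _ => forall_congr' fun j => ?_
    cases h : (q.2 j).2 <;> simp
  rw [this]
  have hcol : ∀ j : ι, IsClosed {q : ℂ × (ι → PvPt) | (q.2 j).2 = true} := by
    intro j
    have hc : Continuous fun q : ℂ × (ι → PvPt) => (q.2 j).2 := by fun_prop
    exact (isClosed_singleton (x := true)).preimage hc
  refine (hcol i).inter (isClosed_iInter fun j => (hcol j).union ?_)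
  exact isClosed_le (by fun_prop) (by fun_prop)

/-- a property of a finite relation depending measurably on a parameter -/
theorem pvrm_rel_meas {X : Type*} [MeasurableSpace X] {ι : Type*} [Finite ι] (R : X → ι → ι → Prop) (hR : ∀ i j, MeasurableSet {x | R x i j})
    (P : (ι → ι → Prop) → Prop) : MeasurableSet {x | P (R x)} := by
  have hm : Measurable R := measurable_pi_lambda _ fun i => measurable_pi_lambda _ fun j => measurableSet_setOfPred.1 (hR i j)
  exact hm (MeasurableSet.of_discrete (s := {r | P r}))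

/-- **FinMeas** -/
theorem pvrm_fin_meas (n : ℕ) {e : RswTri} (he : e.Nice) : MeasurableSet {x : Fin n → PvPt | e.Holds (pvrmB (Conf.ofFn x))} := by
  obtain ⟨hK, hKs, hS, hT⟩ := he
  have hG : ∀ i : Fin n, IsClosed {q : ℂ × (Fin n → PvPt) | q.1 ∈ pvrmPc q.2 i} := fun i => pvrm_graph_closed i
  have hsc : ∀ S : Set ℂ, IsCompact S → IsSigmaCompact (e.K ∩ S) := by
    intro S hS
    obtain ⟨Q, hQ, hQK⟩ := hKs
    refine ⟨fun l => Q l ∩ S, fun l => (hQ l).inter_right hS.isClosed, ?_⟩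
    rw [← iUnion_inter, hQK]
  have h1 : ∀ (S : Set ℂ), IsCompact S → ∀ i : Fin n, MeasurableSet {x : Fin n → PvPt | (pvrmPc x i ∩ (e.K ∩ S)).Nonempty} := by
    intro S hS i
    have h := pvrm_proj_meas (hsc S hS) (hG i)
    have e1 : {x : Fin n → PvPt | (pvrmPc x i ∩ (e.K ∩ S)).Nonempty}
        = {x | ∃ z ∈ e.K ∩ S, (z, x) ∈ {q : ℂ × (Fin n → PvPt) | q.1 ∈ pvrmPc q.2 i}} := by
      ext x
      exact ⟨fun ⟨z, h1, h2⟩ => ⟨z, h2, h1⟩, fun ⟨z, h2, h1⟩ => ⟨z, h1, h2⟩⟩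
    rw [e1]
    exact h
  have h3 : ∀ i j : Fin n, MeasurableSet {x : Fin n → PvPt | (pvrmPc x i ∩ pvrmPc x j ∩ e.K).Nonempty} := by
    intro i j
    have h := pvrm_proj_meas hKs ((hG i).inter (hG j))
    have e1 : {x : Fin n → PvPt | (pvrmPc x i ∩ pvrmPc x j ∩ e.K).Nonempty}
        = {x | ∃ z ∈ e.K, (z, x) ∈ {q : ℂ × (Fin n → PvPt) | q.1 ∈ pvrmPc q.2 i} ∩ {q : ℂ × (Fin n → PvPt) | q.1 ∈ pvrmPc q.2 j}} := by
      ext x
      exact ⟨fun ⟨z, h1, h2⟩ => ⟨z, h2, h1⟩, fun ⟨z, h2, h1⟩ => ⟨z, h1, h2⟩⟩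
    rw [e1]
    exact h
  have h4 : ∀ i j : Fin n, MeasurableSet {x : Fin n → PvPt | Relation.ReflTransGen (fun i j => (pvrmPc x i ∩ pvrmPc x j ∩ e.K).Nonempty) i j} :=
    fun i j => pvrm_rel_meas (fun (x : Fin n → PvPt) i j => (pvrmPc x i ∩ pvrmPc x j ∩ e.K).Nonempty) h3 (fun r => Relation.ReflTransGen r i j)
  have e2 : {x : Fin n → PvPt | e.Holds (pvrmB (Conf.ofFn x))}
      = ⋃ i : Fin n, ⋃ j : Fin n, ({x : Fin n → PvPt | (pvrmPc x i ∩ (e.K ∩ e.S)).Nonempty} ∩ ({x : Fin n → PvPt | (pvrmPc x j ∩ (e.K ∩ e.T)).Nonempty}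
          ∩ {x : Fin n → PvPt | Relation.ReflTransGen (fun i j => (pvrmPc x i ∩ pvrmPc x j ∩ e.K).Nonempty) i j})) := by
    ext x
    simp only [mem_ofPred_eq, mem_iUnion, mem_inter_iff]
    exact pvrm_holds_ofFn x e hK
  rw [e2]
  exact MeasurableSet.iUnion fun i => MeasurableSet.iUnion fun j => (h1 _ hS i).inter ((h1 _ hT j).inter (h4 i j))

/-! ## 5. T2: FinMeas implies measurable -/

theorem pvrm_cell_ofFn {E : Type*} (n : ℕ) (x : ℕ → E) : Conf.cell (n, x) = Conf.ofFn (fun i : Fin n => x i) := by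
  ext p
  simp only [Conf.cell, Conf.ofFn, mem_ofPred_eq, mem_range]
  constructor
  · rintro ⟨j, hj, rfl⟩; exact ⟨⟨j, hj⟩, rfl⟩
  · rintro ⟨i, rfl⟩; exact ⟨i, i.2, rfl⟩

/-- **T2, generic**: a property of finite configurations which is measurable in every finite enumeration is measurable on the configurations with finitely many points in `O` -/
theorem pvrm_T2 {E : Type*} [MeasurableSpace E] [StandardBorelSpace E] [Nonempty E] {Φ : Conf E → Prop}
    (hΦ : ∀ n : ℕ, MeasurableSet {x : Fin n → E | Φ (Conf.ofFn x)}) {O : Set E} (hO : MeasurableSet O) :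
    MeasurableSet ({η : Conf E | Φ (Conf.restr O η)} ∩ {η | (η.pts ∩ O).Finite}) := by
  obtain ⟨X, hX, hXe⟩ := pvcn_enum hO
  have hΨ : MeasurableSet {y : ℕ × (ℕ → E) | Φ (Conf.cell y)} := by
    have e1 : {y : ℕ × (ℕ → E) | Φ (Conf.cell y)}
        = ⋃ n : ℕ, ({y : ℕ × (ℕ → E) | y.1 = n} ∩ (fun y : ℕ × (ℕ → E) => (fun i : Fin n => y.2 i)) ⁻¹' {x : Fin n → E | Φ (Conf.ofFn x)}) := by
      ext ⟨n, x⟩
      simp only [mem_ofPred_eq, mem_iUnion, mem_inter_iff, mem_preimage]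
      constructor
      · intro h
        exact ⟨n, rfl, by rw [← pvrm_cell_ofFn]; exact h⟩
      · rintro ⟨_, rfl, h⟩
        rw [pvrm_cell_ofFn]; exact h
    rw [e1]
    refine MeasurableSet.iUnion fun n => MeasurableSet.inter ?_ ?_
    · exact measurable_fst (measurableSet_singleton n)
    · refine (measurable_pi_lambda _ fun i => ?_) (hΦ n)
      exact (measurable_pi_apply (i : ℕ)).comp measurable_snd
  have hY : Measurable (fun η : Conf E => ((η.pts ∩ O).ncard, X η)) := (pvcn_ncard hO).prodMk hX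
  have e2 : {η : Conf E | Φ (Conf.restr O η)} ∩ {η | (η.pts ∩ O).Finite}
      = (fun η : Conf E => ((η.pts ∩ O).ncard, X η)) ⁻¹' {y : ℕ × (ℕ → E) | Φ (Conf.cell y)} ∩ {η | (η.pts ∩ O).Finite} := by
    ext η
    constructor
    · rintro ⟨h1, h2⟩
      refine ⟨?_, h2⟩
      show Φ (Conf.cell _)
      rw [← hXe η h2]; exact h1
    · rintro ⟨h1, h2⟩
      refine ⟨?_, h2⟩
      show Φ (Conf.restr O η)
      rw [hXe η h2]; exact h1
  rw [e2]
  exact (hY hΨ).inter (pvcn_fin hO)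

/-! ## 6. Windows and local finiteness -/

theorem pvrm_win_meas (R : ℝ) : MeasurableSet (pvrmWin R) := by
  have : pvrmWin R = (fun p : PvPt => ‖p.1‖) ⁻¹' Iic R := rfl
  rw [this]
  exact (by fun_prop : Measurable fun p : PvPt => ‖p.1‖) measurableSet_Iic

theorem pvrm_win_finite {η : Conf PvPt} (h : PvLF η) (R : ℝ) : (η.pts ∩ pvrmWin R).Finite := by
  have hfin : (⋃ k ∈ (Finset.Icc ⌊-R⌋ ⌊R⌋ ×ˢ Finset.Icc ⌊-R⌋ ⌊R⌋ : Finset (ℤ × ℤ)), η.pts ∩ pvBox k).Finite :=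
    Set.Finite.biUnion (Finset.finite_toSet _) fun k _ => h k
  refine hfin.subset ?_
  rintro p ⟨hp, hpR⟩
  have hpR' : ‖p.1‖ ≤ R := hpR
  have h1 : |p.1.re| ≤ R := (Complex.abs_re_le_norm _).trans hpR'
  have h2 : |p.1.im| ≤ R := (Complex.abs_im_le_norm _).trans hpR'
  rw [abs_le] at h1 h2
  refine mem_biUnion (x := (⌊p.1.re⌋, ⌊p.1.im⌋)) ?_ ⟨hp, ?_⟩
  · simp only [Finset.coe_product, Finset.coe_Icc, mem_prod, mem_Icc]
    exact ⟨⟨Int.floor_le_floor h1.1, Int.floor_le_floor h1.2⟩, Int.floor_le_floor h2.1, Int.floor_le_floor h2.2⟩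
  · exact ⟨⟨Int.floor_le _, Int.lt_floor_add_one _⟩, Int.floor_le _, Int.lt_floor_add_one _⟩

theorem pvrm_LF_restr {η : Conf PvPt} (h : PvLF η) (O : Set PvPt) : PvLF (Conf.restr O η) := fun k =>
  (h k).subset fun _ hp => ⟨hp.1.1, hp.2⟩

/-! ## 7. The theorem -/

/-- bounded `K` -/
theorem pvrm_conn_meas_bdd {e : RswTri} (he : e.Nice) {r : ℝ} (hr : e.K ⊆ closedBall 0 r) :
    MeasurableSet ({η : Conf PvPt | e.Holds (pvrmB η)} ∩ {η | PvLF η}) := by
  have hT2 : ∀ R : ℝ, MeasurableSet ({η : Conf PvPt | e.Holds (pvrmB (Conf.restr (pvrmWin R) η))} ∩ {η | (η.pts ∩ pvrmWin R).Finite}) :=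
    fun R => pvrm_T2 (Φ := fun η => e.Holds (pvrmB η)) (fun n => pvrm_fin_meas n he) (pvrm_win_meas R)
  have key : {η : Conf PvPt | e.Holds (pvrmB η)} ∩ {η | PvLF η}
      = ⋃ m : ℕ, ((Conf.void (pvrmWin m))ᶜ ∩ (({η : Conf PvPt | e.Holds (pvrmB (Conf.restr (pvrmWin (2 * r + m)) η))}
          ∩ {η | (η.pts ∩ pvrmWin (2 * r + m)).Finite}) ∩ {η | PvLF η})) := by
    ext η
    simp only [mem_inter_iff, mem_ofPred_eq, mem_iUnion, mem_compl_iff]
    constructor
    · rintro ⟨h, hLF⟩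
      obtain ⟨a, -, b, -, hj⟩ := id h
      obtain ⟨v, hv, -⟩ := hj.source_mem.1
      obtain ⟨m, hm⟩ := exists_nat_ge ‖v‖
      have hne : (η.pts ∩ pvrmWin m).Nonempty := ⟨(v, true), hv, hm⟩
      refine ⟨m, fun hvoid => ?_, ⟨?_, pvrm_win_finite hLF _⟩, hLF⟩
      · exact Conf.mem_void.1 hvoid _ hv hm
      · unfold RswTri.Holds at h ⊢
        rw [← pvrm_loc_conf hne hr]; exact h
    · rintro ⟨m, hvoid, ⟨h, -⟩, hLF⟩
      refine ⟨?_, hLF⟩
      have hne : (η.pts ∩ pvrmWin m).Nonempty := by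
        by_contra hcon
        exact hvoid (Set.not_nonempty_iff_eq_empty.1 hcon)
      unfold RswTri.Holds at h ⊢
      rw [pvrm_loc_conf hne hr]; exact h
  rw [key]
  exact MeasurableSet.iUnion fun m => ((Conf.measurableSet_void (pvrm_win_meas m)).compl).inter ((hT2 _).inter pvcn_LF_meas)

/-- **MEAS** -/
theorem pv_conn_meas {e : RswTri} (he : e.Nice) : MeasurableSet ({η : Conf PvPt | e.Holds (pvrmB η)} ∩ {η | PvLF η}) := by
  have : {η : Conf PvPt | e.Holds (pvrmB η)} ∩ {η | PvLF η}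
      = ⋃ m : ℕ, ({η : Conf PvPt | (⟨e.K ∩ closedBall 0 m, e.S, e.T⟩ : RswTri).Holds (pvrmB η)} ∩ {η | PvLF η}) := by
    ext η
    simp only [mem_inter_iff, mem_ofPred_eq, mem_iUnion]
    rw [pvrm_holds_bdd]
    exact ⟨fun ⟨⟨m, h⟩, h'⟩ => ⟨m, h, h'⟩, fun ⟨m, h, h'⟩ => ⟨⟨m, h⟩, h'⟩⟩
  rw [this]
  exact MeasurableSet.iUnion fun m => pvrm_conn_meas_bdd (pvrm_nice_bdd he m) inter_subset_right

/-! ## 8. Corollaries -/

theorem pvrm_flip_mem (η : Conf PvPt) (v : ℂ) (c : Bool) : (v, c) ∈ (cfFlip η).pts ↔ (v, !c) ∈ η.pts := by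
  simp only [cfFlip, Conf.image, mem_image]
  constructor
  · rintro ⟨⟨u, d⟩, hp, he⟩
    simp only [Prod.map_apply, id_eq, Prod.mk.injEq] at he
    obtain ⟨rfl, rfl⟩ := he
    simpa using hp
  · intro h
    exact ⟨(v, !c), h, by simp⟩

theorem pvrm_W_flip (η : Conf PvPt) : pvrmW η = pvrmB (cfFlip η) := by
  unfold pvrmW pvrmB
  simp only [pvrm_flip_mem, Bool.not_true, Bool.not_false]

theorem pvrm_LF_flip {η : Conf PvPt} : PvLF (cfFlip η) ↔ PvLF η := by
  have key : ∀ ξ : Conf PvPt, PvLF ξ → PvLF (cfFlip ξ) := by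
    intro ξ h k
    refine ((h k).image (Prod.map id not)).subset ?_
    rintro ⟨v, c⟩ ⟨hp, hk⟩
    exact ⟨(v, !c), ⟨(pvrm_flip_mem ξ v c).1 hp, hk⟩, by simp⟩
  refine ⟨fun h => ?_, key η⟩
  have h2 := key _ h
  have e : cfFlip (cfFlip η) = η := by
    ext ⟨v, c⟩
    rw [pvrm_flip_mem, pvrm_flip_mem, Bool.not_not]
  rwa [e] at h2

/-- white version -/
theorem pv_conn_meas_white {e : RswTri} (he : e.Nice) : MeasurableSet ({η : Conf PvPt | e.Holds (pvrmW η)} ∩ {η | PvLF η}) := by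
  have : {η : Conf PvPt | e.Holds (pvrmW η)} ∩ {η | PvLF η} = cfFlip ⁻¹' ({η : Conf PvPt | e.Holds (pvrmB η)} ∩ {η | PvLF η}) := by
    ext η
    simp only [mem_inter_iff, mem_ofPred_eq, mem_preimage, pvrm_W_flip, pvrm_LF_flip]
  rw [this]
  exact measurable_cfFlip (pv_conn_meas he)

/-- lists of patterns -/
theorem pv_conn_meas_list (l : List RswTri) (hl : ∀ e ∈ l, e.Nice) : MeasurableSet ({η : Conf PvPt | ∀ e ∈ l, e.Holds (pvrmB η)} ∩ {η | PvLF η}) := by
  induction l with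
  | nil =>
    simp only [List.not_mem_nil, IsEmpty.forall_iff, implies_true, ofPred_true, univ_inter]
    exact pvcn_LF_meas
  | cons a l ih =>
    have : {η : Conf PvPt | ∀ e ∈ a :: l, e.Holds (pvrmB η)} ∩ {η | PvLF η}
        = ({η : Conf PvPt | a.Holds (pvrmB η)} ∩ {η | PvLF η}) ∩ ({η : Conf PvPt | ∀ e ∈ l, e.Holds (pvrmB η)} ∩ {η | PvLF η}) := by
      ext η
      simp only [List.mem_cons, forall_eq_or_imp, mem_inter_iff, mem_ofPred_eq]
      tauto
    rw [this]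
    exact (pv_conn_meas (hl a List.mem_cons_self)).inter (ih fun e he => hl e (List.mem_cons_of_mem _ he))

/-- restricted configurations -/
theorem pv_conn_meas_restr {e : RswTri} (he : e.Nice) {O : Set PvPt} (hO : MeasurableSet O) :
    MeasurableSet ({η : Conf PvPt | e.Holds (pvrmB (Conf.restr O η))} ∩ {η | PvLF η}) := by
  have : {η : Conf PvPt | e.Holds (pvrmB (Conf.restr O η))} ∩ {η | PvLF η}
      = (Conf.restr O ⁻¹' ({η : Conf PvPt | e.Holds (pvrmB η)} ∩ {η | PvLF η})) ∩ {η | PvLF η} := by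
    ext η
    simp only [mem_inter_iff, mem_ofPred_eq, mem_preimage]
    exact ⟨fun h => ⟨⟨h.1, pvrm_LF_restr h.2 O⟩, h.2⟩, fun h => ⟨h.1.1, h.2⟩⟩
  rw [this]
  exact ((Conf.measurable_restr hO) (pv_conn_meas he)).inter pvcn_LF_meas

/-- null measurability under any law carried by the locally finite configurations -/
theorem pv_conn_null {e : RswTri} (he : e.Nice) {μ : Measure (Conf PvPt)} (hμ : ∀ᵐ η ∂μ, PvLF η) : NullMeasurableSet {η : Conf PvPt | e.Holds (pvrmB η)} μ := by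
  refine NullMeasurableSet.congr (pv_conn_meas he).nullMeasurableSet ?_
  filter_upwards [hμ] with η hη
  apply propext
  show (η ∈ {η : Conf PvPt | e.Holds (pvrmB η)} ∩ {η | PvLF η}) ↔ η ∈ {η : Conf PvPt | e.Holds (pvrmB η)}
  simp only [mem_inter_iff, mem_ofPred_eq, hη, and_true]

end Claimed.Agent.R289
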