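import Claimed.Agent.R289.Fkg
import Claimed.Agent.R289.Del.GenPos
import Claimed.Agent.R289.Rsw.Main
import Claimed.Agent.R289.Rsw.VerMeas

/-!
# Row 289 (S0537), box RSW part II, file Rsw/Ver : THE POISSON-VORONOI MODEL IS AN `RswModel`      (head helper262; design helper259, notes/R289/rsw_259.md sec. 6; prefix `pvr`)

INPUT (other boxes, ALL PROVED ON MAIN):  `pv_fkg_list` (annealed FKG: helper159, Fkg.lean),  `delgp_ae_conf` (general position: helper120, Del/GenPos.lean),  `pvcn_bridge`, `pvcn_LF_ae` (PppCnt),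
`Vor/Basic` (helper253),  `Rsw/Topo` + `rsw_main` (helper188),  `pvrb_hash` (a closed white `#` blocks black paths: helper54, Rsw/VerBlock.lean).
OUTPUT (file Rsw/VerArm):  `pvr_model : RswModel (pvrP 1) cfB (1/2)`,   `pvr_rsw` (all `ε`, all scales, all positions),   `pv_rsw` (frozen vocabulary `pvLaw`, `pvBlack`),   white versions.

* sec. A  dictionary: `cfBk cfWh PvLe PvInc` are those of Fkg.lean; `cfB cfW` (MONOTONE form of the black / white region; `= cfBlack` on locally finite configurations)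
* sec. B  events `pvrEv e = {η | e.Holds (cfB η)}`: monotone; MEASURABILITY = `pv_conn_meas` of helper238 (Rsw/VerMeas.lean)
* sec. C  FKG for lists;      * sec. D  invariance (isometries, scaling, colour flip);      * sec. E  squares (`HEX` + flip + rotation), finite energy
* sec. F  grid event, LOC, the local white `#` event `pvrWh u`, independence of disjoint annuli;      * sec. G  blocking, ARM DECAY;      * sec. H  the model, exports.
RULES: prove IN PLACE, never change a statement (misfit = one line to 262), claim by Lean name in `claim289`.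
-/

set_option autoImplicit false
set_option linter.unusedSectionVars false

namespace Claimed.Agent.R289

open MeasureTheory ProbabilityTheory Set Filter Topology Metric
open scoped ENNReal NNReal
open Claims.C0465

/-! ## A. dictionary -/

/-- the black region, monotone form: some black site is at least as near as every WHITE site -/
def cfB (η : Conf PvPt) : Set ℂ := {z | ∃ v ∈ cfBk η, ∀ w ∈ cfWh η, ‖z - v‖ ≤ ‖z - w‖}
/-- the white region, monotone form -/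
def cfW (η : Conf PvPt) : Set ℂ := {z | ∃ w ∈ cfWh η, ∀ v ∈ cfBk η, ‖z - w‖ ≤ ‖z - v‖}
/-- locally finite and not empty -/
structure PvrOk (η : Conf PvPt) : Prop where
  lf : PvLF η
  ne : η.pts.Nonempty

/-- general position: `VorGP` of the sites, no site carries both colours -/
structure PvrGP (η : Conf PvPt) : Prop where
  gp : VorGP (cfSites η)
  col : ∀ v, ¬ ((v, true) ∈ η.pts ∧ (v, false) ∈ η.pts)

/-- the coloured points over a set of the plane -/
def pvrUp (N : Set ℂ) : Set PvPt := {p | p.1 ∈ N}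

theorem pvr_defsA_eqns_cite : True := by
  have := @cfB.eq_1
  have := @cfW.eq_1
  have := @pvrUp.eq_1
  trivial

theorem pvr_sites (η : Conf PvPt) : cfSites η = cfBk η ∪ cfWh η := by
  ext v
  simp only [cfSites, cfBk, cfWh, mem_image, mem_union, mem_ofPred_eq, Prod.exists, exists_and_right, exists_eq_right]
  constructor
  · rintro ⟨c, hc⟩
    cases c
    · exact Or.inr hc
    · exact Or.inl hc
  · rintro (h | h)
    · exact ⟨true, h⟩
    · exact ⟨false, h⟩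

theorem pvr_Bk_sub (η : Conf PvPt) : cfBk η ⊆ cfSites η := by rw [pvr_sites]; exact subset_union_left
theorem pvr_Wh_sub (η : Conf PvPt) : cfWh η ⊆ cfSites η := by rw [pvr_sites]; exact subset_union_right

theorem pvr_lf {η : Conf PvPt} (h : PvLF η) : VorLF (cfSites η) := delgp_lf_of_pvlf h

/-- general position almost surely -/
theorem pvr_gp_ae (ε : ℝ) : ∀ᵐ η ∂(pvP ε), PvrGP η := by
  filter_upwards [delgp_ae_conf ε] with η h
  refine ⟨h.2.1, fun v hv => ?_⟩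
  have := h.2.2 _ hv.1 _ hv.2 rfl
  simp at this

theorem pvr_B_mono {η η' : Conf PvPt} (h : PvLe η η') : cfB η ⊆ cfB η' := by
  rintro z ⟨v, hv, hz⟩
  exact ⟨v, h.1 hv, fun w hw => hz w (h.2 hw)⟩

theorem pvr_Bk_flip (η : Conf PvPt) : cfBk (cfFlip η) = cfWh η := by
  ext v
  simp only [cfBk, cfWh, cfFlip, Conf.image, mem_ofPred_eq, mem_image, Prod.exists, Prod.map_apply, id_eq, Prod.mk.injEq]
  constructor
  · rintro ⟨a, c, h, rfl, hc⟩
    cases c
    · exact h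
    · simp at hc
  · intro h
    exact ⟨v, false, h, rfl, rfl⟩

theorem pvr_Wh_flip (η : Conf PvPt) : cfWh (cfFlip η) = cfBk η := by
  ext v
  simp only [cfBk, cfWh, cfFlip, Conf.image, mem_ofPred_eq, mem_image, Prod.exists, Prod.map_apply, id_eq, Prod.mk.injEq]
  constructor
  · rintro ⟨a, c, h, rfl, hc⟩
    cases c
    · simp at hc
    · exact h
  · intro h
    exact ⟨v, true, h, rfl, rfl⟩

theorem pvr_W_eq (η : Conf PvPt) : cfW η = cfB (cfFlip η) := by
  unfold cfW cfB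
  rw [pvr_Bk_flip, pvr_Wh_flip]

theorem pvr_flip_flip (η : Conf PvPt) : cfFlip (cfFlip η) = η := by
  ext p
  simp only [cfFlip, Conf.image, mem_image, Prod.exists, Prod.map_apply, id_eq]
  constructor
  · rintro ⟨a, c, ⟨a', c', h, h'⟩, rfl⟩
    obtain ⟨rfl, rfl⟩ := Prod.mk.inj h'
    simpa using h
  · intro h
    exact ⟨p.1, !p.2, ⟨p.1, p.2, h, rfl⟩, by simp⟩

/-- PLAN: `⊇` trivial.   `⊆`: `z ∈ cfB η` with witness `v`; `vor_cover` (`pvr_lf`; the sites are not empty) gives a nearest site `u`; if `u` is black: done; if `u` is white: `‖z - v‖ ≤ ‖z - u‖ ≤` all, so `z ∈ vorCell _ v`. -/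
theorem pvr_B_eq_un {η : Conf PvPt} (h : PvLF η) : cfB η = vorUn (cfSites η) (cfBk η) := by
  ext z
  constructor
  · rintro ⟨v, hv, hz⟩
    obtain ⟨u, hu, hc⟩ := vor_cover (pvr_lf h) ⟨v, pvr_Bk_sub η hv⟩ z
    rw [pvr_sites] at hu
    rcases hu with hu | hu
    · exact ⟨u, hu, hc⟩
    · exact ⟨v, hv, fun t ht => (hz u hu).trans (hc t ht)⟩
  · rintro ⟨v, hv, hc⟩
    exact ⟨v, hv, fun w hw => hc w (pvr_Wh_sub η hw)⟩

theorem pvr_B_eq_black {η : Conf PvPt} (h : PvLF η) : cfB η = cfBlack η := by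
  rw [pvr_B_eq_un h, cfBlack_eq_vor]
  rfl

/-- PLAN: `pvr_W_eq`, `pvr_B_eq_un` for `cfFlip η` (`PvLF (cfFlip η)`, `cfSites (cfFlip η) = cfSites η`) or repeat the proof. -/
theorem pvr_W_eq_un {η : Conf PvPt} (h : PvLF η) : cfW η = vorUn (cfSites η) (cfWh η) := by
  ext z
  constructor
  · rintro ⟨v, hv, hz⟩
    obtain ⟨u, hu, hc⟩ := vor_cover (pvr_lf h) ⟨v, pvr_Wh_sub η hv⟩ z
    rw [pvr_sites] at hu
    rcases hu with hu | hu
    · exact ⟨v, hv, fun t ht => (hz u hu).trans (hc t ht)⟩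
    · exact ⟨u, hu, hc⟩
  · rintro ⟨v, hv, hc⟩
    exact ⟨v, hv, fun w hw => hc w (pvr_Bk_sub η hw)⟩

/-- PLAN: `vor_cover`: the nearest site is black or white. -/
theorem pvr_cover {η : Conf PvPt} (h : PvrOk η) : cfB η ∪ cfW η = univ := by
  refine eq_univ_of_forall fun z => ?_
  obtain ⟨p, hp⟩ := h.ne
  obtain ⟨u, hu, hc⟩ := vor_cover (pvr_lf h.lf) ⟨p.1, p, hp, rfl⟩ z
  rw [pvr_sites] at hu
  rcases hu with hu | hu
  · exact Or.inl ⟨u, hu, fun w hw => hc w (pvr_Wh_sub η hw)⟩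
  · exact Or.inr ⟨u, hu, fun w hw => hc w (pvr_Bk_sub η hw)⟩

/-- the strictly white points are not black -/
theorem pvr_strict {η : Conf PvPt} {z : ℂ} (h : ∃ w ∈ cfWh η, ∀ v ∈ cfBk η, ‖z - w‖ < ‖z - v‖) : z ∉ cfB η := by
  obtain ⟨w, hw, h⟩ := h
  rintro ⟨v, hv, hz⟩
  exact absurd (hz w hw) (not_le.2 (h v hv))

theorem pvr_Bk_map (g : ℂ → ℂ) (η : Conf PvPt) : cfBk (cfMap g η) = g '' cfBk η := by
  ext v
  simp only [cfBk, cfMap, Conf.image, mem_ofPred_eq, mem_image, Prod.exists, Prod.map_apply, id_eq, Prod.mk.injEq]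
  constructor
  · rintro ⟨a, c, h, rfl, rfl⟩
    exact ⟨a, h, rfl⟩
  · rintro ⟨a, h, rfl⟩
    exact ⟨a, true, h, rfl, rfl⟩

theorem pvr_Wh_map (g : ℂ → ℂ) (η : Conf PvPt) : cfWh (cfMap g η) = g '' cfWh η := by
  ext v
  simp only [cfWh, cfMap, Conf.image, mem_ofPred_eq, mem_image, Prod.exists, Prod.map_apply, id_eq, Prod.mk.injEq]
  constructor
  · rintro ⟨a, c, h, rfl, rfl⟩
    exact ⟨a, h, rfl⟩
  · rintro ⟨a, h, rfl⟩
    exact ⟨a, false, h, rfl, rfl⟩

/-- similarities.   PLAN: `cfBk (cfMap g η) = g '' cfBk η`, the same for white; `z = g z'`, cancel `r`. -/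
theorem pvr_B_sim {g : ℂ ≃ ℂ} {r : ℝ} (hr : 0 < r) (hg : ∀ z w, ‖g z - g w‖ = r * ‖z - w‖) (η : Conf PvPt) : cfB (cfMap g η) = g '' cfB η := by
  ext z
  unfold cfB
  rw [pvr_Bk_map, pvr_Wh_map]
  constructor
  · rintro ⟨_, ⟨v, hv, rfl⟩, hz⟩
    refine ⟨g.symm z, ⟨v, hv, fun w hw => ?_⟩, g.apply_symm_apply z⟩
    have h1 := hz (g w) ⟨w, hw, rfl⟩
    rw [← g.apply_symm_apply z, hg, hg] at h1
    exact le_of_mul_le_mul_left h1 hr
  · rintro ⟨z', ⟨v, hv, hz⟩, rfl⟩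
    refine ⟨g v, ⟨v, hv, rfl⟩, ?_⟩
    rintro _ ⟨w, hw, rfl⟩
    rw [hg, hg]
    exact mul_le_mul_of_nonneg_left (hz w hw) hr.le

theorem pvr_Bk_restr (N : Set ℂ) (η : Conf PvPt) : cfBk (Conf.restr (pvrUp N) η) = cfBk η ∩ N := rfl

theorem pvr_Wh_restr (N : Set ℂ) (η : Conf PvPt) : cfWh (Conf.restr (pvrUp N) η) = cfWh η ∩ N := rfl

/-- **LOC** (no local finiteness needed).   PLAN: `z ∈ A`, `p` a site within `ρ` of `z` (it lies over `N`).   `⊇`: witness `w` for `η`: if `‖z - w‖ ≤ ρ` it lies over `N`; otherwise `p` is not black (`‖z - w‖ ≤ ‖z - p‖`), so `p` is a white witness.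
`⊆`: witness `w` over `N` for the restriction; a black site outside `N` is further than `ρ`; if `‖z - w‖ ≤ ρ` done; otherwise `p` is white and nearer than `w`: `p` is a witness. -/
theorem pvr_loc_W {η : Conf PvPt} {A N : Set ℂ} {ρ : ℝ} (hd : VorDense (cfSites η) A ρ) (hN : vorNbd A ρ ⊆ N) :
    cfW (Conf.restr (pvrUp N) η) ∩ A = cfW η ∩ A := by
  ext z
  refine and_congr_left fun hzA => ?_
  obtain ⟨p, hp, hzp⟩ := hd z hzA
  have hin : ∀ v : ℂ, ‖z - v‖ ≤ ρ → v ∈ N := fun v hv => hN ⟨z, hzA, by rwa [norm_sub_rev]⟩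
  have hpN : p ∈ N := hin p hzp
  rw [pvr_sites] at hp
  unfold cfW
  rw [pvr_Bk_restr, pvr_Wh_restr]
  constructor
  · rintro ⟨w, ⟨hw, hwN⟩, hz⟩
    by_cases hwρ : ‖z - w‖ ≤ ρ
    · refine ⟨w, hw, fun v hv => ?_⟩
      by_cases hvN : v ∈ N
      · exact hz v ⟨hv, hvN⟩
      · have : ρ < ‖z - v‖ := not_le.1 fun hc => hvN (hin v hc)
        exact hwρ.trans this.le
    · rcases hp with hp | hp
      · exact absurd ((hz p ⟨hp, hpN⟩).trans hzp) hwρ
      · refine ⟨p, hp, fun v hv => ?_⟩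
        by_cases hvN : v ∈ N
        · exact (hzp.trans (not_le.1 hwρ).le).trans (hz v ⟨hv, hvN⟩)
        · have : ρ < ‖z - v‖ := not_le.1 fun hc => hvN (hin v hc)
          exact hzp.trans this.le
  · rintro ⟨w, hw, hz⟩
    by_cases hwρ : ‖z - w‖ ≤ ρ
    · exact ⟨w, ⟨hw, hin w hwρ⟩, fun v hv => hz v hv.1⟩
    · rcases hp with hp | hp
      · exact absurd ((hz p hp).trans hzp) hwρ
      · exact ⟨p, ⟨hp, hpN⟩, fun v hv => (hzp.trans (not_le.1 hwρ).le).trans (hz v hv.1)⟩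

/-! ## B. events, chains, measurability -/

/-- the pattern `e` is realised in the black region -/
def pvrEv (e : RswTri) : Set (Conf PvPt) := {η | e.Holds (cfB η)}
/-- the pattern `e` is realised in the white region -/
def pvrEvW (e : RswTri) : Set (Conf PvPt) := {η | e.Holds (cfW η)}
theorem pvr_defsB_eqns_cite : True := by
  have := @pvrEv.eq_1
  have := @pvrEvW.eq_1
  trivial

theorem pvr_ev_mono {η η' : Conf PvPt} (h : PvLe η η') {e : RswTri} (he : η ∈ pvrEv e) : η' ∈ pvrEv e :=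
  rsw_det_mono (pvr_B_mono h) Subset.rfl Subset.rfl Subset.rfl he

theorem pvr_ev_inc (e : RswTri) : PvInc (pvrEv e) := fun _ _ _ _ h he => pvr_ev_mono h he

theorem pvr_evW_eq (e : RswTri) : pvrEvW e = cfFlip ⁻¹' pvrEv e := by
  ext η
  simp only [pvrEvW, pvrEv, mem_ofPred_eq, mem_preimage, pvr_W_eq]

/-- **MEAS** (helper238) -/
theorem pvr_ev_meas {e : RswTri} (he : e.Nice) : MeasurableSet (pvrEv e ∩ {η | PvLF η}) := pv_conn_meas he

theorem pvr_evW_meas {e : RswTri} (he : e.Nice) : MeasurableSet (pvrEvW e ∩ {η | PvLF η}) := pv_conn_meas_white he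

theorem pvr_ev_null {e : RswTri} (he : e.Nice) (ε : ℝ) : NullMeasurableSet (pvrEv e) (pvP ε) := pv_conn_null he (pvcn_LF_ae ε)

/-- PLAN: `pvcn_LF_ae`. -/
theorem pvr_ev_lf (ε : ℝ) (A : Set (Conf PvPt)) : pvP ε (A ∩ {η | PvLF η}) = pvP ε A :=
  measure_inter_conull (ae_iff.1 (pvcn_LF_ae ε))

/-! ## C. FKG for lists of patterns -/

theorem pvr_fkg_list (ε : ℝ) (l : List RswTri) (h : ∀ e ∈ l, e.Nice) :
    (l.map fun e => pvP ε (pvrEv e)).prod ≤ pvP ε {η | ∀ e ∈ l, e.Holds (cfB η)} :=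
  pv_fkg_list (pv_isPpp ε) l pvrEv (fun e he => pvr_ev_meas (h e he)) fun e _ => pvr_ev_inc e

/-! ## D. invariance -/

/-- the colour flip as a measurable equivalence -/
def pvrFlipE : Conf PvPt ≃ᵐ Conf PvPt where
  toFun := cfFlip
  invFun := cfFlip
  left_inv := pvr_flip_flip
  right_inv := pvr_flip_flip
  measurable_toFun := measurable_cfFlip
  measurable_invFun := measurable_cfFlip

/-- valid for EVERY set.   PLAN: `pvP_flip`, `MeasurableEquiv.map_apply pvrFlipE`. -/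
theorem pvr_flip_apply (ε : ℝ) (A : Set (Conf PvPt)) : pvP ε (cfFlip ⁻¹' A) = pvP ε A := by
  have h := MeasurableEquiv.map_apply (μ := pvP ε) pvrFlipE A
  have h2 : (pvP ε).map pvrFlipE = pvP ε := pvP_flip ε
  rw [h2] at h
  exact h.symm

theorem pvr_flip_ev (ε : ℝ) (e : RswTri) : pvP ε (pvrEvW e) = pvP ε (pvrEv e) := by
  rw [pvr_evW_eq, pvr_flip_apply]

/-- white FKG -/
theorem pvr_fkg_listW (ε : ℝ) (l : List RswTri) (h : ∀ e ∈ l, e.Nice) :
    (l.map fun e => pvP ε (pvrEvW e)).prod ≤ pvP ε {η | ∀ e ∈ l, e.Holds (cfW η)} := by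
  have h1 := pvr_fkg_list ε l h
  have h2 : {η | ∀ e ∈ l, e.Holds (cfW η)} = cfFlip ⁻¹' {η | ∀ e ∈ l, e.Holds (cfB η)} := by
    ext η
    simp only [mem_ofPred_eq, mem_preimage, pvr_W_eq]
  rw [h2, pvr_flip_apply]
  simpa only [pvr_flip_ev] using h1

/-- a homeomorphism transports patterns.   PLAN: `JoinedIn` is transported by `g` and by `g.symm` (`JoinedIn.image`-type: compose the path), `g '' (B ∩ K) = g '' B ∩ g '' K` (injective). -/
theorem pvr_holds_map (g : ℂ ≃ₜ ℂ) (e : RswTri) (B : Set ℂ) : (e.map g).Holds (g '' B) ↔ e.Holds B := by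
  unfold RswTri.Holds RswTri.map
  simp only
  rw [← image_inter g.injective]
  constructor
  · rintro ⟨_, ⟨x, hx, rfl⟩, _, ⟨y, hy, rfl⟩, h⟩
    refine ⟨x, hx, y, hy, ?_⟩
    have := h.map g.symm.continuous
    rwa [g.symm_apply_apply, g.symm_apply_apply, ← image_comp, g.symm_comp_self, image_id] at this
  · rintro ⟨x, hx, y, hy, h⟩
    exact ⟨g x, ⟨x, hx, rfl⟩, g y, ⟨y, hy, rfl⟩, h.map g.continuous⟩

theorem pvr_map_map (g : ℂ ≃ ℂ) (η : Conf PvPt) : cfMap g.symm (cfMap g η) = η := by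
  ext p
  simp only [cfMap, Conf.image, mem_image, Prod.exists, Prod.map_apply, id_eq]
  constructor
  · rintro ⟨a, c, ⟨a', c', h, h'⟩, rfl⟩
    obtain ⟨rfl, rfl⟩ := Prod.mk.inj h'
    simpa using h
  · intro h
    exact ⟨g p.1, p.2, ⟨p.1, p.2, h, rfl⟩, by simp⟩

/-- the action of a homeomorphism as a measurable equivalence -/
noncomputable def pvrMapE (g : ℂ ≃ₜ ℂ) : Conf PvPt ≃ᵐ Conf PvPt where
  toFun := cfMap g
  invFun := cfMap g.symm
  left_inv := pvr_map_map g.toEquiv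
  right_inv := pvr_map_map g.symm.toEquiv
  measurable_toFun := measurable_cfMap g.continuous.measurable
  measurable_invFun := measurable_cfMap g.symm.continuous.measurable

theorem pvr_defsD_eqns_cite : True := by
  have := @pvrMapE.eq_1
  trivial

/-- PLAN: `cfMap g` is a bijection of `Conf PvPt` with inverse `cfMap g.symm`, both measurable: a `MeasurableEquiv`, so `MeasurableEquiv.map_apply` holds for EVERY set; `hP`;
`cfMap g ⁻¹' pvrEv (e.map g) = pvrEv e` by `pvr_B_sim` and `pvr_holds_map`. -/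
theorem pvr_inv_sim {g : ℂ ≃ₜ ℂ} {r : ℝ} (hr : 0 < r) (hg : ∀ z w, ‖g z - g w‖ = r * ‖z - w‖) {ε ε' : ℝ} (hP : (pvP ε).map (cfMap g) = pvP ε') (e : RswTri) :
    pvP ε' (pvrEv (e.map g)) = pvP ε (pvrEv e) := by
  have h := MeasurableEquiv.map_apply (μ := pvP ε) (pvrMapE g) (pvrEv (e.map g))
  have h2 : (pvP ε).map (pvrMapE g) = pvP ε' := hP
  rw [h2] at h
  rw [h]
  congr 1
  ext η
  show (e.map g).Holds (cfB (cfMap g η)) ↔ e.Holds (cfB η)
  have h3 : cfB (cfMap g η) = g '' cfB η := pvr_B_sim (g := g.toEquiv) hr hg η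
  rw [h3, pvr_holds_map]

/-- **INV**.   PLAN: `pvr_inv_sim` with `r = 1`, `pvP_isometry`. -/
theorem pvr_inv (g : ℂ ≃ᵢ ℂ) (ε : ℝ) (e : RswTri) : pvP ε (pvrEv (e.map g)) = pvP ε (pvrEv e) :=
  pvr_inv_sim (g := g.toHomeomorph) one_pos (fun z w => by
    rw [one_mul, ← dist_eq_norm, ← dist_eq_norm]
    exact g.dist_eq z w) (pvP_isometry g ε) e

/-- **SCALE**.   PLAN: `pvr_inv_sim` with `r = c`, `pvP_scale`. -/
theorem pvr_scale {c : ℝ} (hc : 0 < c) (ε : ℝ) (e : RswTri) : pvP (c * ε) (pvrEv (e.map fun z => c • z)) = pvP ε (pvrEv e) :=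
  pvr_inv_sim (g := Homeomorph.smulOfNeZero c hc.ne') hc (fun z w => by
    show ‖c • z - c • w‖ = c * ‖z - w‖
    rw [← smul_sub, norm_smul, Real.norm_eq_abs, abs_of_pos hc]) (pvP_scale hc.ne' ε) e

theorem pvr_inv_tr (ε : ℝ) (w : ℂ) (e : RswTri) : pvP ε (pvrEv (e.map fun z => z + w)) = pvP ε (pvrEv e) :=
  pvr_inv (IsometryEquiv.addRight w) ε e

/-- PLAN: `pvr_inv` with `Complex.conjLIE.toIsometryEquiv`. -/
theorem pvr_inv_conj (ε : ℝ) (e : RswTri) : pvP ε (pvrEv (e.map fun z => (starRingEnd ℂ) z)) = pvP ε (pvrEv e) :=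
  pvr_inv Complex.conjLIE.toIsometryEquiv ε e

/-- PLAN: `pvr_inv` with `Complex.conjLIE.toIsometryEquiv.trans (IsometryEquiv.neg ℂ)`. -/
theorem pvr_inv_nconj (ε : ℝ) (e : RswTri) : pvP ε (pvrEv (e.map fun z => -(starRingEnd ℂ) z)) = pvP ε (pvrEv e) :=
  pvr_inv (Complex.conjLIE.toIsometryEquiv.trans (IsometryEquiv.neg ℂ)) ε e

/-- PLAN: `pvr_inv` with `(rotation ⟨Complex.I, _⟩).toIsometryEquiv`. -/
theorem pvr_inv_I (ε : ℝ) (e : RswTri) : pvP ε (pvrEv (e.map fun z => Complex.I * z)) = pvP ε (pvrEv e) := by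
  have h := pvr_inv (rotation (⟨Complex.I, by simp [Submonoid.unitSphere]⟩ : Circle)).toIsometryEquiv ε e
  exact h

/-! ## E. squares, finite energy -/

/-- PLAN: `pvcn_LF_ae`; `{η | η.pts = ∅} = Conf.void univ`, `(pv_isPpp ε).void`, `pvInt ε univ = ∞` (`ε ≠ 0`), `expNeg ∞ = 0`. -/
theorem pvr_ok_ae (ε : ℝ) (hε : ε ≠ 0) : ∀ᵐ η ∂(pvP ε), PvrOk η := by
  have h0 : pvP ε (Conf.void (univ : Set PvPt)) = 0 := by
    rw [(pv_isPpp ε).void _ MeasurableSet.univ]
    have hi : pvInt ε univ = ∞ := by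
      unfold pvInt
      rw [Measure.smul_apply, ← univ_prod_univ, Measure.prod_prod, measure_univ (μ := pvCoin), mul_one, smul_eq_mul,
        measure_univ_of_isAddLeftInvariant]
      refine ENNReal.mul_top ?_
      rw [Ne, ENNReal.ofReal_eq_zero, not_le]
      positivity
    rw [hi]
    simp [expNeg]
  have h1 : ∀ᵐ η ∂(pvP ε), η ∉ Conf.void (univ : Set PvPt) := measure_eq_zero_iff_ae_notMem.1 h0
  filter_upwards [pvcn_LF_ae ε, h1] with η hl hn
  refine ⟨hl, ?_⟩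
  by_contra hc
  rw [Set.not_nonempty_iff_eq_empty] at hc
  refine hn ?_
  rw [Conf.mem_void]
  intro p hp
  rw [hc] at hp
  exact hp.elim

/-- **HEX** for a configuration.   PLAN: `R` bounded: the sites whose cell meets `R` are finitely many (`vor_finite_meet`); `C` := the black ones, `D` := the white ones (index types = finite subtypes);
`R ⊆ ⋃ C ∪ ⋃ D` (`vor_cover`); `rsw_hex_some`; `⋃ C ⊆ cfB η`, `⋃ D ⊆ cfW η` (`pvr_B_eq_un`, `pvr_W_eq_un`), `rsw_det_mono`. -/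
theorem pvr_hex {η : Conf PvPt} (h : PvrOk η) {x0 x1 y0 y1 : ℝ} (hx : x0 ≤ x1) (hy : y0 ≤ y1) :
    (rswLR x0 x1 y0 y1).Holds (cfB η) ∨ (rswTB x0 x1 y0 y1).Holds (cfW η) := by
  have lf : VorLF (cfSites η) := pvr_lf h.lf
  have hne : (cfSites η).Nonempty := by
    obtain ⟨p, hp⟩ := h.ne
    exact ⟨p.1, p, hp, rfl⟩
  have hfin : (vorMeet (cfSites η) (rswRect x0 x1 y0 y1)).Finite :=
    vor_finite_meet lf (rsw_rect_compact x0 x1 y0 y1).isBounded
  have f1 : Finite ↥{v | v ∈ vorMeet (cfSites η) (rswRect x0 x1 y0 y1) ∧ v ∈ cfBk η} :=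
    (hfin.subset fun v hv => hv.1).to_subtype
  have f2 : Finite ↥{v | v ∈ vorMeet (cfSites η) (rswRect x0 x1 y0 y1) ∧ v ∈ cfWh η} :=
    (hfin.subset fun v hv => hv.1).to_subtype
  have hcov : rswRect x0 x1 y0 y1 ⊆
      (⋃ i : ↥{v | v ∈ vorMeet (cfSites η) (rswRect x0 x1 y0 y1) ∧ v ∈ cfBk η}, vorCell (cfSites η) i) ∪
      ⋃ k : ↥{v | v ∈ vorMeet (cfSites η) (rswRect x0 x1 y0 y1) ∧ v ∈ cfWh η}, vorCell (cfSites η) k := by
    intro z hz
    obtain ⟨v, hv, hzv⟩ := vor_cover lf hne z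
    have hm : v ∈ vorMeet (cfSites η) (rswRect x0 x1 y0 y1) := ⟨hv, z, hzv, hz⟩
    rw [pvr_sites] at hv
    rcases hv with hb | hw
    · exact Or.inl (mem_iUnion.2 ⟨⟨v, hm, hb⟩, hzv⟩)
    · exact Or.inr (mem_iUnion.2 ⟨⟨v, hm, hw⟩, hzv⟩)
  rcases rsw_hex_some (fun i => ⟨vor_isClosed_cell _ _, vor_convex_cell _ _⟩)
    (fun k => ⟨vor_isClosed_cell _ _, vor_convex_cell _ _⟩) hx hy hcov with h1 | h1
  · left
    refine rsw_det_mono ?_ Subset.rfl Subset.rfl Subset.rfl h1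
    rw [pvr_B_eq_un h.lf]
    intro z hz
    obtain ⟨i, hi⟩ := mem_iUnion.1 hz
    exact ⟨i, i.2.2, hi⟩
  · right
    refine rsw_det_mono ?_ Subset.rfl Subset.rfl Subset.rfl h1
    rw [pvr_W_eq_un h.lf]
    intro z hz
    obtain ⟨i, hi⟩ := mem_iUnion.1 hz
    exact ⟨i, i.2.2, hi⟩

/-- PLAN: `rswTB 0 s 0 s = ((rswLR 0 s 0 s).map (I * ·)).map (· + s)` as patterns up to the exchange ... : `I * [0,s]² = [-s,0] x [0,s]`, left side `↦` bottom side, right side `↦` top side; then translate by `s`.   `rsw_map_I_LR`, `rsw_map_tr_TB` of Topo; `pvr_inv_I`, `pvr_inv_tr`. -/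
theorem pvr_TB_eq_LR (ε s : ℝ) : pvP ε (pvrEv (rswTB 0 s 0 s)) = pvP ε (pvrEv (rswLR 0 s 0 s)) := by
  have e1 := rsw_map_I_LR 0 s 0 s
  have e2 := rsw_map_tr_TB (s : ℂ) (-s) (-0) 0 s
  have e3 : rswTB (-s + (s : ℂ).re) (-0 + (s : ℂ).re) (0 + (s : ℂ).im) (s + (s : ℂ).im) = rswTB 0 s 0 s := by
    simp
  rw [e3, ← e1] at e2
  rw [← e2, pvr_inv_tr, pvr_inv_I]

/-- **SQ**.   PLAN: a.s. (`pvr_ok_ae`) `pvr_hex`: `1 ≤ P(LR black) + P(TB white)` (`measure_union_le`), `pvr_flip_ev`, `pvr_TB_eq_LR`. -/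
theorem pvr_sq (ε : ℝ) (hε : ε ≠ 0) (s : ℝ) (hs : 0 < s) : (2 : ℝ≥0∞)⁻¹ ≤ pvP ε (pvrEv (rswLR 0 s 0 s)) := by
  have hp := (pv_isPpp ε).prob
  have h1 : (univ : Set (Conf PvPt)) ≤ᵐ[pvP ε] (pvrEv (rswLR 0 s 0 s) ∪ pvrEvW (rswTB 0 s 0 s) : Set (Conf PvPt)) := by
    filter_upwards [pvr_ok_ae ε hε] with η hη _
    exact pvr_hex hη hs.le hs.le
  have h2 : (1 : ℝ≥0∞) ≤ pvP ε (pvrEv (rswLR 0 s 0 s)) + pvP ε (pvrEv (rswLR 0 s 0 s)) := by
    calc (1 : ℝ≥0∞) = pvP ε univ := measure_univ.symm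
      _ ≤ pvP ε (pvrEv (rswLR 0 s 0 s) ∪ pvrEvW (rswTB 0 s 0 s)) := measure_mono_ae h1
      _ ≤ pvP ε (pvrEv (rswLR 0 s 0 s)) + pvP ε (pvrEvW (rswTB 0 s 0 s)) := measure_union_le _ _
      _ = _ := by rw [pvr_flip_ev, pvr_TB_eq_LR]
  rw [← two_mul] at h2
  rw [ENNReal.inv_le_iff_le_mul (by simp) (by simp)]
  exact h2

/-- PLAN: `void A \ void B = void A \ void (A ∪ B)`, `measure_diff`, `Conf.void_union`, `expNeg_add`, `measure_union`. -/
theorem pvr_void_diff {E : Type*} [MeasurableSpace E] {m : Measure E} {μ : Measure (Conf E)} (h : IsPpp m μ) {A B : Set E} (hA : MeasurableSet A) (hB : MeasurableSet B)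
    (hd : Disjoint A B) : μ (Conf.void A \ Conf.void B) = expNeg (m A) * (1 - expNeg (m B)) := by
  have hp := h.prob
  have e : Conf.void A \ Conf.void B = Conf.void A \ Conf.void (A ∪ B) := by
    rw [Conf.void_union]
    ext η
    simp only [Set.mem_sdiff, mem_inter_iff, not_and]
    exact ⟨fun hh => ⟨hh.1, fun _ => hh.2⟩, fun hh => ⟨hh.1, hh.2 hh.1⟩⟩
  have hsub : Conf.void (A ∪ B) ⊆ Conf.void A := by
    rw [Conf.void_union]; exact inter_subset_left
  rw [e, measure_sdiff hsub (Conf.measurableSet_void (hA.union hB)).nullMeasurableSet (measure_ne_top _ _),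
    h.void A hA, h.void _ (hA.union hB), measure_union hd hB, expNeg_add,
    ENNReal.mul_sub (fun _ _ => ((expNeg_le_one _).trans_lt ENNReal.one_lt_top).ne), mul_one]

/-- PLAN: `z ∈ R`, `v` the black site in `R^{+1}`: `‖z - v‖ ≤ |re| + |im| ≤ (x1 - x0 + 1) + (y1 - y0 + 1) ≤ 2 M + 2`; a white site `w` is outside the big rectangle: one coordinate differs from that of `z` by more than `2 M + 2`, so `2 M + 2 < ‖z - w‖`
(`Complex.abs_re_le_norm`, `Complex.abs_im_le_norm`, `Complex.norm_le_abs_re_add_abs_im`). -/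
theorem pvr_fe_det {η : Conf PvPt} {x0 x1 y0 y1 M : ℝ} (hM1 : x1 - x0 ≤ M) (hM2 : y1 - y0 ≤ M)
    (h1 : η ∈ Conf.void ((rswRect (x0 - 2 * M - 2) (x1 + 2 * M + 2) (y0 - 2 * M - 2) (y1 + 2 * M + 2)) ×ˢ {false}))
    (h2 : η ∉ Conf.void ((rswRect (x0 - 1) (x1 + 1) (y0 - 1) (y1 + 1)) ×ˢ {true})) : rswRect x0 x1 y0 y1 ⊆ cfB η := by
  rw [Conf.mem_void] at h1 h2
  push Not at h2
  obtain ⟨⟨v, c⟩, hp, hv, hc⟩ := h2
  have hc' : c = true := hc
  subst hc'
  obtain ⟨v1, v2, v3, v4⟩ := hv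
  simp only at v1 v2 v3 v4
  rintro z ⟨z1, z2, z3, z4⟩
  refine ⟨v, hp, fun w hw => ?_⟩
  have hw' : w ∉ rswRect (x0 - 2 * M - 2) (x1 + 2 * M + 2) (y0 - 2 * M - 2) (y1 + 2 * M + 2) := by
    intro hcon
    exact h1 (w, false) hw ⟨hcon, rfl⟩
  have hzv : ‖z - v‖ ≤ 2 * M + 2 := by
    have a1 : |(z - v).re| ≤ x1 - x0 + 1 := by
      rw [Complex.sub_re, abs_le]; constructor <;> linarith
    have a2 : |(z - v).im| ≤ y1 - y0 + 1 := by
      rw [Complex.sub_im, abs_le]; constructor <;> linarith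
    have := Complex.norm_le_abs_re_add_abs_im (z - v)
    linarith
  have hzw : 2 * M + 2 < ‖z - w‖ := by
    have b1 := Complex.abs_re_le_norm (z - w)
    have b2 := Complex.abs_im_le_norm (z - w)
    rw [Complex.sub_re] at b1
    rw [Complex.sub_im] at b2
    by_contra hcon
    have hcon' : ‖z - w‖ ≤ 2 * M + 2 := not_lt.1 hcon
    have c1 := abs_le.1 (b1.trans hcon')
    have c2 := abs_le.1 (b2.trans hcon')
    exact hw' ⟨by linarith [c1.2], by linarith [c1.1], by linarith [c2.2], by linarith [c2.1]⟩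
  linarith

theorem pvr_vol_rp (s t : Set ℝ) (hs : MeasurableSet s) (ht : MeasurableSet t) : (volume : Measure ℂ) (s ×ℂ t) = volume s * volume t := by
  have e : s ×ℂ t = Complex.measurableEquivRealProd ⁻¹' (s ×ˢ t) := by
    ext z
    simp [Complex.mem_reProdIm, Complex.measurableEquivRealProd]
  rw [e, Complex.volume_preserving_equiv_real_prod.measure_preimage (hs.prod ht).nullMeasurableSet, Measure.volume_eq_prod, Measure.prod_prod]

/-- mass of a coloured rectangle.   PLAN: `pvInt`, `Measure.prod_prod`, `pvCoin_apply`, `Complex.volume_preserving_equiv_real_prod` (`rswRect = equiv ⁻¹' (Icc ×ˢ Icc)`), `Real.volume_Icc`. -/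
theorem pvr_int_rect (x0 x1 y0 y1 : ℝ) (c : Bool) :
    pvInt 1 ((rswRect x0 x1 y0 y1) ×ˢ {c}) = ENNReal.ofReal (x1 - x0) * ENNReal.ofReal (y1 - y0) * 2⁻¹ := by
  unfold pvInt
  rw [Measure.smul_apply, Measure.prod_prod, pvCoin_apply, rsw_rect_eq, pvr_vol_rp _ _ measurableSet_Icc measurableSet_Icc, Real.volume_Icc, Real.volume_Icc]
  simp

theorem pvr32_expNeg_ofReal {t : ℝ} (ht : 0 ≤ t) : expNeg (ENNReal.ofReal t) = ENNReal.ofReal (Real.exp (-t)) := by
  unfold expNeg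
  rw [if_neg ENNReal.ofReal_ne_top, ENNReal.toReal_ofReal ht]

theorem pvr32_expNeg_anti {x y : ℝ≥0∞} (h : x ≤ y) : expNeg y ≤ expNeg x := by
  unfold expNeg
  by_cases hy : y = ∞
  · rw [if_pos hy]; exact zero_le
  · have hx : x ≠ ∞ := ne_top_of_le_ne_top hy h
    rw [if_neg hy, if_neg hx]
    apply ENNReal.ofReal_le_ofReal
    apply Real.exp_le_exp.2
    have := (ENNReal.toReal_le_toReal hx hy).2 h
    linarith

/-- **FE**.   PLAN: `pvr_fe_det`, `pvr_void_diff` (different colours: disjoint), `pvr_int_rect`: `c = exp (-(5 M' + 4)² / 2) (1 - exp (-2))`, `M' = max M 0` (white rectangle: sides `≤ 5 M' + 4`; black rectangle: sides `≥ 2`). -/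
theorem pvr_fe (M : ℝ) : ∃ c > 0, ∀ x0 x1 y0 y1 : ℝ, x0 ≤ x1 → y0 ≤ y1 → x1 - x0 ≤ M → y1 - y0 ≤ M →
    ENNReal.ofReal c ≤ pvP 1 {η | rswRect x0 x1 y0 y1 ⊆ cfB η} := by
  have hpos : 0 < 1 - Real.exp (-2) := by
    have : Real.exp (-2) < 1 := by
      rw [Real.exp_lt_one_iff]; norm_num
    linarith
  refine ⟨Real.exp (-((5 * M + 4) * (5 * M + 4) / 2)) * (1 - Real.exp (-2)), mul_pos (Real.exp_pos _) hpos, ?_⟩
  intro x0 x1 y0 y1 hx hy hM1 hM2
  have hM : 0 ≤ M := by linarith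
  set A : Set PvPt := (rswRect (x0 - 2 * M - 2) (x1 + 2 * M + 2) (y0 - 2 * M - 2) (y1 + 2 * M + 2)) ×ˢ {false} with hA
  set B : Set PvPt := (rswRect (x0 - 1) (x1 + 1) (y0 - 1) (y1 + 1)) ×ˢ {true} with hB
  have mA : MeasurableSet A := (rsw_rect_compact _ _ _ _).isClosed.measurableSet.prod (measurableSet_singleton _)
  have mB : MeasurableSet B := (rsw_rect_compact _ _ _ _).isClosed.measurableSet.prod (measurableSet_singleton _)
  have hd : Disjoint A B := by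
    rw [Set.disjoint_left]
    rintro ⟨v, c⟩ ⟨_, h1⟩ ⟨_, h2⟩
    have h1' : c = false := h1
    have h2' : c = true := h2
    rw [h1'] at h2'
    exact Bool.false_ne_true h2'
  have hsub : Conf.void A \ Conf.void B ⊆ {η | rswRect x0 x1 y0 y1 ⊆ cfB η} :=
    fun η hη => pvr_fe_det hM1 hM2 hη.1 hη.2
  refine le_trans ?_ (measure_mono hsub)
  rw [pvr_void_diff (pv_isPpp 1) mA mB hd, hA, hB, pvr_int_rect, pvr_int_rect,
    ENNReal.ofReal_mul (Real.exp_pos _).le]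
  have i2 : (2 : ℝ≥0∞)⁻¹ = ENNReal.ofReal (1 / 2) := by
    rw [one_div, ENNReal.ofReal_inv_of_pos (by norm_num)]; simp
  refine mul_le_mul' ?_ ?_
  · rw [← pvr32_expNeg_ofReal (by positivity)]
    apply pvr32_expNeg_anti
    rw [i2, ← ENNReal.ofReal_mul (by linarith), ← ENNReal.ofReal_mul (by
      apply mul_nonneg <;> linarith)]
    apply ENNReal.ofReal_le_ofReal
    have a1 : x1 + 2 * M + 2 - (x0 - 2 * M - 2) ≤ 5 * M + 4 := by linarith
    have a2 : y1 + 2 * M + 2 - (y0 - 2 * M - 2) ≤ 5 * M + 4 := by linarith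
    have a3 : 0 ≤ y1 + 2 * M + 2 - (y0 - 2 * M - 2) := by linarith
    have := mul_le_mul a1 a2 a3 (by linarith)
    linarith
  · have hle : expNeg (ENNReal.ofReal (x1 + 1 - (x0 - 1)) * ENNReal.ofReal (y1 + 1 - (y0 - 1)) * 2⁻¹) ≤ ENNReal.ofReal (Real.exp (-2)) := by
      rw [← pvr32_expNeg_ofReal (by norm_num : (0:ℝ) ≤ 2)]
      apply pvr32_expNeg_anti
      rw [i2, ← ENNReal.ofReal_mul (by linarith), ← ENNReal.ofReal_mul (by
        apply mul_nonneg <;> linarith)]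
      apply ENNReal.ofReal_le_ofReal
      have a1 : 2 ≤ x1 + 1 - (x0 - 1) := by linarith
      have a2 : 2 ≤ y1 + 1 - (y0 - 1) := by linarith
      have := mul_le_mul a1 a2 (by norm_num) (by linarith)
      linarith
    rw [ENNReal.ofReal_sub _ (Real.exp_pos _).le, ENNReal.ofReal_one]
    exact tsub_le_tsub_left hle 1

end Claimed.Agent.R289
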