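import Claimed.Agent.R289.Rsw.VerBlock
import Claimed.Agent.R289.Mesh.Net
import Claimed.Agent.R289.Fkg
import Claimed.Agent.R289.Del.GenPos

/-!
# Row 289 (S0537), box RSW part II, file Rsw/VerAd : IND + LOC + arm decay      (owner helper54, head helper262; design helper259 rsw_259.md sec. 6 `ad`; prefix `pvra`)

Regions in the monotone form of `VerBlock.lean`: black region `pvrbM (cfBk η) (cfWh η)`, white region `pvrbM (cfWh η) (cfBk η)`.
* `pvra_ind`, `pvra_none` : IND for finitely many pairwise disjoint regions (any `IsPpp`);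
* `pvra_loc_set` : LOC in the monotone form (deterministic);
* one scale `u`: `pvraHash u` (the `#`), `pvraW u` (four white crossings), `pvraG u` (mesh event, 8 squares), `pvraN u` (region read), `pvraL u` (local event);
  `pvra_L_sub_W`, `pvra_L_prob` (`μ W ≤ μ L + 8·37² exp(-(u/8)²/(8ε²))`), `pvra_block` (`pvrb_hash`);
* `pvra_arm_le` : `k` scales `16^i u0`: `μ(arm) ≤ (1-q)^k`;      `pvra_ad` : the field `ad` of `RswModel`, from `c' ≤ μ (pvraW u)` on `[4t, Ct]`.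
The only hypothesis left is MEAS: `MeasurableSet ({η | e.Holds (white region)} ∩ {η | PvLF η})` for nice `e`.
-/

set_option autoImplicit false

namespace Claimed.Agent.R289

open Set Metric Topology MeasureTheory ProbabilityTheory
open scoped ENNReal

/-! ## 1. IND: restrictions to finitely many disjoint regions -/

section ind
variable {E : Type*} [MeasurableSpace E]

theorem pvra_restr_restr {O O' : Set E} (h : O ⊆ O') (η : Conf E) : Conf.restr O (Conf.restr O' η) = Conf.restr O η := by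
  unfold Conf.restr
  congr 1
  ext p
  simp only [mem_inter_iff]
  exact ⟨fun hp => ⟨hp.1.1, hp.2⟩, fun hp => ⟨⟨hp.1, h hp.2⟩, hp.2⟩⟩

/-- **IND** for finitely many pairwise disjoint regions -/
theorem pvra_ind {m : Measure E} {μ : Measure (Conf E)} (h : IsPpp m μ) {ι : Type*} (I : Finset ι) (N : ι → Set E)
    (hN : ∀ i ∈ I, MeasurableSet (N i)) (hd : (I : Set ι).PairwiseDisjoint N) (A : ι → Set (Conf E)) (hA : ∀ i ∈ I, MeasurableSet (A i)) :
    μ (⋂ i ∈ I, Conf.restr (N i) ⁻¹' A i) = ∏ i ∈ I, μ (Conf.restr (N i) ⁻¹' A i) := by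
  classical
  have := h.prob
  induction I using Finset.induction_on with
  | empty => simp
  | @insert i0 I hi0 ih =>
    have hN0 := hN i0 (Finset.mem_insert_self _ _)
    have ih' := ih (fun i hi => hN i (Finset.mem_insert_of_mem hi))
      (hd.subset (by intro i hi; exact Finset.mem_insert_of_mem hi)) (fun i hi => hA i (Finset.mem_insert_of_mem hi))
    rw [Finset.prod_insert hi0, Finset.set_biInter_insert, ← ih']
    have e : (⋂ i ∈ I, Conf.restr (N i) ⁻¹' A i) = Conf.restr (N i0)ᶜ ⁻¹' (⋂ i ∈ I, Conf.restr (N i) ⁻¹' A i) := by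
      ext η
      simp only [mem_iInter, mem_preimage]
      refine forall₂_congr fun i hi => ?_
      have hsub : N i ⊆ (N i0)ᶜ := by
        have hne : i ≠ i0 := fun he => hi0 (he ▸ hi)
        exact (hd (Finset.mem_insert_of_mem hi) (Finset.mem_insert_self _ _) hne).subset_compl_right
      rw [pvra_restr_restr hsub]
    rw [e]
    exact (h.indep hN0).measure_inter_preimage_eq_mul _ _ (hA i0 (Finset.mem_insert_self _ _))
      (Finset.measurableSet_biInter _ fun i hi => Conf.measurable_restr (hN i (Finset.mem_insert_of_mem hi)) (hA i (Finset.mem_insert_of_mem hi)))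

/-- none of `k` independent local events of probability `≥ q` occurs: probability `≤ (1-q)^k` -/
theorem pvra_none {m : Measure E} {μ : Measure (Conf E)} (h : IsPpp m μ) {ι : Type*} (I : Finset ι) (N : ι → Set E)
    (hN : ∀ i ∈ I, MeasurableSet (N i)) (hd : (I : Set ι).PairwiseDisjoint N) (A : ι → Set (Conf E)) (hA : ∀ i ∈ I, MeasurableSet (A i))
    {q : ℝ≥0∞} (hq : ∀ i ∈ I, q ≤ μ (Conf.restr (N i) ⁻¹' A i)) :
    μ (⋂ i ∈ I, (Conf.restr (N i) ⁻¹' A i)ᶜ) ≤ (1 - q) ^ I.card := by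
  have := h.prob
  have e : (⋂ i ∈ I, (Conf.restr (N i) ⁻¹' A i)ᶜ) = ⋂ i ∈ I, Conf.restr (N i) ⁻¹' (A i)ᶜ := by
    simp only [preimage_compl]
  rw [e, pvra_ind h I N hN hd (fun i => (A i)ᶜ) (fun i hi => (hA i hi).compl), ← Finset.prod_const]
  refine Finset.prod_le_prod' fun i hi => ?_
  rw [preimage_compl, prob_compl_eq_one_sub (Conf.measurable_restr (hN i hi) (hA i hi))]
  exact tsub_le_tsub_left (hq i hi) 1

end ind

/-! ## 2. LOC in the monotone form -/

/-- **LOC**: if the open `ρ`-neighbourhood of `K` lies in `N` and every point of `K` has a site of `N` within `ρ`, then inside `K` the region of the colour `A` only depends on the sites in `N`. -/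
theorem pvra_loc_set {A B N K : Set ℂ} {ρ : ℝ} (hN : ∀ z ∈ K, ∀ w : ℂ, ‖w - z‖ < ρ → w ∈ N)
    (hnet : ∀ z ∈ K, ∃ s ∈ A ∪ B, ‖s - z‖ < ρ) : pvrbM (A ∩ N) (B ∩ N) ∩ K = pvrbM A B ∩ K := by
  ext z
  constructor
  · rintro ⟨⟨a, ⟨haA, haN⟩, h⟩, hzK⟩
    refine ⟨?_, hzK⟩
    obtain ⟨s, hs, hsz⟩ := hnet z hzK
    have hsN := hN z hzK s hsz
    have hout : ∀ b, b ∉ N → ρ ≤ ‖z - b‖ := fun b hb => by
      by_contra hlt
      exact hb (hN z hzK b (by rw [norm_sub_rev]; exact not_le.1 hlt))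
    rw [norm_sub_rev] at hsz
    by_cases ha : ‖z - a‖ < ρ
    · refine ⟨a, haA, fun b hb => ?_⟩
      by_cases hbN : b ∈ N
      · exact h b ⟨hb, hbN⟩
      · exact ha.le.trans (hout b hbN)
    · rcases hs with hs | hs
      · refine ⟨s, hs, fun b hb => ?_⟩
        by_cases hbN : b ∈ N
        · exact (hsz.le.trans (not_lt.1 ha)).trans (h b ⟨hb, hbN⟩)
        · exact hsz.le.trans (hout b hbN)
      · exact absurd ((h s ⟨hs, hsN⟩).trans_lt hsz) ha
  · rintro ⟨⟨a, haA, h⟩, hzK⟩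
    refine ⟨?_, hzK⟩
    obtain ⟨s, hs, hsz⟩ := hnet z hzK
    have hsN := hN z hzK s hsz
    rw [norm_sub_rev] at hsz
    by_cases ha : ‖z - a‖ < ρ
    · exact ⟨a, ⟨haA, hN z hzK a (by rw [norm_sub_rev]; exact ha)⟩, fun b hb => h b hb.1⟩
    · rcases hs with hs | hs
      · exact ⟨s, ⟨hs, hsN⟩, fun b hb => (hsz.le.trans (not_lt.1 ha)).trans (h b hb.1)⟩
      · exact absurd ((h s hs).trans_lt hsz) ha

theorem pvra_Bk_restr (N : Set ℂ) (η : Conf PvPt) : cfBk (Conf.restr (N ×ˢ univ) η) = cfBk η ∩ N := by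
  ext v
  simp [cfBk, Conf.restr]

theorem pvra_Wh_restr (N : Set ℂ) (η : Conf PvPt) : cfWh (Conf.restr (N ×ˢ univ) η) = cfWh η ∩ N := by
  ext v
  simp [cfWh, Conf.restr]

theorem pvra_sites (η : Conf PvPt) : cfSites η = cfWh η ∪ cfBk η := by
  ext v
  constructor
  · rintro ⟨⟨w, c⟩, hp, rfl⟩
    cases c
    · exact Or.inl hp
    · exact Or.inr hp
  · rintro (h | h)
    · exact ⟨_, h, rfl⟩
    · exact ⟨_, h, rfl⟩

theorem pvra_holds_congr {e : RswTri} {B B' : Set ℂ} (h : B ∩ e.K = B' ∩ e.K) : e.Holds B ↔ e.Holds B' := by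
  unfold RswTri.Holds
  rw [h]

theorem pvra_LF_restr {η : Conf PvPt} (h : PvLF η) (O : Set PvPt) : PvLF (Conf.restr O η) := fun k =>
  (h k).subset (inter_subset_inter_left _ inter_subset_left)

/-! ## 3. the geometry of one scale -/

/-- the region read by the scale `u`: the square annulus `u/2 ≤ max(|re|,|im|)`, `≤ 4u` -/
def pvraN (u : ℝ) : Set ℂ := {z | (|z.re| ≤ 4 * u ∧ |z.im| ≤ 4 * u) ∧ (u / 2 ≤ |z.re| ∨ u / 2 ≤ |z.im|)}

/-- the square annulus which contains the `#` pattern -/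
def pvraA (u : ℝ) : Set ℂ := {z | (|z.re| ≤ 3 * u ∧ |z.im| ≤ 3 * u) ∧ (u ≤ |z.re| ∨ u ≤ |z.im|)}

/-- the `#` pattern of the scale `u` -/
def pvraHash (u : ℝ) : List RswTri :=
  [rswLR (0 - 3 * u) (0 + 3 * u) (0 + u) (0 + 2 * u), rswLR (0 - 3 * u) (0 + 3 * u) (0 - 2 * u) (0 - u),
   rswTB (0 - 2 * u) (0 - u) (0 - 3 * u) (0 + 3 * u), rswTB (0 + u) (0 + 2 * u) (0 - 3 * u) (0 + 3 * u)]

/-- the eight centres of the squares of half side `u` which cover `pvraA u` -/
def pvraCen (u : ℝ) : List ℂ :=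
  [⟨-(2 * u), -(2 * u)⟩, ⟨-(2 * u), 0⟩, ⟨-(2 * u), 2 * u⟩, ⟨0, -(2 * u)⟩, ⟨0, 2 * u⟩, ⟨2 * u, -(2 * u)⟩, ⟨2 * u, 0⟩, ⟨2 * u, 2 * u⟩]

/-- four closed white crossings of the `#` -/
def pvraW (u : ℝ) : Set (Conf PvPt) := {η | ∀ e ∈ pvraHash u, e.Holds (pvrbM (cfWh η) (cfBk η))}

/-- the mesh event of the scale `u` -/
def pvraG (u : ℝ) : Set (Conf PvPt) := {η | ∀ w ∈ pvraCen u, η ∈ pvmGood univ (u / 8) w u}

/-- the local version of the event -/
def pvraL (u : ℝ) : Set (Conf PvPt) := Conf.restr (pvraN u ×ˢ univ) ⁻¹' (pvraW u ∩ {η | PvLF η} ∩ pvraG u)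

theorem pvra_defs_eqns_cite : True := by
  have := @pvraN.eq_1
  have := @pvraA.eq_1
  have := @pvraHash.eq_1
  have := @pvraCen.eq_1
  have := @pvraW.eq_1
  have := @pvraG.eq_1
  have := @pvraL.eq_1
  trivial

theorem pvra_N_meas (u : ℝ) : MeasurableSet (pvraN u) := by
  have h1 : Measurable fun z : ℂ => |z.re| := (Complex.measurable_re).abs
  have h2 : Measurable fun z : ℂ => |z.im| := (Complex.measurable_im).abs
  exact ((measurableSet_le h1 measurable_const).inter (measurableSet_le h2 measurable_const)).inter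
    ((measurableSet_le measurable_const h1).union (measurableSet_le measurable_const h2))

theorem pvra_N_disj {u u' : ℝ} (hu : 0 < u) (h : 16 * u ≤ u') : Disjoint (pvraN u) (pvraN u') := by
  rw [Set.disjoint_left]
  rintro z ⟨⟨a1, a2⟩, _⟩ ⟨_, b⟩
  rcases b with b | b <;> linarith

theorem pvra_hash_sub {u : ℝ} (hu : 0 < u) {e : RswTri} (he : e ∈ pvraHash u) : e.K ⊆ pvraA u := by
  simp only [pvraHash, List.mem_cons, List.not_mem_nil, or_false] at he
  rcases he with rfl | rfl | rfl | rfl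
  · rintro z ⟨h1, h2, h3, h4⟩
    exact ⟨⟨abs_le.2 ⟨by linarith, by linarith⟩, abs_le.2 ⟨by linarith, by linarith⟩⟩, Or.inr (le_trans (by linarith) (le_abs_self _))⟩
  · rintro z ⟨h1, h2, h3, h4⟩
    exact ⟨⟨abs_le.2 ⟨by linarith, by linarith⟩, abs_le.2 ⟨by linarith, by linarith⟩⟩, Or.inr (le_trans (by linarith) (neg_le_abs _))⟩
  · rintro z ⟨h1, h2, h3, h4⟩
    exact ⟨⟨abs_le.2 ⟨by linarith, by linarith⟩, abs_le.2 ⟨by linarith, by linarith⟩⟩, Or.inl (le_trans (by linarith) (neg_le_abs _))⟩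
  · rintro z ⟨h1, h2, h3, h4⟩
    exact ⟨⟨abs_le.2 ⟨by linarith, by linarith⟩, abs_le.2 ⟨by linarith, by linarith⟩⟩, Or.inl (le_trans (by linarith) (le_abs_self _))⟩

/-- one coordinate: a centre in `{-2u, 0, 2u}` within `u`, equal to `0` only if `|x| < u` -/
theorem pvra_cen1 {u x : ℝ} (hu : 0 < u) (hx : |x| ≤ 3 * u) : ∃ c : ℝ, (c = -(2 * u) ∨ c = 0 ∨ c = 2 * u) ∧ |x - c| ≤ u ∧ (c = 0 → |x| < u) := by
  obtain ⟨h1, h2⟩ := abs_le.1 hx
  by_cases ha : x ≤ -u
  · exact ⟨-(2 * u), Or.inl rfl, abs_le.2 ⟨by linarith, by linarith⟩, fun h0 => by linarith⟩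
  · by_cases hb : u ≤ x
    · exact ⟨2 * u, Or.inr (Or.inr rfl), abs_le.2 ⟨by linarith, by linarith⟩, fun h0 => by linarith⟩
    · exact ⟨0, Or.inr (Or.inl rfl), abs_le.2 ⟨by linarith, by linarith⟩, fun _ => abs_lt.2 ⟨by linarith, by linarith⟩⟩

theorem pvra_cover {u : ℝ} (hu : 0 < u) {z : ℂ} (hz : z ∈ pvraA u) : ∃ w ∈ pvraCen u, z ∈ pvmSq w u := by
  obtain ⟨⟨h1, h2⟩, h3⟩ := hz
  obtain ⟨c, hc, hc1, hc0⟩ := pvra_cen1 hu h1
  obtain ⟨d, hd, hd1, hd0⟩ := pvra_cen1 hu h2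
  refine ⟨⟨c, d⟩, ?_, hc1, hd1⟩
  simp only [pvraCen, List.mem_cons, List.not_mem_nil, or_false]
  rcases hc with rfl | rfl | rfl <;> rcases hd with rfl | rfl | rfl <;> simp
  rcases h3 with h3 | h3
  · exact absurd (hc0 rfl) (not_lt.2 h3)
  · exact absurd (hd0 rfl) (not_lt.2 h3)

/-- the open `u/8`-neighbourhood of the `#` annulus lies in the region read -/
theorem pvra_nbd {u : ℝ} (hu : 0 < u) {z w : ℂ} (hz : z ∈ pvraA u) (hw : ‖w - z‖ < u / 8) : w ∈ pvraN u := by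
  obtain ⟨⟨h1, h2⟩, h3⟩ := hz
  have hr := (Complex.abs_re_le_norm (w - z)).trans_lt hw
  have hi := (Complex.abs_im_le_norm (w - z)).trans_lt hw
  rw [Complex.sub_re] at hr
  rw [Complex.sub_im] at hi
  have a1 : |w.re| ≤ |w.re - z.re| + |z.re| := by
    have := abs_add_le (w.re - z.re) z.re
    rwa [sub_add_cancel] at this
  have a2 : |w.im| ≤ |w.im - z.im| + |z.im| := by
    have := abs_add_le (w.im - z.im) z.im
    rwa [sub_add_cancel] at this
  have b1 : |z.re| ≤ |w.re - z.re| + |w.re| := by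
    have := abs_sub (w.re) (w.re - z.re)
    rw [sub_sub_cancel] at this
    linarith
  have b2 : |z.im| ≤ |w.im - z.im| + |w.im| := by
    have := abs_sub (w.im) (w.im - z.im)
    rw [sub_sub_cancel] at this
    linarith
  refine ⟨⟨by linarith, by linarith⟩, ?_⟩
  rcases h3 with h3 | h3
  · exact Or.inl (by linarith)
  · exact Or.inr (by linarith)

/-- the squares read by the mesh event lie in the region read -/
theorem pvra_sq_sub {u : ℝ} (hu : 0 < u) {w : ℂ} (hw : w ∈ pvraCen u) : pvmSq w (u + 2 * (u / 8)) ⊆ pvraN u := by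
  simp only [pvraCen, List.mem_cons, List.not_mem_nil, or_false] at hw
  rintro z ⟨h1, h2⟩
  rw [abs_le] at h1 h2
  rcases hw with rfl | rfl | rfl | rfl | rfl | rfl | rfl | rfl <;> simp only at h1 h2 <;>
    refine ⟨⟨abs_le.2 ⟨by linarith [h1.1], by linarith [h1.2]⟩, abs_le.2 ⟨by linarith [h2.1], by linarith [h2.2]⟩⟩, ?_⟩
  · exact Or.inl (le_trans (by linarith [h1.2]) (neg_le_abs _))
  · exact Or.inl (le_trans (by linarith [h1.2]) (neg_le_abs _))
  · exact Or.inl (le_trans (by linarith [h1.2]) (neg_le_abs _))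
  · exact Or.inr (le_trans (by linarith [h2.2]) (neg_le_abs _))
  · exact Or.inr (le_trans (by linarith [h2.1]) (le_abs_self _))
  · exact Or.inl (le_trans (by linarith [h1.1]) (le_abs_self _))
  · exact Or.inl (le_trans (by linarith [h1.1]) (le_abs_self _))
  · exact Or.inl (le_trans (by linarith [h1.1]) (le_abs_self _))

/-! ## 4. one scale: locality, measurability, probability, blocking -/

/-- on the mesh event every point of the `#` annulus has a site within `u/8` -/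
theorem pvra_net {u : ℝ} (hu : 0 < u) {η : Conf PvPt} (h : η ∈ pvraG u) {z : ℂ} (hz : z ∈ pvraA u) :
    ∃ s ∈ cfWh η ∪ cfBk η, ‖s - z‖ < u / 8 := by
  obtain ⟨w, hw, hzw⟩ := pvra_cover hu hz
  obtain ⟨p, hp, -, hpz⟩ := pvm_good_net (by positivity) (h w hw) z hzw
  exact ⟨p.1, by rw [← pvra_sites]; exact ⟨p, hp, rfl⟩, hpz⟩

/-- the mesh event is local -/
theorem pvra_G_loc {u : ℝ} (hu : 0 < u) (η : Conf PvPt) : Conf.restr (pvraN u ×ˢ univ) η ∈ pvraG u ↔ η ∈ pvraG u := by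
  unfold pvraG
  simp only [mem_ofPred_eq]
  refine forall₂_congr fun w hw => ?_
  refine pvm_good_loc (by positivity) hu.le fun p hp => ?_
  simp only [Conf.restr, mem_inter_iff, mem_prod, mem_univ, and_true]
  exact ⟨fun h => h.1, fun h => ⟨h, pvra_sq_sub hu hw hp⟩⟩

/-- on the mesh event the four crossings are local -/
theorem pvra_W_loc {u : ℝ} (hu : 0 < u) {η : Conf PvPt} (h : η ∈ pvraG u) : Conf.restr (pvraN u ×ˢ univ) η ∈ pvraW u ↔ η ∈ pvraW u := by
  unfold pvraW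
  simp only [mem_ofPred_eq]
  refine forall₂_congr fun e he => ?_
  refine pvra_holds_congr ?_
  rw [pvra_Wh_restr, pvra_Bk_restr]
  exact pvra_loc_set (fun z hz w hw => pvra_nbd hu (pvra_hash_sub hu he hz) hw) fun z hz => pvra_net hu h (pvra_hash_sub hu he hz)

theorem pvra_L_sub_W {u : ℝ} (hu : 0 < u) : pvraL u ⊆ pvraW u := by
  rintro η ⟨⟨h1, -⟩, h3⟩
  exact (pvra_W_loc hu ((pvra_G_loc hu η).1 h3)).1 h1

theorem pvra_sub_L {u : ℝ} (hu : 0 < u) : pvraW u ∩ {η | PvLF η} ∩ pvraG u ⊆ pvraL u := by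
  rintro η ⟨⟨h1, h2⟩, h3⟩
  exact ⟨⟨(pvra_W_loc hu h3).2 h1, pvra_LF_restr h2 _⟩, (pvra_G_loc hu η).2 h3⟩

theorem pvra_G_meas (u : ℝ) : MeasurableSet (pvraG u) := by
  have : pvraG u = ⋂ w ∈ {w | w ∈ pvraCen u}, pvmGood univ (u / 8) w u := by
    ext η; simp [pvraG]
  rw [this]
  exact MeasurableSet.biInter (List.finite_toSet _).countable fun w _ => pvm_good_meas _ _ _ _

/-- measurability of the event read on the restricted configuration -/
theorem pvra_core_meas {u : ℝ} (hm : ∀ e ∈ pvraHash u, MeasurableSet ({η : Conf PvPt | e.Holds (pvrbM (cfWh η) (cfBk η))} ∩ {η | PvLF η})) :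
    MeasurableSet (pvraW u ∩ {η | PvLF η} ∩ pvraG u) := by
  refine MeasurableSet.inter ?_ (pvra_G_meas u)
  have : pvraW u ∩ {η | PvLF η} = (⋂ e ∈ {e | e ∈ pvraHash u}, ({η : Conf PvPt | e.Holds (pvrbM (cfWh η) (cfBk η))} ∩ {η | PvLF η})) ∩ {η | PvLF η} := by
    ext η
    simp only [pvraW, mem_inter_iff, mem_ofPred_eq, mem_iInter]
    exact ⟨fun h => ⟨fun e he => ⟨h.1 e he, h.2⟩, h.2⟩, fun h => ⟨fun e he => (h.1 e he).1, h.2⟩⟩
  rw [this]
  exact (MeasurableSet.biInter (List.finite_toSet _).countable hm).inter pvcn_LF_meas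

/-- the bad mesh event -/
theorem pvra_G_prob {ε u : ℝ} (hu : 0 < u) {μ : Measure (Conf PvPt)} (h : IsPpp (pvInt ε) μ) :
    μ (pvraG u)ᶜ ≤ ENNReal.ofReal (8 * (37 ^ 2 * Real.exp (-((u / 8) ^ 2 / (8 * ε ^ 2))))) := by
  have hsub : (pvraG u)ᶜ ⊆ ⋃ w ∈ (pvraCen u).toFinset, (pvmGood univ (u / 8) w u)ᶜ := by
    intro η hη
    simp only [pvraG, mem_compl_iff, mem_ofPred_eq, not_forall] at hη
    obtain ⟨w, hw, hη⟩ := hη
    exact mem_biUnion (List.mem_toFinset.2 hw) hη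
  have hone : ∀ w : ℂ, μ (pvmGood univ (u / 8) w u)ᶜ ≤ ENNReal.ofReal (37 ^ 2 * Real.exp (-((u / 8) ^ 2 / (8 * ε ^ 2)))) := by
    intro w
    have := pvm_good_prob (ρ := u / 8) (L := u) (by positivity) hu.le h (c := univ) univ_nonempty w
    have e : 4 * u / (u / 8) + 5 = 37 := by field_simp; norm_num
    rwa [e] at this
  calc μ (pvraG u)ᶜ ≤ ∑ w ∈ (pvraCen u).toFinset, μ (pvmGood univ (u / 8) w u)ᶜ := (measure_mono hsub).trans (measure_biUnion_finset_le _ _)
    _ ≤ ∑ _w ∈ (pvraCen u).toFinset, ENNReal.ofReal (37 ^ 2 * Real.exp (-((u / 8) ^ 2 / (8 * ε ^ 2)))) := Finset.sum_le_sum fun w _ => hone w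
    _ = ((pvraCen u).toFinset.card : ℝ≥0∞) * ENNReal.ofReal (37 ^ 2 * Real.exp (-((u / 8) ^ 2 / (8 * ε ^ 2)))) := by
        rw [Finset.sum_const, nsmul_eq_mul]
    _ ≤ 8 * ENNReal.ofReal (37 ^ 2 * Real.exp (-((u / 8) ^ 2 / (8 * ε ^ 2)))) := by
        gcongr
        have : (pvraCen u).toFinset.card ≤ 8 := (List.toFinset_card_le _).trans (by simp [pvraCen])
        exact_mod_cast this
    _ = ENNReal.ofReal (8 * (37 ^ 2 * Real.exp (-((u / 8) ^ 2 / (8 * ε ^ 2))))) := by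
        rw [ENNReal.ofReal_mul (by norm_num)]
        simp

/-- the probability of the local event -/
theorem pvra_L_prob {ε u : ℝ} (hu : 0 < u) {μ : Measure (Conf PvPt)} (h : IsPpp (pvInt ε) μ) :
    μ (pvraW u) ≤ μ (pvraL u) + ENNReal.ofReal (8 * (37 ^ 2 * Real.exp (-((u / 8) ^ 2 / (8 * ε ^ 2))))) := by
  have e : μ = pvP ε := h.unique (pv_isPpp ε)
  have hLF : μ {η | PvLF η}ᶜ = 0 := by
    rw [e]; exact pvcn_LF_ae ε
  have hsub : pvraW u ⊆ pvraL u ∪ ((pvraG u)ᶜ ∪ {η | PvLF η}ᶜ) := by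
    intro η hη
    by_cases h1 : η ∈ pvraG u
    · by_cases h2 : PvLF η
      · exact Or.inl (pvra_sub_L hu ⟨⟨hη, h2⟩, h1⟩)
      · exact Or.inr (Or.inr h2)
    · exact Or.inr (Or.inl h1)
  calc μ (pvraW u) ≤ μ (pvraL u) + (μ (pvraG u)ᶜ + μ {η | PvLF η}ᶜ) :=
        (measure_mono hsub).trans ((measure_union_le _ _).trans (add_le_add le_rfl (measure_union_le _ _)))
    _ ≤ _ := by
        rw [hLF, add_zero]
        exact add_le_add le_rfl (pvra_G_prob hu h)

/-- **blocking**: on the local event, for a good configuration, there is no black arm across the scale -/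
theorem pvra_block {u t r : ℝ} (hu : 0 < u) (ht : t ≤ u / 2) (hr : 5 * u / 2 ≤ r) {η : Conf PvPt} (hη : η ∈ pvraL u)
    (hLF : VorLF (cfSites η)) (hGP : VorGP (cfSites η)) (hone : ∀ p ∈ η.pts, ∀ q ∈ η.pts, p.1 = q.1 → p = q) :
    ¬ (rswArm 0 0 t r).Holds (pvrbM (cfBk η) (cfWh η)) := by
  rintro ⟨a, ha, b, hb, hj⟩
  have hW := pvra_L_sub_W hu hη
  rw [pvra_sites] at hLF hGP
  have hdis : Disjoint (cfWh η) (cfBk η) := by
    rw [Set.disjoint_left]
    intro v h1 h2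
    have := hone _ h1 _ h2 rfl
    simp at this
  have hmem : ∀ e ∈ pvraHash u, e.Holds (pvrbM (cfWh η) (cfBk η)) := hW
  simp only [pvraHash, List.mem_cons, List.not_mem_nil, or_false, forall_eq_or_imp, forall_eq] at hmem
  obtain ⟨h1, h2, h3, h4⟩ := hmem
  obtain ⟨a1, a2, a3, a4⟩ := ha
  refine pvrb_hash hLF hGP hdis hu h1 h2 h3 h4 (a := a) (b := b) ⟨by linarith, by linarith, by linarith, by linarith⟩ ?_
    (hj.mono inter_subset_left)
  rintro ⟨b1, b2, b3, b4⟩
  rcases hb.2 with hb | hb | hb | hb <;> linarith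

/-! ## 5. many scales -/

theorem pvra_hash_nice (u : ℝ) : ∀ e ∈ pvraHash u, e.Nice := by
  intro e he
  simp only [pvraHash, List.mem_cons, List.not_mem_nil, or_false] at he
  rcases he with rfl | rfl | rfl | rfl
  · exact rsw_nice_LR _ _ _ _
  · exact rsw_nice_LR _ _ _ _
  · exact rsw_nice_TB _ _ _ _
  · exact rsw_nice_TB _ _ _ _

/-- **arm decay, quantitative form**: `k` scales `16^i u0` between `t` and `r` -/
theorem pvra_arm_le {ε : ℝ} {μ : Measure (Conf PvPt)} (h : IsPpp (pvInt ε) μ)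
    (hm : ∀ e : RswTri, e.Nice → MeasurableSet ({η : Conf PvPt | e.Holds (pvrbM (cfWh η) (cfBk η))} ∩ {η | PvLF η}))
    {k : ℕ} {u0 t r : ℝ} (hu0 : 0 < u0) (ht : t ≤ u0 / 2) (hr : 5 * (16 ^ k * u0) / 2 ≤ r) {q : ℝ≥0∞}
    (hq : ∀ i < k, q ≤ μ (pvraL (16 ^ i * u0))) :
    μ {η | (rswArm 0 0 t r).Holds (pvrbM (cfBk η) (cfWh η))} ≤ (1 - q) ^ k := by
  have e : μ = pvP ε := h.unique (pv_isPpp ε)
  have hpos : ∀ i : ℕ, 0 < (16 : ℝ) ^ i * u0 := fun i => by positivity
  have hnone := pvra_none h (Finset.range k) (fun i => pvraN (16 ^ i * u0) ×ˢ (univ : Set Bool))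
    (fun i _ => (pvra_N_meas _).prod MeasurableSet.univ)
    (by
      intro i _ j _ hij
      have key : ∀ a b : ℕ, a < b → Disjoint (pvraN (16 ^ a * u0) ×ˢ (univ : Set Bool)) (pvraN (16 ^ b * u0) ×ˢ (univ : Set Bool)) := by
        intro a b hab
        refine Set.Disjoint.set_prod_left (pvra_N_disj (hpos a) ?_) _ _
        have h1 : (16 : ℝ) ^ (a + 1) ≤ 16 ^ b := pow_le_pow_right₀ (by norm_num) hab
        calc 16 * (16 ^ a * u0) = 16 ^ (a + 1) * u0 := by ring
          _ ≤ 16 ^ b * u0 := mul_le_mul_of_nonneg_right h1 hu0.le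
      rcases lt_or_gt_of_ne hij with hlt | hlt
      · exact key i j hlt
      · exact (key j i hlt).symm)
    (fun i => pvraW (16 ^ i * u0) ∩ {η | PvLF η} ∩ pvraG (16 ^ i * u0))
    (fun i _ => pvra_core_meas fun e he => hm e (pvra_hash_nice _ e he))
    (q := q) (fun i hi => hq i (Finset.mem_range.1 hi))
  rw [Finset.card_range] at hnone
  refine le_trans (measure_mono_ae ?_) hnone
  have hae := delgp_ae_conf ε
  rw [← e] at hae
  filter_upwards [hae] with η hη harm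
  refine mem_iInter₂.2 fun i hi hL => ?_
  have hik : (16 : ℝ) ^ i ≤ 16 ^ k := pow_le_pow_right₀ (by norm_num) (Finset.mem_range.1 hi).le
  have h1i : (1 : ℝ) ≤ 16 ^ i := one_le_pow₀ (by norm_num)
  refine pvra_block (hpos i) (t := t) (r := r) ?_ ?_ hL hη.1 hη.2.1 hη.2.2 harm
  · nlinarith
  · nlinarith

/-- the error term of the mesh event is small at large scales -/
theorem pvra_err {ε : ℝ} (hε : 0 < ε) {c : ℝ} (hc : 0 < c) :
    ∃ U : ℝ, 1 ≤ U ∧ ∀ u : ℝ, U ≤ u → 8 * (37 ^ 2 * Real.exp (-((u / 8) ^ 2 / (8 * ε ^ 2)))) ≤ c := by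
  have h1 : Filter.Tendsto (fun u : ℝ => (u / 8) ^ 2 / (8 * ε ^ 2)) Filter.atTop Filter.atTop := by
    have a1 : Filter.Tendsto (fun u : ℝ => u / 8) Filter.atTop Filter.atTop := Filter.tendsto_id.atTop_div_const (by norm_num)
    have a2 : Filter.Tendsto (fun u : ℝ => (u / 8) ^ 2) Filter.atTop Filter.atTop := (Filter.tendsto_pow_atTop (by norm_num)).comp a1
    exact a2.atTop_div_const (by positivity)
  have h2 : Filter.Tendsto (fun u : ℝ => Real.exp (-((u / 8) ^ 2 / (8 * ε ^ 2)))) Filter.atTop (𝓝 0) :=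
    Real.tendsto_exp_atBot.comp (Filter.tendsto_neg_atTop_atBot.comp h1)
  have h3 : Filter.Tendsto (fun u : ℝ => 8 * (37 ^ 2 * Real.exp (-((u / 8) ^ 2 / (8 * ε ^ 2))))) Filter.atTop (𝓝 0) := by
    have := (h2.const_mul (37 ^ 2)).const_mul 8
    simpa using this
  obtain ⟨U, hU⟩ := Filter.eventually_atTop.1 ((tendsto_order.1 h3).2 c hc)
  exact ⟨max U 1, le_max_right _ _, fun u hu => (hU u ((le_max_left _ _).trans hu)).le⟩

/-- **`ad` (arm decay)**: if the four white crossings of the `#` have probability `≥ c'` at all scales between `4t` and `Ct`, the black arm from `t` to `Ct` has probability `< δ`. -/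
theorem pvra_ad {ε : ℝ} (hε : 0 < ε) {μ : Measure (Conf PvPt)} (h : IsPpp (pvInt ε) μ)
    (hm : ∀ e : RswTri, e.Nice → MeasurableSet ({η : Conf PvPt | e.Holds (pvrbM (cfWh η) (cfBk η))} ∩ {η | PvLF η}))
    {c' δ : ℝ} (hc' : 0 < c') (hδ : 0 < δ) :
    ∃ C : ℝ, 12 ≤ C ∧ ∀ t : ℝ, 1 ≤ t → (∀ u, 4 * t ≤ u → u ≤ C * t → c' ≤ (μ (pvraW u)).toReal) →
      (μ {η | (rswArm 0 0 t (C * t)).Holds (pvrbM (cfBk η) (cfWh η))}).toReal < δ := by
  have := h.prob
  obtain ⟨U, hU1, hU⟩ := pvra_err hε (half_pos hc')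
  have hx0 : 0 ≤ max (1 - c' / 2) 0 := le_max_right _ _
  have hx1 : max (1 - c' / 2) 0 < 1 := max_lt (by linarith) one_pos
  obtain ⟨k, hk⟩ := exists_pow_lt_of_lt_one hδ hx1
  have hM : 4 ≤ max 4 U := le_max_left _ _
  have h16 : (1 : ℝ) ≤ 16 ^ k := one_le_pow₀ (by norm_num)
  refine ⟨16 ^ (k + 1) * max 4 U, ?_, fun t ht hyp => ?_⟩
  · rw [pow_succ]; nlinarith
  have hu0 : 0 < max (4 * t) U := lt_of_lt_of_le (by linarith) (le_max_left _ _)
  have hu0le : max (4 * t) U ≤ max 4 U * t := by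
    refine max_le ?_ ?_
    · exact mul_le_mul_of_nonneg_right hM (by linarith)
    · calc U ≤ max 4 U := le_max_right _ _
        _ ≤ max 4 U * t := le_mul_of_one_le_right (by linarith) ht
  have hq : ∀ i < k, ENNReal.ofReal (c' / 2) ≤ μ (pvraL (16 ^ i * max (4 * t) U)) := by
    intro i hi
    have hik : (16 : ℝ) ^ i ≤ 16 ^ k := pow_le_pow_right₀ (by norm_num) hi.le
    have h1i : (1 : ℝ) ≤ 16 ^ i := one_le_pow₀ (by norm_num)
    have hui : max (4 * t) U ≤ 16 ^ i * max (4 * t) U := le_mul_of_one_le_left hu0.le h1i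
    have hpos : 0 < (16 : ℝ) ^ i * max (4 * t) U := by positivity
    have hW := hyp (16 ^ i * max (4 * t) U) ((le_max_left _ _).trans hui) (by
      calc 16 ^ i * max (4 * t) U ≤ 16 ^ k * (max 4 U * t) := mul_le_mul hik hu0le hu0.le (by positivity)
        _ ≤ 16 ^ (k + 1) * max 4 U * t := by
            rw [pow_succ]
            have : 0 ≤ 16 ^ k * (max 4 U * t) := by positivity
            nlinarith)
    have hW' : ENNReal.ofReal c' ≤ μ (pvraW (16 ^ i * max (4 * t) U)) := (ENNReal.ofReal_le_iff_le_toReal (measure_ne_top _ _)).2 hW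
    have hL := pvra_L_prob hpos h
    have herr := ENNReal.ofReal_le_ofReal (hU _ ((le_max_right _ _).trans hui))
    have hsplit : ENNReal.ofReal c' = ENNReal.ofReal (c' / 2) + ENNReal.ofReal (c' / 2) := by
      rw [← ENNReal.ofReal_add (by positivity) (by positivity)]; congr 1; ring
    have hchain : ENNReal.ofReal (c' / 2) + ENNReal.ofReal (c' / 2) ≤ μ (pvraL (16 ^ i * max (4 * t) U)) + ENNReal.ofReal (c' / 2) := by
      rw [← hsplit]
      exact hW'.trans (hL.trans (add_le_add le_rfl herr))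
    exact (ENNReal.add_le_add_iff_right ENNReal.ofReal_ne_top).1 hchain
  have harm := pvra_arm_le h hm (k := k) (u0 := max (4 * t) U) (t := t) (r := 16 ^ (k + 1) * max 4 U * t) hu0
    (by have := le_max_left (4 * t) U; linarith)
    (by
      have h1 : 16 ^ k * max (4 * t) U ≤ 16 ^ k * (max 4 U * t) := mul_le_mul_of_nonneg_left hu0le (by positivity)
      have h2 : 0 ≤ 16 ^ k * (max 4 U * t) := by positivity
      rw [pow_succ]
      nlinarith) hq
  have hle : (1 - ENNReal.ofReal (c' / 2)) ^ k ≤ ENNReal.ofReal (max (1 - c' / 2) 0 ^ k) := by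
    rw [ENNReal.ofReal_pow hx0]
    refine pow_le_pow_left' ?_ k
    rw [← ENNReal.ofReal_one, ← ENNReal.ofReal_sub _ (by positivity)]
    exact ENNReal.ofReal_le_ofReal (le_max_left _ _)
  have hfin := harm.trans hle
  calc (μ {η | (rswArm 0 0 t (16 ^ (k + 1) * max 4 U * t)).Holds (pvrbM (cfBk η) (cfWh η))}).toReal
      ≤ (ENNReal.ofReal (max (1 - c' / 2) 0 ^ k)).toReal := ENNReal.toReal_mono ENNReal.ofReal_ne_top hfin
    _ = max (1 - c' / 2) 0 ^ k := ENNReal.toReal_ofReal (pow_nonneg hx0 k)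
    _ < δ := hk

end Claimed.Agent.R289
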