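import Claimed.Agent.R289.Rsw.Ver
import Claimed.Agent.R289.Rsw.VerAd

/-!
# Row 289 (S0537), box RSW part II, file Rsw/VerArm : LOCAL WHITE `#` EVENTS, ARM DECAY, THE MODEL, EXPORTS      (head helper262; design helper259, notes/R289/rsw_259.md sec. 6; prefix `pvr`)

* sec. G  **`pvr_ad`** (arm decay) = `pvra_ad` of helper54 (Rsw/VerAd.lean: IND + LOC + mesh + blocking) + white FKG (`pvr_fkg_listW`) + `pvr_hash_prob`
* sec. I  the one arm exponent uniformly in the mesh: `pvr_W_all`, `pvr_L_all`, `pvr_arm1_zero` (consumers: `Exit/Arm1.lean`)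
* sec. H  `pvr_model`, `pvr_rsw`, transfer to the frozen vocabulary `pv_rsw`.
RULES: prove IN PLACE, never change a statement (misfit = one line to 262), claim by Lean name in `claim289`.
-/

set_option autoImplicit false
set_option linter.unusedSectionVars false
set_option linter.constructorNameAsVariable false

namespace Claimed.Agent.R289

open MeasureTheory ProbabilityTheory Set Filter Topology Metric
open scoped ENNReal NNReal
open Claims.C0465

/-! ## G. arm decay -/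

/-- probabilities as real numbers (outer measure: defined for every set) -/
noncomputable def pvrP (ε : ℝ) (A : Set (Conf PvPt)) : ℝ := (pvP ε A).toReal

theorem pvr_defsF_eqns_cite : True := by
  have := @pvrP.eq_1
  trivial

theorem pvr_LR_tr (ε : ℝ) (x0 x1 y0 y1 a b : ℝ) : pvP ε (pvrEv (rswLR (x0 + a) (x1 + a) (y0 + b) (y1 + b))) = pvP ε (pvrEv (rswLR x0 x1 y0 y1)) := by
  have h := pvr_inv_tr ε ⟨a, b⟩ (rswLR x0 x1 y0 y1)
  rwa [rsw_map_tr_LR] at h

theorem pvr_TB_tr (ε : ℝ) (x0 x1 y0 y1 a b : ℝ) : pvP ε (pvrEv (rswTB (x0 + a) (x1 + a) (y0 + b) (y1 + b))) = pvP ε (pvrEv (rswTB x0 x1 y0 y1)) := by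
  have h := pvr_inv_tr ε ⟨a, b⟩ (rswTB x0 x1 y0 y1)
  rwa [rsw_map_tr_TB] at h

theorem pvr_TB_rot (ε : ℝ) (x0 x1 y0 y1 : ℝ) : pvP ε (pvrEv (rswTB (-y1) (-y0) x0 x1)) = pvP ε (pvrEv (rswLR x0 x1 y0 y1)) := by
  have h := pvr_inv_I ε (rswLR x0 x1 y0 y1)
  rwa [rsw_map_I_LR] at h

/-- the four rectangles of the `#` of helper54 are copies of `[0,6u] x [0,u]` -/
theorem pvr_hash_prob (ε u : ℝ) : ∀ e ∈ pvraHash u, pvP ε (pvrEvW e) = pvP ε (pvrEv (rswLR 0 (6 * u) 0 u)) := by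
  intro e he
  rw [pvr_flip_ev]
  simp only [pvraHash, List.mem_cons, List.not_mem_nil, or_false] at he
  rcases he with rfl | rfl | rfl | rfl
  · have h := pvr_LR_tr ε 0 (6 * u) 0 u (-(3 * u)) u
    rw [← h]
    congr 3 <;> ring
  · have h := pvr_LR_tr ε 0 (6 * u) 0 u (-(3 * u)) (-(2 * u))
    rw [← h]
    congr 3 <;> ring
  · have h := pvr_TB_tr ε (-u) (-0) 0 (6 * u) (-u) (-(3 * u))
    rw [pvr_TB_rot] at h
    rw [← h]
    congr 3 <;> ring
  · have h := pvr_TB_tr ε (-u) (-0) 0 (6 * u) (2 * u) (-(3 * u))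
    rw [pvr_TB_rot] at h
    rw [← h]
    congr 3 <;> ring

/-- four white crossings of the `#`: white FKG -/
theorem pvr_W_prob {c u : ℝ} (hc : 0 ≤ c) (h : ENNReal.ofReal c ≤ pvP 1 (pvrEv (rswLR 0 (6 * u) 0 u))) : c ^ 4 ≤ (pvP 1 (pvraW u)).toReal := by
  have h1 := pvr_fkg_listW 1 (pvraHash u) (pvra_hash_nice u)
  have h2 : (pvraHash u).map (fun e => pvP 1 (pvrEvW e)) = (pvraHash u).map (fun _ => pvP 1 (pvrEv (rswLR 0 (6 * u) 0 u))) :=
    List.map_congr_left fun e he => pvr_hash_prob 1 u e he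
  rw [h2] at h1
  have h3 : ((pvraHash u).map (fun _ => pvP 1 (pvrEv (rswLR 0 (6 * u) 0 u)))).prod = pvP 1 (pvrEv (rswLR 0 (6 * u) 0 u)) ^ 4 := by
    simp only [pvraHash, List.map_cons, List.map_nil, List.prod_cons, List.prod_nil]
    ring
  rw [h3] at h1
  have h4 : ENNReal.ofReal (c ^ 4) ≤ pvP 1 (pvraW u) := by
    rw [ENNReal.ofReal_pow hc]
    exact (pow_le_pow_left' h 4).trans h1
  exact (ENNReal.ofReal_le_iff_le_toReal (measure_ne_top _ _)).1 h4

/-- **ARM DECAY** (`pvra_ad` of helper54) -/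
theorem pvr_ad (c : ℝ) (hc : 0 < c) :
    ∃ C : ℝ, 12 ≤ C ∧ ∀ t : ℝ, 1 ≤ t → (∀ u, 4 * t ≤ u → u ≤ C * t → ENNReal.ofReal c ≤ pvP 1 (pvrEv (rswLR 0 (6 * u) 0 u))) →
      pvP 1 (pvrEv (rswArm 0 0 t (C * t))) < 8⁻¹ := by
  obtain ⟨C, hC, h⟩ := pvra_ad (ε := 1) one_pos (pv_isPpp 1) (fun e he => pvr_evW_meas he) (c' := c ^ 4) (δ := 8⁻¹) (by positivity) (by norm_num)
  refine ⟨C, hC, fun t ht hu => ?_⟩
  have h1 := h t ht fun u h1 h2 => pvr_W_prob hc.le (hu u h1 h2)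
  have h2 : pvP 1 (pvrEv (rswArm 0 0 t (C * t))) < ENNReal.ofReal 8⁻¹ := (ENNReal.lt_ofReal_iff_toReal_lt (measure_ne_top _ _)).2 h1
  have h3 : ENNReal.ofReal 8⁻¹ = 8⁻¹ := by
    rw [ENNReal.ofReal_inv_of_pos (by norm_num)]
    norm_num
  rwa [h3] at h2

/-! ## H. the model, exports -/

theorem pvr_P_ev (ε : ℝ) (e : RswTri) : rswP (pvrP ε) cfB e = (pvP ε (pvrEv e)).toReal := rfl

/-- PLAN: induction on the list, `ENNReal.toReal_mul`. -/
theorem pvr_toReal_list (l : List ℝ≥0∞) : (l.map ENNReal.toReal).prod = l.prod.toReal := by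
  induction l with
  | nil => simp
  | cons a l ih => simp only [List.map_cons, List.prod_cons, ENNReal.toReal_mul, ih]

/-- `c ≤ (μ A).toReal ↔ ofReal c ≤ μ A` for a probability measure -/
theorem pvr_le_toReal (ε : ℝ) (A : Set (Conf PvPt)) (c : ℝ) : ENNReal.ofReal c ≤ pvP ε A → c ≤ pvrP ε A := by
  intro h
  unfold pvrP
  exact (ENNReal.ofReal_le_iff_le_toReal (measure_ne_top _ _)).1 h

theorem pvr_ofReal_le (ε : ℝ) (A : Set (Conf PvPt)) (c : ℝ) : c ≤ pvrP ε A → ENNReal.ofReal c ≤ pvP ε A := by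
  intro h
  exact (ENNReal.ofReal_le_iff_le_toReal (measure_ne_top _ _)).2 h

/-- **THE MODEL**.   PLAN: field by field: `nonneg le_one mono sub`: `ENNReal.toReal_mono`, `measure_union_le`, `prob_le_one`;   `fkg`: `pvr_fkg_list`, `pvr_toReal_list`;   `inv_*`: `pvr_inv_tr/conj/nconj/I`;   `sq`: `pvr_sq 1`;   `fe`: `pvr_fe`;   `ad`: `pvr_ad`
(`rswF P Bk u 6 = rswP P Bk (rswLR 0 (6 * u) 0 u)`, `1/2/4 = 1/8`). -/
theorem pvr_model : RswModel (pvrP 1) cfB (1 / 2) where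
  c0_pos := by norm_num
  c0_le := by norm_num
  nonneg A := ENNReal.toReal_nonneg
  le_one A := by
    unfold pvrP
    have h : pvP 1 A ≤ 1 := prob_le_one
    have := ENNReal.toReal_mono ENNReal.one_ne_top h
    simpa using this
  mono A B h := ENNReal.toReal_mono (measure_ne_top _ _) (measure_mono h)
  sub A B := by
    unfold pvrP
    rw [← ENNReal.toReal_add (measure_ne_top _ _) (measure_ne_top _ _)]
    exact ENNReal.toReal_mono (ENNReal.add_ne_top.2 ⟨measure_ne_top _ _, measure_ne_top _ _⟩) (measure_union_le A B)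
  fkg l h := by
    have h1 := pvr_fkg_list 1 l h
    have h2 := ENNReal.toReal_mono (measure_ne_top _ _) h1
    rw [← pvr_toReal_list, List.map_map] at h2
    exact h2
  inv_tr w e _ := congrArg ENNReal.toReal (pvr_inv_tr 1 w e)
  inv_conj e _ := congrArg ENNReal.toReal (pvr_inv_conj 1 e)
  inv_nconj e _ := congrArg ENNReal.toReal (pvr_inv_nconj 1 e)
  inv_I e _ := congrArg ENNReal.toReal (pvr_inv_I 1 e)
  sq s hs := by
    have h := pvr_sq 1 one_ne_zero s hs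
    have h2 := ENNReal.toReal_mono (measure_ne_top _ _) h
    rw [ENNReal.toReal_inv] at h2
    rw [pvr_P_ev]
    simpa using h2
  fe M := by
    obtain ⟨c, hc, h⟩ := pvr_fe M
    exact ⟨c, hc, fun x0 x1 y0 y1 hx hy h1 h2 => pvr_le_toReal 1 _ c (h x0 x1 y0 y1 hx hy h1 h2)⟩
  ad c hc := by
    obtain ⟨C, hC, h⟩ := pvr_ad c hc
    refine ⟨C, hC, fun t ht hu => ?_⟩
    have h1 := h t ht (fun u h1 h2 => pvr_ofReal_le 1 _ c (hu u h1 h2))
    have h2 := (ENNReal.toReal_lt_toReal (measure_ne_top _ _) (by simp)).2 h1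
    rw [ENNReal.toReal_inv] at h2
    have e : (1 / 2 / 4 : ℝ) = (8 : ℝ)⁻¹ := by norm_num
    rw [e, pvr_P_ev]
    simpa using h2

/-- PLAN: set extensionality: `z = c • z'`, `z'.re = z.re / c`. -/
theorem pvr_map_smul_LR {c : ℝ} (hc : 0 < c) (x0 x1 y0 y1 : ℝ) : (rswLR x0 x1 y0 y1).map (fun z => c • z) = rswLR (c * x0) (c * x1) (c * y0) (c * y1) := by
  have e : ∀ a b d f : ℝ, (fun z : ℂ => c • z) '' rswRect a b d f = rswRect (c * a) (c * b) (c * d) (c * f) := by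
    intro a b d f
    ext z
    simp only [mem_image, rsw_mem_rect]
    constructor
    · rintro ⟨w, ⟨h1, h2, h3, h4⟩, rfl⟩
      simp only [Complex.smul_re, Complex.smul_im, smul_eq_mul]
      exact ⟨mul_le_mul_of_nonneg_left h1 hc.le, mul_le_mul_of_nonneg_left h2 hc.le, mul_le_mul_of_nonneg_left h3 hc.le, mul_le_mul_of_nonneg_left h4 hc.le⟩
    · rintro ⟨h1, h2, h3, h4⟩
      refine ⟨c⁻¹ • z, ?_, by rw [smul_smul, mul_inv_cancel₀ hc.ne', one_smul]⟩
      simp only [Complex.smul_re, Complex.smul_im, smul_eq_mul]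
      have hi : 0 < c⁻¹ := inv_pos.2 hc
      refine ⟨?_, ?_, ?_, ?_⟩
      · rw [← div_eq_inv_mul, le_div_iff₀ hc]; linarith
      · rw [← div_eq_inv_mul, div_le_iff₀ hc]; linarith
      · rw [← div_eq_inv_mul, le_div_iff₀ hc]; linarith
      · rw [← div_eq_inv_mul, div_le_iff₀ hc]; linarith
  simp only [RswTri.map, rswLR, e]

/-- **RSW for Poisson-Voronoi percolation**, all meshes, all scales, all positions.   PLAN: `rsw_main pvr_model ρ hρ` at the scale `s / ε`; `pvr_scale` with `c = ε`, mesh `1` (`ε * 1 = ε`), `pvr_map_smul_LR`; `pvr_inv_tr`. -/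
theorem pvr_rsw (ρ : ℝ) (hρ : 0 < ρ) :
    ∃ c > 0, ∀ ε : ℝ, 0 < ε → ∀ s : ℝ, 0 < s → ∀ w : ℂ, ENNReal.ofReal c ≤ pvP ε (pvrEv ((rswLR 0 (ρ * s) 0 s).map fun z => z + w)) := by
  obtain ⟨c, hc, h⟩ := rsw_main pvr_model ρ hρ
  refine ⟨c, hc, fun ε hε s hs w => ?_⟩
  rw [pvr_inv_tr]
  have h1 := pvr_ofReal_le 1 _ c (h (s / ε) (by positivity))
  have h2 := pvr_scale hε 1 (rswLR 0 (ρ * (s / ε)) 0 (s / ε))
  rw [pvr_map_smul_LR hε, mul_one] at h2
  have e1 : ε * (ρ * (s / ε)) = ρ * s := by field_simp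
  have e2 : ε * (s / ε) = s := by field_simp
  rw [e1, e2, mul_zero] at h2
  rw [h2]
  exact h1

/-- the same for white crossings -/
theorem pvr_rswW (ρ : ℝ) (hρ : 0 < ρ) :
    ∃ c > 0, ∀ ε : ℝ, 0 < ε → ∀ s : ℝ, 0 < s → ∀ w : ℂ, ENNReal.ofReal c ≤ pvP ε (pvrEvW ((rswLR 0 (ρ * s) 0 s).map fun z => z + w)) := by
  obtain ⟨c, hc, h⟩ := pvr_rsw ρ hρ
  exact ⟨c, hc, fun ε hε s hs w => by rw [pvr_flip_ev]; exact h ε hε s hs w⟩

/-- **transfer to the frozen vocabulary**.   PLAN: `pvP ε = (pvLaw ε).map pvConf`, `Measure.map_apply₀` (`measurable_pvConf.aemeasurable`, `pvr_ev_null he ε`);   for a.e. `ω`: `PvLF (pvConf ω)` (`pvcn_pos_ae`, `pvcn_LF_conf`), so `pvBlack ω = cfBlack (pvConf ω) = cfB (pvConf ω)`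
(`pvBlack_eq`, `pvr_B_eq_black`): the two events are a.e. equal (`measure_congr`). -/
theorem pvr_transfer {e : RswTri} (he : e.Nice) (ε : ℝ) : pvLaw ε {ω | e.Holds (pvBlack ω)} = pvP ε (pvrEv e) := by
  unfold pvP
  rw [Measure.map_apply₀ measurable_pvConf.aemeasurable (pvr_ev_null he ε)]
  refine measure_congr ?_
  filter_upwards [pvcn_pos_ae ε] with ω hω
  have hLF := pvcn_LF_conf ω hω
  apply propext
  show e.Holds (pvBlack ω) ↔ e.Holds (cfB (pvConf ω))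
  rw [pvBlack_eq, pvr_B_eq_black hLF]

/-- **EXPORT**: RSW in the frozen vocabulary.   PLAN: `pvr_rsw`, `pvr_transfer` (`rsw_map_tr_LR` + `rsw_nice_LR`). -/
theorem pv_rsw (ρ : ℝ) (hρ : 0 < ρ) :
    ∃ c > 0, ∀ ε : ℝ, 0 < ε → ∀ s : ℝ, 0 < s → ∀ w : ℂ, ENNReal.ofReal c ≤ pvLaw ε {ω | ((rswLR 0 (ρ * s) 0 s).map fun z => z + w).Holds (pvBlack ω)} := by
  obtain ⟨c, hc, h⟩ := pvr_rsw ρ hρ
  refine ⟨c, hc, fun ε hε s hs w => ?_⟩
  rw [pvr_transfer (by rw [rsw_map_tr_LR]; exact rsw_nice_LR _ _ _ _)]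
  exact h ε hε s hs w

/-! ## I. the one arm exponent, uniformly in the mesh -/

/-- four white crossings of the `#`, every mesh: white FKG -/
theorem pvr_W_prob_eps {ε c u : ℝ} (hc : 0 ≤ c) (h : ENNReal.ofReal c ≤ pvP ε (pvrEv (rswLR 0 (6 * u) 0 u))) : ENNReal.ofReal (c ^ 4) ≤ pvP ε (pvraW u) := by
  have h1 := pvr_fkg_listW ε (pvraHash u) (pvra_hash_nice u)
  have h2 : (pvraHash u).map (fun e => pvP ε (pvrEvW e)) = (pvraHash u).map (fun _ => pvP ε (pvrEv (rswLR 0 (6 * u) 0 u))) :=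
    List.map_congr_left fun e he => pvr_hash_prob ε u e he
  rw [h2] at h1
  have h3 : ((pvraHash u).map (fun _ => pvP ε (pvrEv (rswLR 0 (6 * u) 0 u)))).prod = pvP ε (pvrEv (rswLR 0 (6 * u) 0 u)) ^ 4 := by
    simp only [pvraHash, List.map_cons, List.map_nil, List.prod_cons, List.prod_nil]
    ring
  rw [h3] at h1
  rw [ENNReal.ofReal_pow hc]
  exact (pow_le_pow_left' h 4).trans h1

/-- the white `#` has probability `≥ c` at every scale and every mesh -/
theorem pvr_W_all : ∃ c : ℝ, 0 < c ∧ ∀ ε u : ℝ, 0 < ε → 0 < u → ENNReal.ofReal c ≤ pvP ε (pvraW u) := by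
  obtain ⟨c, hc, h⟩ := pvr_rsw 6 (by norm_num)
  refine ⟨c ^ 4, by positivity, fun ε u hε hu => pvr_W_prob_eps hc.le ?_⟩
  have h1 := h ε hε u hu 0
  rwa [pvr_inv_tr] at h1

/-- the LOCAL white `#` event has probability `≥ c` at every scale `u ≥ U ε` -/
theorem pvr_L_all : ∃ c U : ℝ, 0 < c ∧ 1 ≤ U ∧ ∀ ε u : ℝ, 0 < ε → U * ε ≤ u → ENNReal.ofReal c ≤ pvP ε (pvraL u) := by
  obtain ⟨c, hc, h⟩ := pvr_W_all
  obtain ⟨U, hU1, hU⟩ := pvra_err (ε := 1) one_pos (half_pos hc)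
  refine ⟨c / 2, U, half_pos hc, hU1, fun ε u hε hu => ?_⟩
  have hu0 : 0 < u := lt_of_lt_of_le (by positivity) hu
  have hW := h ε u hε hu0
  have hL := pvra_L_prob hu0 (pv_isPpp ε)
  have he : 8 * (37 ^ 2 * Real.exp (-((u / 8) ^ 2 / (8 * ε ^ 2)))) ≤ c / 2 := by
    have h1 := hU (u / ε) (by rwa [le_div_iff₀ hε])
    have h2 : (u / ε / 8) ^ 2 / (8 * 1 ^ 2) = (u / 8) ^ 2 / (8 * ε ^ 2) := by
      field_simp
    rwa [h2] at h1
  have herr := ENNReal.ofReal_le_ofReal he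
  have hsplit : ENNReal.ofReal c = ENNReal.ofReal (c / 2) + ENNReal.ofReal (c / 2) := by
    rw [← ENNReal.ofReal_add (by positivity) (by positivity)]; congr 1; ring
  have hchain : ENNReal.ofReal (c / 2) + ENNReal.ofReal (c / 2) ≤ pvP ε (pvraL u) + ENNReal.ofReal (c / 2) := by
    rw [← hsplit]
    exact hW.trans (hL.trans (add_le_add le_rfl herr))
  exact (ENNReal.add_le_add_iff_right ENNReal.ofReal_ne_top).1 hchain

/-- arithmetic of the exponent: `x^k ≤ 16^a Y^{-a}` for `Y < 16^(k+1)`, `a = -log x / log 16` -/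
theorem pvr_pow_le {x Y : ℝ} (hx0 : 0 < x) (hx1 : x < 1) (hY : 0 < Y) {k : ℕ} (hk : Y < 16 ^ (k + 1)) :
    x ^ k ≤ (16 : ℝ) ^ (-Real.log x / Real.log 16) * Y ^ (-(-Real.log x / Real.log 16)) := by
  set a : ℝ := -Real.log x / Real.log 16 with ha
  have hl16 : 0 < Real.log 16 := Real.log_pos (by norm_num)
  have ha0 : 0 < a := div_pos (neg_pos.2 (Real.log_neg hx0 hx1)) hl16
  have hxa : x = (16 : ℝ) ^ (-a) := by
    rw [Real.rpow_def_of_pos (by norm_num), ha]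
    have : Real.log 16 * -(-Real.log x / Real.log 16) = Real.log x := by field_simp
    rw [this, Real.exp_log hx0]
  have h1 : x ^ k = (16 : ℝ) ^ a * ((16 : ℝ) ^ (k + 1)) ^ (-a) := by
    rw [← Real.rpow_natCast (16 : ℝ) (k + 1), ← Real.rpow_mul (by norm_num), ← Real.rpow_add (by norm_num)]
    conv_lhs => rw [hxa]
    rw [← Real.rpow_natCast, ← Real.rpow_mul (by norm_num)]
    congr 1
    push_cast
    ring
  rw [h1]
  refine mul_le_mul_of_nonneg_left ?_ (by positivity)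
  exact Real.rpow_le_rpow_of_nonpos hY hk.le (by linarith)

/-- **ONE ARM**, region form, centre `0`, black -/
theorem pvr_arm1_zero : ∃ C a : ℝ, 0 < C ∧ 0 < a ∧ ∀ ε s r : ℝ, 0 < ε → ε ≤ s → s ≤ r →
    pvP ε (pvrEv (rswArm 0 0 s r)) ≤ ENNReal.ofReal (C * (s / r) ^ a) := by
  obtain ⟨c0, U, hc0, hU, hL⟩ := pvr_L_all
  set c : ℝ := min c0 1 with hcdef
  have hc : 0 < c := lt_min hc0 one_pos
  have hc1 : c ≤ 1 := min_le_right _ _
  set x : ℝ := 1 - c / 2 with hx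
  have hx0 : 0 < x := by rw [hx]; linarith
  have hx1 : x < 1 := by rw [hx]; linarith
  set a : ℝ := -Real.log x / Real.log 16 with ha
  have hl16 : 0 < Real.log 16 := Real.log_pos (by norm_num)
  have ha0 : 0 < a := div_pos (neg_pos.2 (Real.log_neg hx0 hx1)) hl16
  set M : ℝ := max 2 U with hM
  have hM2 : 2 ≤ M := le_max_left _ _
  have hMU : U ≤ M := le_max_right _ _
  refine ⟨(16 : ℝ) ^ a * (5 * M / 2) ^ a, a, by positivity, ha0, fun ε s r hε hs hr => ?_⟩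
  have hs0 : 0 < s := lt_of_lt_of_le hε hs
  have hr0 : 0 < r := lt_of_lt_of_le hs0 hr
  set Y : ℝ := 2 * r / (5 * M * s) with hYdef
  have hY0 : 0 < Y := by positivity
  have hYa : Y ^ (-a) = (5 * M / 2) ^ a * (s / r) ^ a := by
    rw [← Real.mul_rpow (by positivity) (by positivity), Real.rpow_neg hY0.le, ← Real.inv_rpow hY0.le]
    congr 1
    rw [hYdef]
    field_simp
  rcases lt_or_ge Y 1 with hY1 | hY1
  · -- trivial bound
    have h1 : (1 : ℝ) ≤ (16 : ℝ) ^ a * (5 * M / 2) ^ a * (s / r) ^ a := by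
      rw [mul_assoc, ← hYa]
      have h2 : (1 : ℝ) ≤ (16 : ℝ) ^ a := Real.one_le_rpow (by norm_num) ha0.le
      have h3 : (1 : ℝ) ≤ Y ^ (-a) := Real.one_le_rpow_of_pos_of_le_one_of_nonpos hY0 hY1.le (by linarith)
      nlinarith
    calc pvP ε (pvrEv (rswArm 0 0 s r)) ≤ 1 := prob_le_one
      _ = ENNReal.ofReal 1 := ENNReal.ofReal_one.symm
      _ ≤ _ := ENNReal.ofReal_le_ofReal h1
  · obtain ⟨k, hk1, hk2⟩ := exists_nat_pow_near hY1 (by norm_num : (1 : ℝ) < 16)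
    have hu0 : 0 < M * s := by positivity
    have harm := pvra_arm_le (pv_isPpp ε) (fun e he => pvr_evW_meas he) (k := k) (u0 := M * s) (t := s) (r := r) hu0
      (by nlinarith) (by
        have h1 : 16 ^ k * (5 * M * s) ≤ 2 * r := by
          rw [hYdef, le_div_iff₀ (by positivity)] at hk1
          exact hk1
        linarith) (q := ENNReal.ofReal (c / 2)) (fun i _ => by
        have h1i : (1 : ℝ) ≤ 16 ^ i := one_le_pow₀ (by norm_num)
        have h2 : U * ε ≤ 16 ^ i * (M * s) := by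
          calc U * ε ≤ M * s := mul_le_mul hMU hs hε.le (by linarith)
            _ ≤ 16 ^ i * (M * s) := le_mul_of_one_le_left hu0.le h1i
        refine le_trans (ENNReal.ofReal_le_ofReal ?_) (hL ε _ hε h2)
        have : c ≤ c0 := min_le_left _ _
        linarith)
    have hle : (1 - ENNReal.ofReal (c / 2)) ^ k = ENNReal.ofReal (x ^ k) := by
      rw [ENNReal.ofReal_pow hx0.le, hx, ENNReal.ofReal_sub _ (by positivity), ENNReal.ofReal_one]
    refine le_trans harm ?_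
    rw [hle]
    refine ENNReal.ofReal_le_ofReal ?_
    have := pvr_pow_le hx0 hx1 hY0 hk2
    rw [← ha, hYa] at this
    linarith

end Claimed.Agent.R289
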