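import Claimed.Agent.R289.Rsw.Topo
import Claimed.Agent.R289.Vor.Basic

/-!
# Row 289 (S0537), box RSW part II, file Rsw/VerBlock : BLOCK = closed white crossings block black paths      (owner helper54, head helper262; design helper259 rsw_259.md sec. 6 BLOCK; prefix `pvrb`)

Everything is DETERMINISTIC: `Y` site set (locally finite, general position), `A ⊆ Y` the white sites, `B ⊆ Y` the black sites, `A`, `B` disjoint.
Closed white and closed black regions intersect (common edges), so a closed white crossing does not block black paths pointwise.  Fix: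
* `pvrbS A B` : the STRICT white region `{z | ∃ a ∈ A, ∀ b ∈ B, ‖z - a‖ < ‖z - b‖}`; it is disjoint from the black region in both forms (`pvrb_S_disj_un`, `pvrb_S_disj_mono`);
* `pvrb_bisect` : a common point of two cells can be moved by less than `δ` along the bisector to a point which is strictly closer to the two sites than to any other site (no 4 cocircular, no 3 collinear);
* `pvrb_strict` : a path in `vorUn Y A ∩ K` (`K` convex bounded) from `x` to `y` gives a path in `pvrbS A B ∩ K^{+δ}` from a point within `δ` of `x` to a point within `δ` of `y`;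
* `pvrb_hash` : four closed white crossings of the `#` pattern `[-3u,3u] x [u,2u]`, ... forbid every black path from `[-u/2,u/2]^2` to the complement of `(-3u,3u)^2`.
-/

set_option autoImplicit false

namespace Claimed.Agent.R289

open Set Metric Topology

/-- the strict white region -/
def pvrbS (A B : Set ℂ) : Set ℂ := {z | ∃ a ∈ A, ∀ b ∈ B, ‖z - a‖ < ‖z - b‖}

theorem pvrb_defs_eqns_cite : True := by
  have := @pvrbS.eq_1
  trivial

/-- strict half plane form -/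
theorem pvrb_half (z v u : ℂ) : ‖z - v‖ < ‖z - u‖ ↔
    2 * (z.re * (u.re - v.re) + z.im * (u.im - v.im)) < (u.re ^ 2 + u.im ^ 2) - (v.re ^ 2 + v.im ^ 2) := by
  have h := vor_half z u v
  rw [← not_le, h, not_le]
  constructor <;> intro h <;> nlinarith

/-- the strict white region does not meet the closed black cells -/
theorem pvrb_S_disj_un {Y A B : Set ℂ} (hA : A ⊆ Y) {z : ℂ} (hz : z ∈ pvrbS A B) : z ∉ vorUn Y B := by
  obtain ⟨a, ha, h⟩ := hz
  rintro ⟨b, hb, hzb⟩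
  exact absurd (hzb a (hA ha)) (not_le.2 (h b hb))

/-- the same for the monotone form of the black region -/
theorem pvrb_S_disj_mono {A B : Set ℂ} {z : ℂ} (hz : z ∈ pvrbS A B) : ¬ ∃ b ∈ B, ∀ a ∈ A, ‖z - b‖ ≤ ‖z - a‖ := by
  obtain ⟨a, ha, h⟩ := hz
  rintro ⟨b, hb, hzb⟩
  exact absurd (hzb a ha) (not_le.2 (h b hb))

/-- convexity of one strict constraint -/
theorem pvrb_conv {a b p q : ℂ} (hp : ‖p - a‖ < ‖p - b‖) (hq : ‖q - a‖ < ‖q - b‖) {s t : ℝ} (hs : 0 ≤ s) (ht : 0 ≤ t) (hst : s + t = 1) :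
    ‖(s • p + t • q) - a‖ < ‖(s • p + t • q) - b‖ := by
  rw [pvrb_half] at hp hq ⊢
  simp only [Complex.add_re, Complex.add_im, Complex.real_smul, Complex.mul_re, Complex.mul_im, Complex.ofReal_re, Complex.ofReal_im, zero_mul,
    sub_zero, add_zero]
  have e3 : (b.re ^ 2 + b.im ^ 2) - (a.re ^ 2 + a.im ^ 2) = s * ((b.re ^ 2 + b.im ^ 2) - (a.re ^ 2 + a.im ^ 2)) + t * ((b.re ^ 2 + b.im ^ 2) - (a.re ^ 2 + a.im ^ 2)) := by
    rw [← add_mul, hst, one_mul]
  rw [e3]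
  rcases hs.lt_or_eq with hs' | hs'
  · have e1 := mul_lt_mul_of_pos_left hp hs'
    have e2 := mul_le_mul_of_nonneg_left hq.le ht
    nlinarith
  · have ht1 : t = 1 := by linarith
    subst hs'
    subst ht1
    nlinarith

/-- mixed convexity: weak at `p`, strict at `q`, positive weight on `q` -/
theorem pvrb_conv' {a b p q : ℂ} (hp : ‖p - a‖ ≤ ‖p - b‖) (hq : ‖q - a‖ < ‖q - b‖) {s t : ℝ} (hs : 0 ≤ s) (ht : 0 < t) (hst : s + t = 1) :
    ‖(s • p + t • q) - a‖ < ‖(s • p + t • q) - b‖ := by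
  rw [vor_half] at hp
  rw [pvrb_half] at hq ⊢
  simp only [Complex.add_re, Complex.add_im, Complex.real_smul, Complex.mul_re, Complex.mul_im, Complex.ofReal_re, Complex.ofReal_im, zero_mul,
    sub_zero, add_zero]
  have e3 : (b.re ^ 2 + b.im ^ 2) - (a.re ^ 2 + a.im ^ 2) = s * ((b.re ^ 2 + b.im ^ 2) - (a.re ^ 2 + a.im ^ 2)) + t * ((b.re ^ 2 + b.im ^ 2) - (a.re ^ 2 + a.im ^ 2)) := by
    rw [← add_mul, hst, one_mul]
  rw [e3]
  have e1 := mul_le_mul_of_nonneg_left hp hs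
  have e2 := mul_lt_mul_of_pos_left hq ht
  nlinarith

/-- the closed neighbourhood of a convex set is convex -/
theorem pvrb_nbd_convex {K : Set ℂ} (hK : Convex ℝ K) (δ : ℝ) : Convex ℝ (vorNbd K δ) := by
  intro x hx y hy s t hs ht hst
  obtain ⟨x0, hx0, hxd⟩ := hx
  obtain ⟨y0, hy0, hyd⟩ := hy
  refine ⟨s • x0 + t • y0, hK hx0 hy0 hs ht hst, ?_⟩
  have e : s • x + t • y - (s • x0 + t • y0) = s • (x - x0) + t • (y - y0) := by
    rw [smul_sub, smul_sub]; ring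
  rw [e]
  calc ‖s • (x - x0) + t • (y - y0)‖ ≤ ‖s • (x - x0)‖ + ‖t • (y - y0)‖ := norm_add_le _ _
    _ = s * ‖x - x0‖ + t * ‖y - y0‖ := by rw [norm_smul, norm_smul, Real.norm_of_nonneg hs, Real.norm_of_nonneg ht]
    _ ≤ s * δ + t * δ := add_le_add (mul_le_mul_of_nonneg_left hxd hs) (mul_le_mul_of_nonneg_left hyd ht)
    _ = δ := by rw [← add_mul, hst, one_mul]

/-- two points which are strictly white for the SAME site are joined by their segment -/
theorem pvrb_seg {A B K' : Set ℂ} (hK' : Convex ℝ K') {a p q : ℂ} (ha : a ∈ A) (hp : ∀ b ∈ B, ‖p - a‖ < ‖p - b‖) (hq : ∀ b ∈ B, ‖q - a‖ < ‖q - b‖)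
    (hpK : p ∈ K') (hqK : q ∈ K') : JoinedIn (pvrbS A B ∩ K') p q := by
  have hc : Convex ℝ ({z | ∀ b ∈ B, ‖z - a‖ < ‖z - b‖} ∩ K') := by
    refine Convex.inter ?_ hK'
    intro x hx y hy s t hs ht hst b hb
    exact pvrb_conv (hx b hb) (hy b hb) hs ht hst
  have hj : JoinedIn ({z | ∀ b ∈ B, ‖z - a‖ < ‖z - b‖} ∩ K') p q :=
    hc.isPathConnected ⟨p, hp, hpK⟩ |>.joinedIn p ⟨hp, hpK⟩ q ⟨hq, hqK⟩
  exact hj.mono fun z hz => ⟨⟨a, ha, hz.1⟩, hz.2⟩

/-- equality form of one constraint -/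
theorem pvrb_half_eq (z v u : ℂ) : ‖z - v‖ = ‖z - u‖ ↔
    2 * (z.re * (u.re - v.re) + z.im * (u.im - v.im)) = (u.re ^ 2 + u.im ^ 2) - (v.re ^ 2 + v.im ^ 2) := by
  have h1 := vor_half z v u
  have h2 := vor_half z u v
  constructor
  · intro h
    have a1 := h1.1 h.le
    have a2 := h2.1 h.ge
    nlinarith
  · intro h
    exact le_antisymm (h1.2 h.le) (h2.2 (by nlinarith))

/-- a locally finite set has a gap behind every sphere -/
theorem pvrb_gap {Y : Set ℂ} (hLF : VorLF Y) (z : ℂ) (r : ℝ) : ∃ ρ > 0, ∀ u ∈ Y, r < ‖z - u‖ → r + ρ ≤ ‖z - u‖ := by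
  have hF : ({u | u ∈ Y ∩ closedBall z (r + 1) ∧ r < ‖z - u‖} : Set ℂ).Finite := (hLF.finite_ball z (r + 1)).subset fun u hu => hu.1
  rcases Set.eq_empty_or_nonempty ({u | u ∈ Y ∩ closedBall z (r + 1) ∧ r < ‖z - u‖} : Set ℂ) with he | hne
  · refine ⟨1, one_pos, fun u hu hr => ?_⟩
    by_contra hlt
    have : u ∈ ({u | u ∈ Y ∩ closedBall z (r + 1) ∧ r < ‖z - u‖} : Set ℂ) := by
      refine ⟨⟨hu, ?_⟩, hr⟩
      rw [mem_closedBall, dist_comm, dist_eq_norm]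
      exact (not_le.1 hlt).le
    rw [he] at this
    exact this
  · obtain ⟨u0, hu0, hmin⟩ := Set.exists_min_image _ (fun u => ‖z - u‖) hF hne
    refine ⟨min 1 (‖z - u0‖ - r), lt_min one_pos (sub_pos.2 hu0.2), fun u hu hr => ?_⟩
    by_cases hb : ‖z - u‖ ≤ r + 1
    · have hm := hmin u ⟨⟨hu, by rw [mem_closedBall, dist_comm, dist_eq_norm]; exact hb⟩, hr⟩
      have := min_le_right 1 (‖z - u0‖ - r)
      linarith
    · have := min_le_left 1 (‖z - u0‖ - r)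
      linarith [not_le.1 hb]

/-- moving along the bisector of `v`, `w` -/
theorem pvrb_move (z v w : ℂ) (s : ℝ) :
    ‖(z + s • (Complex.I * (v - w))) - z‖ = |s| * ‖v - w‖ ∧
    (‖z - v‖ = ‖z - w‖ → ‖(z + s • (Complex.I * (v - w))) - v‖ = ‖(z + s • (Complex.I * (v - w))) - w‖) ∧
    (∀ x : ℂ, ‖z - v‖ = ‖z - x‖ → 0 < s * vorDet v w x → ‖(z + s • (Complex.I * (v - w))) - v‖ < ‖(z + s • (Complex.I * (v - w))) - x‖) := by
  refine ⟨?_, ?_, ?_⟩
  · rw [add_sub_cancel_left, norm_smul, norm_mul, Complex.norm_I, one_mul, Real.norm_eq_abs]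
  · intro h
    rw [pvrb_half_eq] at h ⊢
    simp only [Complex.add_re, Complex.add_im, Complex.real_smul, Complex.mul_re, Complex.mul_im, Complex.ofReal_re, Complex.ofReal_im, zero_mul,
      sub_zero, add_zero, Complex.I_re, Complex.I_im, Complex.sub_re, Complex.sub_im, one_mul, zero_sub, zero_add]
    nlinarith
  · intro x h hs
    rw [pvrb_half_eq] at h
    rw [pvrb_half]
    unfold vorDet at hs
    simp only [Complex.add_re, Complex.add_im, Complex.real_smul, Complex.mul_re, Complex.mul_im, Complex.ofReal_re, Complex.ofReal_im, zero_mul,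
      sub_zero, add_zero, Complex.I_re, Complex.I_im, Complex.sub_re, Complex.sub_im, one_mul, zero_sub, zero_add]
    nlinarith

/-- **perturbation**: a common point of the cells of `v ≠ w` can be moved by at most `δ` to a point of the bisector which is strictly closer to `v`, `w` than to any other site. -/
theorem pvrb_bisect {Y : Set ℂ} (hLF : VorLF Y) (hGP : VorGP Y) {v w z : ℂ} (hv : v ∈ Y) (hw : w ∈ Y) (hvw : v ≠ w)
    (hzv : z ∈ vorCell Y v) (hzw : z ∈ vorCell Y w) {δ : ℝ} (hδ : 0 < δ) :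
    ∃ z', ‖z' - z‖ ≤ δ ∧ ‖z' - v‖ = ‖z' - w‖ ∧ ∀ u ∈ Y, u ≠ v → u ≠ w → ‖z' - v‖ < ‖z' - u‖ := by
  have hr : ‖z - v‖ = ‖z - w‖ := le_antisymm (hzv w hw) (hzw v hv)
  obtain ⟨ρ, hρ, hgap⟩ := pvrb_gap hLF z ‖z - v‖
  have hd : 0 < ‖v - w‖ := norm_pos_iff.2 (sub_ne_zero.2 hvw)
  -- the size of the move
  obtain ⟨s0, hs0, hs0d⟩ : ∃ s0 : ℝ, 0 < s0 ∧ s0 * ‖v - w‖ = min δ (ρ / 3) :=
    ⟨min δ (ρ / 3) / ‖v - w‖, div_pos (lt_min hδ (by positivity)) hd, div_mul_cancel₀ _ hd.ne'⟩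
  -- far sites stay far, for every move of that size
  have hfar : ∀ s : ℝ, |s| = s0 → ∀ u ∈ Y, ‖z - v‖ < ‖z - u‖ →
      ‖(z + s • (Complex.I * (v - w))) - v‖ < ‖(z + s • (Complex.I * (v - w))) - u‖ := by
    intro s hs u hu hlt
    have h1 := (pvrb_move z v w s).1
    rw [hs, hs0d] at h1
    have h2 := hgap u hu hlt
    have h3 : ‖(z + s • (Complex.I * (v - w))) - v‖ ≤ ‖(z + s • (Complex.I * (v - w))) - z‖ + ‖z - v‖ := by
      have := norm_add_le ((z + s • (Complex.I * (v - w))) - z) (z - v)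
      rwa [sub_add_sub_cancel] at this
    have h4 : ‖z - u‖ ≤ ‖(z + s • (Complex.I * (v - w))) - z‖ + ‖(z + s • (Complex.I * (v - w))) - u‖ := by
      have := norm_add_le (z - (z + s • (Complex.I * (v - w)))) ((z + s • (Complex.I * (v - w))) - u)
      rwa [sub_add_sub_cancel, norm_sub_rev z (z + s • (Complex.I * (v - w)))] at this
    have h5 := min_le_right δ (ρ / 3)
    linarith
  by_cases hx : ∃ x ∈ Y, x ≠ v ∧ x ≠ w ∧ ‖z - v‖ = ‖z - x‖
  · obtain ⟨x, hxY, hxv, hxw, hxr⟩ := hx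
    have hdet : vorDet v w x ≠ 0 := hGP.col v hv w hw x hxY hvw hxv.symm hxw.symm
    obtain ⟨s, hsabs, hspos⟩ : ∃ s : ℝ, |s| = s0 ∧ 0 < s * vorDet v w x := by
      rcases lt_or_gt_of_ne hdet with hneg | hpos
      · exact ⟨-s0, by rw [abs_neg, abs_of_pos hs0], by nlinarith⟩
      · exact ⟨s0, abs_of_pos hs0, by positivity⟩
    obtain ⟨m1, m2, m3⟩ := pvrb_move z v w s
    refine ⟨z + s • (Complex.I * (v - w)), ?_, m2 hr, fun u hu huv huw => ?_⟩
    · rw [m1, hsabs, hs0d]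
      exact min_le_left _ _
    · by_cases hux : u = x
      · subst hux
        exact m3 u hxr hspos
      · refine hfar s hsabs u hu (lt_of_le_of_ne (hzv u hu) fun he => ?_)
        exact hGP.cir v hv w hw x hxY u hu hvw hxv.symm huv.symm hxw.symm huw.symm (Ne.symm hux) z ⟨hr, hxr, he⟩
  · refine ⟨z, by rw [sub_self, norm_zero]; exact hδ.le, hr, fun u hu huv huw => ?_⟩
    exact lt_of_le_of_ne (hzv u hu) fun he => hx ⟨u, hu, huv, huw, he⟩

/-- a point of a cell can be moved by at most `δ` (towards the site) to a point strictly closer to the site than to any other site -/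
theorem pvrb_toward {Y : Set ℂ} {a x : ℂ} (hx : x ∈ vorCell Y a) {δ : ℝ} (hδ : 0 < δ) :
    ∃ x', ‖x' - x‖ ≤ δ ∧ ∀ b ∈ Y, b ≠ a → ‖x' - a‖ < ‖x' - b‖ := by
  have hpos : 0 < ‖a - x‖ + 1 := by positivity
  obtain ⟨t, ht0, ht1, htd⟩ : ∃ t : ℝ, 0 < t ∧ t ≤ 1 ∧ t * ‖a - x‖ ≤ δ := by
    refine ⟨min 1 (δ / (‖a - x‖ + 1)), lt_min one_pos (div_pos hδ hpos), min_le_left _ _, ?_⟩
    calc min 1 (δ / (‖a - x‖ + 1)) * ‖a - x‖ ≤ δ / (‖a - x‖ + 1) * ‖a - x‖ :=
          mul_le_mul_of_nonneg_right (min_le_right _ _) (norm_nonneg _)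
      _ ≤ δ / (‖a - x‖ + 1) * (‖a - x‖ + 1) := mul_le_mul_of_nonneg_left (by linarith) (div_pos hδ hpos).le
      _ = δ := div_mul_cancel₀ _ hpos.ne'
  refine ⟨(1 - t) • x + t • a, ?_, fun b hb hba => ?_⟩
  · have e : (1 - t) • x + t • a - x = t • (a - x) := by
      rw [sub_smul, one_smul, smul_sub]; ring
    rw [e, norm_smul, Real.norm_of_nonneg ht0.le]
    exact htd
  · refine pvrb_conv' (hx b hb) ?_ (by linarith) ht0 (by ring)
    rw [sub_self, norm_zero]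
    exact norm_pos_iff.2 (sub_ne_zero.2 hba.symm)

/-- **chains**: along a chain of white cells meeting inside `K`, strictly white points of the first and of the last cell are joined in the strict white region, within `δ` of `K`. -/
theorem pvrb_chain {Y A B K : Set ℂ} (hLF : VorLF Y) (hGP : VorGP Y) (hA : A ⊆ Y) (hB : B ⊆ Y) (hAB : Disjoint A B) (hK : Convex ℝ K)
    {δ : ℝ} (hδ : 0 < δ) {a a' : ℂ} (ha : a ∈ A)
    (h : Relation.ReflTransGen (fun v w => v ∈ A ∧ w ∈ A ∧ (vorCell Y v ∩ vorCell Y w ∩ K).Nonempty) a a') :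
    a' ∈ A ∧ ∀ p q : ℂ, (∀ b ∈ B, ‖p - a‖ < ‖p - b‖) → p ∈ vorNbd K δ → (∀ b ∈ B, ‖q - a'‖ < ‖q - b‖) → q ∈ vorNbd K δ →
      JoinedIn (pvrbS A B ∩ vorNbd K δ) p q := by
  have hKc := pvrb_nbd_convex hK δ
  induction h with
  | refl => exact ⟨ha, fun p q hp hpK hq hqK => pvrb_seg hKc ha hp hq hpK hqK⟩
  | @tail m a' _ hstep ih =>
    obtain ⟨hm, ha', z, ⟨hzm, hza⟩, hzK⟩ := hstep
    refine ⟨ha', fun p q hp hpK hq hqK => ?_⟩
    by_cases hma : m = a'
    · subst hma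
      exact ih.2 p q hp hpK hq hqK
    · obtain ⟨z', hz1, hz2, hz3⟩ := pvrb_bisect hLF hGP (hA hm) (hA ha') hma hzm hza hδ
      have hne : ∀ b ∈ B, ∀ c ∈ A, b ≠ c := fun b hb c hc hbc => Set.disjoint_left.1 hAB hc (hbc ▸ hb)
      have hzm' : ∀ b ∈ B, ‖z' - m‖ < ‖z' - b‖ := fun b hb => hz3 b (hB hb) (hne b hb m hm) (hne b hb a' ha')
      have hza' : ∀ b ∈ B, ‖z' - a'‖ < ‖z' - b‖ := fun b hb => hz2 ▸ hzm' b hb
      have hzK' : z' ∈ vorNbd K δ := ⟨z, hzK, hz1⟩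
      exact (ih.2 p z' hp hpK hzm' hzK').trans (pvrb_seg hKc ha' hza' hq hzK' hqK)

/-- **BLOCK, perturbation form** (`pv_strict` of rsw_259.md): a closed white path in a bounded convex window gives a strictly white path, up to `δ`. -/
theorem pvrb_strict {Y A B K : Set ℂ} (hLF : VorLF Y) (hGP : VorGP Y) (hA : A ⊆ Y) (hB : B ⊆ Y) (hAB : Disjoint A B) (hK : Convex ℝ K)
    (hKb : Bornology.IsBounded K) {x y : ℂ} (h : JoinedIn (vorUn Y A ∩ K) x y) {δ : ℝ} (hδ : 0 < δ) :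
    ∃ x' y', ‖x' - x‖ ≤ δ ∧ ‖y' - y‖ ≤ δ ∧ JoinedIn (pvrbS A B ∩ vorNbd K δ) x' y' := by
  have hfin : (A ∩ vorMeet Y K).Finite := (vor_finite_meet hLF hKb).subset inter_subset_right
  have : Finite ↥(A ∩ vorMeet Y K) := hfin.to_subtype
  have hU : vorUn Y A ∩ K = (⋃ i : ↥(A ∩ vorMeet Y K), vorCell Y i) ∩ K := by
    ext z
    constructor
    · rintro ⟨⟨v, hv, hz⟩, hzK⟩
      exact ⟨mem_iUnion.2 ⟨⟨v, hv, hA hv, z, hz, hzK⟩, hz⟩, hzK⟩
    · rintro ⟨hz, hzK⟩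
      obtain ⟨i, hi⟩ := mem_iUnion.1 hz
      exact ⟨⟨i, i.2.1, hi⟩, hzK⟩
  rw [hU] at h
  obtain ⟨i, j, hxi, hyj, hch⟩ := (rsw_chain_iff_path (C := fun i : ↥(A ∩ vorMeet Y K) => vorCell Y i) hK
    (fun i => ⟨vor_isClosed_cell Y i, vor_convex_cell Y i⟩)).1 h
  have hch' : Relation.ReflTransGen (fun v w => v ∈ A ∧ w ∈ A ∧ (vorCell Y v ∩ vorCell Y w ∩ K).Nonempty) (i : ℂ) (j : ℂ) :=
    Relation.ReflTransGen.lift (fun i : ↥(A ∩ vorMeet Y K) => (i : ℂ)) (fun a b hab => ⟨a.2.1, b.2.1, hab⟩) i j hch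
  obtain ⟨_, hjoin⟩ := pvrb_chain hLF hGP hA hB hAB hK hδ i.2.1 hch'
  have hne : ∀ b ∈ B, ∀ c ∈ A, b ≠ c := fun b hb c hc hbc => Set.disjoint_left.1 hAB hc (hbc ▸ hb)
  obtain ⟨x', hx1, hx2⟩ := pvrb_toward hxi.1 hδ
  obtain ⟨y', hy1, hy2⟩ := pvrb_toward hyj.1 hδ
  exact ⟨x', y', hx1, hy1, hjoin x' y' (fun b hb => hx2 b (hB hb) (hne b hb _ i.2.1)) ⟨x, hxi.2, hx1⟩
    (fun b hb => hy2 b (hB hb) (hne b hb _ j.2.1)) ⟨y, hyj.2, hy1⟩⟩

/-! ## the monotone form of the regions, `RswTri` form, the `#` pattern -/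

/-- the monotone form of the region of the colour `A` against the colour `B` (`cfW η = pvrbM (cfWh η) (cfBk η)`, `cfB η = pvrbM (cfBk η) (cfWh η)` by `rfl`) -/
def pvrbM (A B : Set ℂ) : Set ℂ := {z | ∃ a ∈ A, ∀ b ∈ B, ‖z - a‖ ≤ ‖z - b‖}

theorem pvrb_defs_eqns_cite2 : True := by
  have := @pvrbM.eq_1
  trivial

/-- for a locally finite site set the monotone form is the union of the closed cells -/
theorem pvrb_M_eq {A B : Set ℂ} (hLF : VorLF (A ∪ B)) : pvrbM A B = vorUn (A ∪ B) A := by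
  ext z
  constructor
  · rintro ⟨a, ha, h⟩
    obtain ⟨a', ha', hz⟩ := vor_cover (hLF.mono subset_union_left) ⟨a, ha⟩ z
    refine ⟨a', ha', fun u hu => ?_⟩
    rcases hu with hu | hu
    · exact hz u hu
    · exact (hz a ha).trans (h u hu)
  · rintro ⟨a, ha, h⟩
    exact ⟨a, ha, fun b hb => h b (Or.inr hb)⟩

theorem pvrb_S_sub (A B : Set ℂ) : pvrbS A B ⊆ (pvrbM B A)ᶜ := fun _ hz => pvrb_S_disj_mono hz

/-- **BLOCK, contract form on site sets** (no density hypothesis, any `δ > 0`) -/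
theorem pvrb_block_set {A B : Set ℂ} (hLF : VorLF (A ∪ B)) (hGP : VorGP (A ∪ B)) (hAB : Disjoint A B) {e : RswTri} (hK : Convex ℝ e.K)
    (hKb : Bornology.IsBounded e.K) {δ : ℝ} (hδ : 0 < δ) (h : e.Holds (pvrbM A B)) :
    ∃ x y, x ∈ vorNbd e.S δ ∧ y ∈ vorNbd e.T δ ∧ JoinedIn (pvrbS A B ∩ vorNbd e.K δ) x y := by
  obtain ⟨x, hx, y, hy, hj⟩ := h
  rw [pvrb_M_eq hLF] at hj
  obtain ⟨x', y', hx', hy', hj'⟩ := pvrb_strict hLF hGP subset_union_left subset_union_right hAB hK hKb hj hδ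
  exact ⟨x', y', ⟨x, hx, hx'⟩, ⟨y, hy, hy'⟩, hj'⟩

theorem pvrb_nbd_rect {x0 x1 y0 y1 δ : ℝ} {w : ℂ} (hw : w ∈ vorNbd (rswRect x0 x1 y0 y1) δ) :
    x0 - δ ≤ w.re ∧ w.re ≤ x1 + δ ∧ y0 - δ ≤ w.im ∧ w.im ≤ y1 + δ := by
  obtain ⟨z, hz, hwz⟩ := hw
  obtain ⟨h1, h2, h3, h4⟩ := hz
  have hr := (Complex.abs_re_le_norm (w - z)).trans hwz
  have hi := (Complex.abs_im_le_norm (w - z)).trans hwz
  rw [Complex.sub_re, abs_le] at hr
  rw [Complex.sub_im, abs_le] at hi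
  exact ⟨by linarith [hr.1], by linarith [hr.2], by linarith [hi.1], by linarith [hi.2]⟩

theorem pvrb_rect_bdd (x0 x1 y0 y1 : ℝ) : Bornology.IsBounded (rswRect x0 x1 y0 y1) := (rsw_rect_compact x0 x1 y0 y1).isBounded

/-- **the `#` pattern blocks**: four closed crossings of colour `A` of the rectangles `[-3u,3u] x [u,2u]`, `[-3u,3u] x [-2u,-u]`, `[-2u,-u] x [-3u,3u]`, `[u,2u] x [-3u,3u]` (centre `(cx,cy)`)
forbid every path of colour `B` from the box of radius `u/2` to the complement of the open box of radius `5u/2`. -/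
theorem pvrb_hash {A B : Set ℂ} (hLF : VorLF (A ∪ B)) (hGP : VorGP (A ∪ B)) (hAB : Disjoint A B) {cx cy u : ℝ} (hu : 0 < u)
    (h1 : (rswLR (cx - 3 * u) (cx + 3 * u) (cy + u) (cy + 2 * u)).Holds (pvrbM A B))
    (h2 : (rswLR (cx - 3 * u) (cx + 3 * u) (cy - 2 * u) (cy - u)).Holds (pvrbM A B))
    (h3 : (rswTB (cx - 2 * u) (cx - u) (cy - 3 * u) (cy + 3 * u)).Holds (pvrbM A B))
    (h4 : (rswTB (cx + u) (cx + 2 * u) (cy - 3 * u) (cy + 3 * u)).Holds (pvrbM A B))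
    {a b : ℂ} (ha : a ∈ rswRect (cx - u / 2) (cx + u / 2) (cy - u / 2) (cy + u / 2))
    (hb : ¬ (cx - 5 * u / 2 < b.re ∧ b.re < cx + 5 * u / 2 ∧ cy - 5 * u / 2 < b.im ∧ b.im < cy + 5 * u / 2)) :
    ¬ JoinedIn (pvrbM B A) a b := by
  intro hj
  have hδ : 0 < u / 4 := by positivity
  obtain ⟨a1, a2, a3, a4⟩ := ha
  obtain ⟨z, hz, hzb⟩ := rsw_first_exit (x0 := cx - 5 * u / 2) (x1 := cx + 5 * u / 2) (y0 := cy - 5 * u / 2) (y1 := cy + 5 * u / 2) hj
    ⟨by linarith, by linarith, by linarith, by linarith⟩ hb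
  -- a common point of a strictly `A` path and a `B` path is absurd
  have habs : ∀ {K' K'' : Set ℂ} {p q w : ℂ}, JoinedIn (pvrbS A B ∩ K') p w → JoinedIn (pvrbM B A ∩ K'') q w → False := by
    intro K' K'' p q w hp hq
    exact pvrb_S_sub A B hp.target_mem.1 hq.target_mem.1
  have hin : ∀ w ∈ pvrbM B A ∩ rswRect (cx - 5 * u / 2) (cx + 5 * u / 2) (cy - 5 * u / 2) (cy + 5 * u / 2),
      cx - 5 * u / 2 ≤ w.re ∧ w.re ≤ cx + 5 * u / 2 ∧ cy - 5 * u / 2 ≤ w.im ∧ w.im ≤ cy + 5 * u / 2 := fun w hw => hw.2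
  rcases hzb with hzb | hzb | hzb | hzb
  · -- exit on the left: the vertical crossing `h3`
    obtain ⟨x, y, hx, hy, hw⟩ := pvrb_block_set hLF hGP hAB (rsw_rect_convex _ _ _ _) (pvrb_rect_bdd _ _ _ _) hδ h3
    have hx' := pvrb_nbd_rect hx
    have hy' := pvrb_nbd_rect hy
    obtain ⟨w, hw1, hw2⟩ := rsw_meet hz.symm hw
      (fun w hw => by have := pvrb_nbd_rect hw.2; exact ⟨by linarith [this.1], by linarith [this.2.1]⟩)
      (fun w hw => by have := hin w hw; exact ⟨by linarith [this.2.2.1, hx'.2.2.2], by linarith [this.2.2.2, hy'.2.2.1]⟩)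
    exact habs hw2 hw1
  · -- exit on the right: `h4`
    obtain ⟨x, y, hx, hy, hw⟩ := pvrb_block_set hLF hGP hAB (rsw_rect_convex _ _ _ _) (pvrb_rect_bdd _ _ _ _) hδ h4
    have hx' := pvrb_nbd_rect hx
    have hy' := pvrb_nbd_rect hy
    obtain ⟨w, hw1, hw2⟩ := rsw_meet hz hw
      (fun w hw => by have := pvrb_nbd_rect hw.2; exact ⟨by linarith [this.1], by linarith [this.2.1]⟩)
      (fun w hw => by have := hin w hw; exact ⟨by linarith [this.2.2.1, hx'.2.2.2], by linarith [this.2.2.2, hy'.2.2.1]⟩)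
    exact habs hw2 hw1
  · -- exit at the bottom: `h2`
    obtain ⟨x, y, hx, hy, hw⟩ := pvrb_block_set hLF hGP hAB (rsw_rect_convex _ _ _ _) (pvrb_rect_bdd _ _ _ _) hδ h2
    have hx' := pvrb_nbd_rect hx
    have hy' := pvrb_nbd_rect hy
    obtain ⟨w, hw1, hw2⟩ := rsw_meet hw hz.symm
      (fun w hw => by have := hin w hw; exact ⟨by linarith [this.1, hx'.2.1], by linarith [this.2.1, hy'.1]⟩)
      (fun w hw => by have := pvrb_nbd_rect hw.2; exact ⟨by linarith [this.2.2.1], by linarith [this.2.2.2]⟩)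
    exact habs hw1 hw2
  · -- exit at the top: `h1`
    obtain ⟨x, y, hx, hy, hw⟩ := pvrb_block_set hLF hGP hAB (rsw_rect_convex _ _ _ _) (pvrb_rect_bdd _ _ _ _) hδ h1
    have hx' := pvrb_nbd_rect hx
    have hy' := pvrb_nbd_rect hy
    obtain ⟨w, hw1, hw2⟩ := rsw_meet hw hz
      (fun w hw => by have := hin w hw; exact ⟨by linarith [this.1, hx'.2.1], by linarith [this.2.1, hy'.1]⟩)
      (fun w hw => by have := pvrb_nbd_rect hw.2; exact ⟨by linarith [this.2.2.1], by linarith [this.2.2.2]⟩)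
    exact habs hw1 hw2

end Claimed.Agent.R289
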