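import Claimed.Agent.R289.Rsw.VerArm
import Claimed.Agent.R289.Defs.Top

/-!
# Row 289 (S0537), box RSW, file Rsw/Exports : EXPORTS OF RSW      (owner helper54; prefix `pvre`)

* `pvre_hash` : the four white crossings of the `#` at any scale, any mesh: probability `≥ c⁴`;
* `pvre_local` : the local event `pvraL u` has probability `≥ c⁴/2` as soon as `u ≥ U ε`;
* **`pvre_arm1`** : annealed one-arm decay `P_ε(black arm from the box of radius t to the boundary of the box of radius r) ≤ C (t/r)^a` for `ε ≤ t ≤ r`, all centres   (= (N4) of `Exit/Nice.lean`);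
  `pvre_arm1W` (white), `pv_arm1` (frozen vocabulary);
* `pvre_arm_of_path`, `pvre_vc_joined`, **`pvre_arm1_vc`** : the same for black VERTEX chains (`PvVC` of `Defs/Top.lean`), outer measure;
* **`pvre_circ`** : the four long crossings of the square annulus of radii `s`, `2s` (a circuit, `rsw_block`): probability `≥ c`, all meshes, scales, centres; `pvre_circW` (white).
-/

set_option autoImplicit false

namespace Claimed.Agent.R289

open MeasureTheory ProbabilityTheory Set Filter Topology Metric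
open scoped ENNReal NNReal
open Claims.C0465

/-- the four white crossings of the `#`, all scales, all meshes -/
theorem pvre_hash : ∃ c : ℝ, 0 < c ∧ ∀ ε : ℝ, 0 < ε → ∀ u : ℝ, 0 < u → ENNReal.ofReal (c ^ 4) ≤ pvP ε (pvraW u) := by
  obtain ⟨c, hc, h⟩ := pvr_rsw 6 (by norm_num)
  refine ⟨c, hc, fun ε hε u hu => ?_⟩
  have hl : ((pvraHash u).map fun e => pvP ε (pvrEvW e)).prod ≤ pvP ε (pvraW u) := pvr_fkg_listW ε (pvraHash u) (pvra_hash_nice u)
  have hp := pvr_hash_prob ε u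
  have hu' : ENNReal.ofReal c ≤ pvP ε (pvrEv (rswLR 0 (6 * u) 0 u)) := by
    have := h ε hε u hu 0
    rwa [pvr_inv_tr] at this
  have e1 : ((pvraHash u).map fun e => pvP ε (pvrEvW e)) = (pvraHash u).map fun _ => pvP ε (pvrEv (rswLR 0 (6 * u) 0 u)) :=
    List.map_congr_left fun e he => hp e he
  refine le_trans ?_ hl
  rw [e1, List.map_const', List.prod_replicate, ENNReal.ofReal_pow hc.le]
  have : (pvraHash u).length = 4 := rfl
  rw [this]
  exact pow_le_pow_left' hu' 4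

/-- the local event at the scales `u ≥ U ε` -/
theorem pvre_local : ∃ q U : ℝ, 0 < q ∧ q < 1 ∧ 1 ≤ U ∧ ∀ ε : ℝ, 0 < ε → ∀ u : ℝ, U * ε ≤ u → ENNReal.ofReal q ≤ pvP ε (pvraL u) := by
  obtain ⟨c, hc, h⟩ := pvre_hash
  have hc4 : 0 < c ^ 4 := by positivity
  obtain ⟨U, hU1, hU⟩ := pvra_err (ε := 1) one_pos (half_pos hc4)
  -- `c ^ 4 ≤ 1`
  have hle1 : c ^ 4 ≤ 1 := by
    have h1 := (h 1 one_pos 1 one_pos).trans prob_le_one
    exact ENNReal.ofReal_le_one.1 h1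
  refine ⟨c ^ 4 / 2, U, by positivity, by linarith, hU1, fun ε hε u hu => ?_⟩
  have hupos : 0 < u := lt_of_lt_of_le (by positivity) hu
  have hL := pvra_L_prob (ε := ε) hupos (pv_isPpp ε)
  have herr : 8 * (37 ^ 2 * Real.exp (-((u / 8) ^ 2 / (8 * ε ^ 2)))) ≤ c ^ 4 / 2 := by
    have h1 := hU (u / ε) ((le_div_iff₀ hε).2 hu)
    have e : (u / ε / 8) ^ 2 / (8 * 1 ^ 2) = (u / 8) ^ 2 / (8 * ε ^ 2) := by
      field_simp
    rwa [e] at h1
  have hsplit : ENNReal.ofReal (c ^ 4) = ENNReal.ofReal (c ^ 4 / 2) + ENNReal.ofReal (c ^ 4 / 2) := by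
    rw [← ENNReal.ofReal_add (by positivity) (by positivity)]; congr 1; ring
  have hchain : ENNReal.ofReal (c ^ 4 / 2) + ENNReal.ofReal (c ^ 4 / 2) ≤ pvP ε (pvraL u) + ENNReal.ofReal (c ^ 4 / 2) := by
    rw [← hsplit]
    exact (h ε hε u hupos).trans (hL.trans (add_le_add le_rfl (ENNReal.ofReal_le_ofReal herr)))
  exact (ENNReal.add_le_add_iff_right ENNReal.ofReal_ne_top).1 hchain

/-- numerics: `x^k ≤ ((5U)^a / x) (t/r)^a` when `r / (5 U t) < 16^(k+1)`, `x = 16^(-a)` -/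
theorem pvre_num {x a U t r : ℝ} (hx0 : 0 < x) (hxa : x = (16 : ℝ) ^ (-a)) (ha : 0 < a) (hU : 0 < U) (ht : 0 < t) (hr : 0 < r) {k : ℕ}
    (hk : r / (5 * U * t) < 16 ^ (k + 1)) : x ^ k ≤ (5 * U) ^ a / x * (t / r) ^ a := by
  have hM : 0 < r / (5 * U * t) := by positivity
  have h1 : x ^ (k + 1) = ((16 : ℝ) ^ (k + 1)) ^ (-a) := by
    rw [hxa, ← Real.rpow_natCast ((16 : ℝ) ^ (-a)), ← Real.rpow_mul (by norm_num), ← Real.rpow_natCast (16 : ℝ) (k + 1),
      ← Real.rpow_mul (by norm_num), mul_comm]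
  have h2 : ((16 : ℝ) ^ (k + 1)) ^ (-a) ≤ (r / (5 * U * t)) ^ (-a) :=
    Real.rpow_le_rpow_of_nonpos hM hk.le (by linarith)
  have h3 : (r / (5 * U * t)) ^ (-a) = (5 * U) ^ a * (t / r) ^ a := by
    rw [Real.rpow_neg hM.le, ← Real.inv_rpow hM.le, ← Real.mul_rpow (by positivity) (by positivity)]
    congr 1
    field_simp
  have h4 : x ^ k * x ≤ (5 * U) ^ a * (t / r) ^ a := by
    rw [← pow_succ, h1, ← h3]; exact h2
  rw [div_mul_eq_mul_div, le_div_iff₀ hx0]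
  exact h4

/-- **annealed one-arm decay**, centre `0` -/
theorem pvre_arm0 : ∃ C a : ℝ, 0 < C ∧ 0 < a ∧ ∀ ε : ℝ, 0 < ε → ∀ t r : ℝ, ε ≤ t → t ≤ r →
    pvP ε (pvrEv (rswArm 0 0 t r)) ≤ ENNReal.ofReal (C * (t / r) ^ a) := by
  obtain ⟨q, U, hq0, hq1, hU1, hloc⟩ := pvre_local
  have hx0 : 0 < 1 - q := by linarith
  have hx1 : 1 - q < 1 := by linarith
  have hlog16 : 0 < Real.log 16 := Real.log_pos (by norm_num)
  have hlogx : Real.log (1 - q) < 0 := Real.log_neg hx0 hx1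
  have ha : 0 < -Real.log (1 - q) / Real.log 16 := div_pos (by linarith) hlog16
  have hxa : 1 - q = (16 : ℝ) ^ (-(-Real.log (1 - q) / Real.log 16)) := by
    rw [Real.rpow_def_of_pos (by norm_num)]
    have : Real.log 16 * -(-Real.log (1 - q) / Real.log 16) = Real.log (1 - q) := by
      field_simp
    rw [this, Real.exp_log hx0]
  have hU0 : 0 < U := by linarith
  have hC : 0 < (5 * U) ^ (-Real.log (1 - q) / Real.log 16) / (1 - q) := by positivity
  refine ⟨_, _, hC, ha, fun ε hε t r hεt htr => ?_⟩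
  have ht : 0 < t := lt_of_lt_of_le hε hεt
  have hr : 0 < r := lt_of_lt_of_le ht htr
  by_cases hM : 1 ≤ r / (5 * U * t)
  · obtain ⟨k, hk1, hk2⟩ := exists_nat_pow_near hM (by norm_num : (1 : ℝ) < 16)
    have harm := pvra_arm_le (pv_isPpp ε) (fun e he => pvr_evW_meas he) (k := k) (u0 := 2 * U * t) (t := t) (r := r) (by positivity)
      (by nlinarith)
      (by
        rw [le_div_iff₀ (by positivity)] at hk1
        nlinarith)
      (q := ENNReal.ofReal q) (fun i _ => hloc ε hε _ (by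
        have h1i : (1 : ℝ) ≤ 16 ^ i := one_le_pow₀ (by norm_num)
        have h2 : U * ε ≤ 2 * U * t := by nlinarith
        have h3 : 2 * U * t ≤ 16 ^ i * (2 * U * t) := le_mul_of_one_le_left (by positivity) h1i
        linarith))
    refine harm.trans ?_
    rw [← ENNReal.ofReal_one, ← ENNReal.ofReal_sub _ hq0.le, ← ENNReal.ofReal_pow hx0.le]
    exact ENNReal.ofReal_le_ofReal (pvre_num hx0 hxa ha hU0 ht hr hk2)
  · refine prob_le_one.trans ?_
    rw [← ENNReal.ofReal_one]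
    refine ENNReal.ofReal_le_ofReal ?_
    have := pvre_num hx0 hxa ha hU0 ht hr (k := 0) (by
      rw [zero_add, pow_one]
      linarith [not_le.1 hM])
    simpa using this

/-- **annealed one-arm decay** (black), all centres -/
theorem pvre_arm1 : ∃ C a : ℝ, 0 < C ∧ 0 < a ∧ ∀ ε : ℝ, 0 < ε → ∀ t r : ℝ, ε ≤ t → t ≤ r → ∀ cx cy : ℝ,
    pvP ε (pvrEv (rswArm cx cy t r)) ≤ ENNReal.ofReal (C * (t / r) ^ a) := by
  obtain ⟨C, a, hC, ha, h⟩ := pvre_arm0
  refine ⟨C, a, hC, ha, fun ε hε t r h1 h2 cx cy => ?_⟩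
  have e : rswArm cx cy t r = (rswArm 0 0 t r).map fun z => z + (⟨cx, cy⟩ : ℂ) := by
    rw [rsw_map_tr_Arm]; simp
  rw [e, pvr_inv_tr]
  exact h ε hε t r h1 h2

/-- **annealed one-arm decay** (white) -/
theorem pvre_arm1W : ∃ C a : ℝ, 0 < C ∧ 0 < a ∧ ∀ ε : ℝ, 0 < ε → ∀ t r : ℝ, ε ≤ t → t ≤ r → ∀ cx cy : ℝ,
    pvP ε (pvrEvW (rswArm cx cy t r)) ≤ ENNReal.ofReal (C * (t / r) ^ a) := by
  obtain ⟨C, a, hC, ha, h⟩ := pvre_arm1
  exact ⟨C, a, hC, ha, fun ε hε t r h1 h2 cx cy => by rw [pvr_flip_ev]; exact h ε hε t r h1 h2 cx cy⟩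

/-- **EXPORT**: annealed one-arm decay in the frozen vocabulary -/
theorem pv_arm1 : ∃ C a : ℝ, 0 < C ∧ 0 < a ∧ ∀ ε : ℝ, 0 < ε → ∀ t r : ℝ, ε ≤ t → t ≤ r → ∀ cx cy : ℝ,
    pvLaw ε {ω | (rswArm cx cy t r).Holds (pvBlack ω)} ≤ ENNReal.ofReal (C * (t / r) ^ a) := by
  obtain ⟨C, a, hC, ha, h⟩ := pvre_arm1
  exact ⟨C, a, hC, ha, fun ε hε t r h1 h2 cx cy => by rw [pvr_transfer (rsw_nice_Arm _ _ _ _)]; exact h ε hε t r h1 h2 cx cy⟩

/-! ## circuits -/

/-- every left-right crossing event is a translate of the standard one -/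
theorem pvre_LR (ε x0 x1 y0 y1 : ℝ) : pvP ε (pvrEv (rswLR x0 x1 y0 y1)) = pvP ε (pvrEv (rswLR 0 (x1 - x0) 0 (y1 - y0))) := by
  have e : rswLR x0 x1 y0 y1 = (rswLR 0 (x1 - x0) 0 (y1 - y0)).map fun z => z + (⟨x0, y0⟩ : ℂ) := by
    rw [rsw_map_tr_LR]
    congr 1 <;> simp
  rw [e, pvr_inv_tr]

/-- every bottom-top crossing event is a rotated translate of the standard left-right one -/
theorem pvre_TB (ε x0 x1 y0 y1 : ℝ) : pvP ε (pvrEv (rswTB x0 x1 y0 y1)) = pvP ε (pvrEv (rswLR 0 (y1 - y0) 0 (x1 - x0))) := by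
  have e : rswTB x0 x1 y0 y1 = ((rswLR 0 (y1 - y0) 0 (x1 - x0)).map fun z => Complex.I * z).map fun z => z + (⟨x1, y0⟩ : ℂ) := by
    rw [rsw_map_I_LR, rsw_map_tr_TB]
    congr 1 <;> simp
  rw [e, pvr_inv_tr, pvr_inv_I]

/-- the four long rectangles of the square annulus of radii `t`, `2t` round `(cx,cy)` (the hypotheses of `rsw_block`) -/
def pvreAnn (cx cy t : ℝ) : List RswTri :=
  [rswLR (cx - 2 * t) (cx + 2 * t) (cy + t) (cy + 2 * t), rswLR (cx - 2 * t) (cx + 2 * t) (cy - 2 * t) (cy - t),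
   rswTB (cx - 2 * t) (cx - t) (cy - 2 * t) (cy + 2 * t), rswTB (cx + t) (cx + 2 * t) (cy - 2 * t) (cy + 2 * t)]

theorem pvre_defs_eqns_cite : True := by
  have := @pvreAnn.eq_1
  trivial

theorem pvre_ann_nice (cx cy t : ℝ) : ∀ e ∈ pvreAnn cx cy t, e.Nice := by
  intro e he
  simp only [pvreAnn, List.mem_cons, List.not_mem_nil, or_false] at he
  rcases he with rfl | rfl | rfl | rfl
  · exact rsw_nice_LR _ _ _ _
  · exact rsw_nice_LR _ _ _ _
  · exact rsw_nice_TB _ _ _ _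
  · exact rsw_nice_TB _ _ _ _

theorem pvre_ann_prob (ε cx cy t : ℝ) : ∀ e ∈ pvreAnn cx cy t, pvP ε (pvrEv e) = pvP ε (pvrEv (rswLR 0 (4 * t) 0 t)) := by
  intro e he
  simp only [pvreAnn, List.mem_cons, List.not_mem_nil, or_false] at he
  rcases he with rfl | rfl | rfl | rfl
  · rw [pvre_LR]; congr 3 <;> ring
  · rw [pvre_LR]; congr 3 <;> ring
  · rw [pvre_TB]; congr 3 <;> ring
  · rw [pvre_TB]; congr 3 <;> ring

/-- **black circuits**: the four long crossings of a square annulus, all meshes, scales, centres -/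
theorem pvre_circ : ∃ c : ℝ, 0 < c ∧ ∀ ε : ℝ, 0 < ε → ∀ t : ℝ, 0 < t → ∀ cx cy : ℝ,
    ENNReal.ofReal c ≤ pvP ε {η | ∀ e ∈ pvreAnn cx cy t, e.Holds (cfB η)} := by
  obtain ⟨c, hc, h⟩ := pvr_rsw 4 (by norm_num)
  refine ⟨c ^ 4, by positivity, fun ε hε t ht cx cy => ?_⟩
  have hl := pvr_fkg_list ε (pvreAnn cx cy t) (pvre_ann_nice cx cy t)
  have hu' : ENNReal.ofReal c ≤ pvP ε (pvrEv (rswLR 0 (4 * t) 0 t)) := by
    have := h ε hε t ht 0
    rwa [pvr_inv_tr] at this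
  have e1 : ((pvreAnn cx cy t).map fun e => pvP ε (pvrEv e)) = (pvreAnn cx cy t).map fun _ => pvP ε (pvrEv (rswLR 0 (4 * t) 0 t)) :=
    List.map_congr_left fun e he => pvre_ann_prob ε cx cy t e he
  refine le_trans ?_ hl
  rw [e1, List.map_const', List.prod_replicate, ENNReal.ofReal_pow hc.le]
  have : (pvreAnn cx cy t).length = 4 := rfl
  rw [this]
  exact pow_le_pow_left' hu' 4

/-- **white circuits** -/
theorem pvre_circW : ∃ c : ℝ, 0 < c ∧ ∀ ε : ℝ, 0 < ε → ∀ t : ℝ, 0 < t → ∀ cx cy : ℝ,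
    ENNReal.ofReal c ≤ pvP ε {η | ∀ e ∈ pvreAnn cx cy t, e.Holds (cfW η)} := by
  obtain ⟨c, hc, h⟩ := pvre_circ
  refine ⟨c, hc, fun ε hε t ht cx cy => ?_⟩
  have h2 : {η | ∀ e ∈ pvreAnn cx cy t, e.Holds (cfW η)} = cfFlip ⁻¹' {η | ∀ e ∈ pvreAnn cx cy t, e.Holds (cfB η)} := by
    ext η
    simp only [mem_ofPred_eq, mem_preimage, pvr_W_eq]
  rw [h2, pvr_flip_apply]
  exact h ε hε t ht cx cy

/-! ## arms from paths and from vertex chains -/

/-- a path from the inner box to the complement of the open outer box contains an arm -/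
theorem pvre_arm_of_path {B : Set ℂ} {cx cy t r : ℝ} (htr : t ≤ r) {a b : ℂ} (h : JoinedIn B a b)
    (ha : a ∈ rswRect (cx - t) (cx + t) (cy - t) (cy + t)) (hb : ¬ (cx - r < b.re ∧ b.re < cx + r ∧ cy - r < b.im ∧ b.im < cy + r)) :
    (rswArm cx cy t r).Holds B := by
  obtain ⟨a1, a2, a3, a4⟩ := ha
  obtain ⟨z, hz, hzb⟩ := rsw_first_exit (x0 := cx - r) (x1 := cx + r) (y0 := cy - r) (y1 := cy + r) h
    ⟨by linarith, by linarith, by linarith, by linarith⟩ hb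
  exact ⟨a, ⟨a1, a2, a3, a4⟩, z, ⟨hz.target_mem.2, hzb⟩, hz⟩

/-- two touching cells of black sites: the sites are joined in the black region -/
theorem pvre_step {η : Conf PvPt} {a b : ℂ} (ha : (a, true) ∈ η.pts) (hb : (b, true) ∈ η.pts) (h : (cfCell η a ∩ cfCell η b).Nonempty) :
    JoinedIn (cfBlack η) a b := by
  obtain ⟨z, hza, hzb⟩ := h
  have hc : ∀ v : ℂ, (v, true) ∈ η.pts → ∀ w ∈ cfCell η v, JoinedIn (cfBlack η) v w := by
    intro v hv w hw
    have hconv : Convex ℝ (cfCell η v) := by rw [cfCell_eq_vor]; exact vor_convex_cell _ _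
    have hself : v ∈ cfCell η v := by rw [cfCell_eq_vor]; exact vor_self_mem _ _
    exact ((hconv.isPathConnected ⟨v, hself⟩).joinedIn v hself w hw).mono fun x hx => ⟨(v, true), hv, rfl, hx⟩
  exact (hc a ha z hza).trans (hc b hb z hzb).symm

/-- a black vertex crossing gives a path in the black region -/
theorem pvre_vc_joined {η : Conf PvPt} {W A B : Set ℂ} (h : PvVC η W A B) : ∃ u ∈ A, ∃ v ∈ B, JoinedIn (cfBlack η) u v := by
  obtain ⟨u, v, hu, hv, hbk, hch⟩ := h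
  have key : ∀ v : ℂ, Relation.ReflTransGen (fun a b => PvBk η W b ∧ (cfCell η a ∩ cfCell η b).Nonempty) u v →
      (v, true) ∈ η.pts ∧ JoinedIn (cfBlack η) u v := by
    intro v hch
    induction hch with
    | refl =>
      refine ⟨hbk.1, JoinedIn.refl ⟨(u, true), hbk.1, rfl, ?_⟩⟩
      rw [cfCell_eq_vor]; exact vor_self_mem _ _
    | tail _ hstep ih => exact ⟨hstep.1.1, ih.2.trans (pvre_step ih.1 hstep.1.1 hstep.2)⟩
  exact ⟨u, hu, v, hv, (key v hch).2⟩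

/-- **annealed one-arm decay for black vertex chains** (outer measure: no measurability needed) -/
theorem pvre_arm1_vc : ∃ C a : ℝ, 0 < C ∧ 0 < a ∧ ∀ ε : ℝ, 0 < ε → ∀ t r : ℝ, ε ≤ t → t ≤ r → ∀ cx cy : ℝ, ∀ W : Set ℂ,
    pvP ε {η | PvVC η W (rswRect (cx - t) (cx + t) (cy - t) (cy + t)) {b | ¬ (cx - r < b.re ∧ b.re < cx + r ∧ cy - r < b.im ∧ b.im < cy + r)}}
      ≤ ENNReal.ofReal (C * (t / r) ^ a) := by
  obtain ⟨C, a, hC, ha, h⟩ := pvre_arm1
  refine ⟨C, a, hC, ha, fun ε hε t r h1 h2 cx cy W => le_trans (measure_mono_ae ?_) (h ε hε t r h1 h2 cx cy)⟩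
  filter_upwards [pvcn_LF_ae ε] with η hLF hη
  obtain ⟨u, hu, v, hv, hj⟩ := pvre_vc_joined hη
  rw [← pvr_B_eq_black hLF] at hj
  exact pvre_arm_of_path h2 hj hu hv

end Claimed.Agent.R289
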