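import Mathlib
import Claimed.Agent.Lib.BfpCor

/-!
# Row 289 (S0537), box RSW part I, file Rsw/Topo : VOCABULARY + PLANAR TOPOLOGY KIT FROM POINCARE-MIRANDA      (owner helper188; design helper259, notes/R289/rsw_259.md; prefix `rsw`)

Everything here is DETERMINISTIC.  The only topological input is `Lib.bfp_poincare_miranda` on `[0,1]^2`.  No Jordan curve theorem.

## Vocabulary
* `rswRect x0 x1 y0 y1` : the closed rectangle `[x0,x1] x [y0,y1]` in `ℂ`.
* `RswTri` : a triple `(K, S, T)`;  `e.Holds B` : some point of `S` is joined to some point of `T` by a path in `B ∩ K`.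
* `e.Nice` : `K` convex sigma-compact, `S`, `T` compact  (the class of events for which part II proves measurability, FKG, invariance).
* `rswLR`, `rswTB` : left-right / bottom-top crossing of a rectangle;  `rswWin` : from the left side to the WINDOW `{x1} x [α,β]` of the right side, touching the right side only inside the window;
  `rswWinL` : mirror image (from the right side to a window of the left side);  `rswArm cx cy t r` : from the box of radius `t` to the boundary of the box of radius `r`, both centred at `(cx,cy)`.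

## Kit (sec. 2 of rsw_259.md)
`rsw_cross` (G1*), `rsw_meet`, `rsw_window` (C2), `rsw_window_L`, `rsw_first_touch` (FT), `rsw_first_exit`, `rsw_chain_iff_path` (CH), `rsw_hex_some` (HEX).
## Deterministic gluings used by Tassion's argument (sec. 3, 4)
`rsw_det_*`.
-/

set_option autoImplicit false

namespace Claimed.Agent.R289

open Set Topology unitInterval

/-! ## 1. Vocabulary -/

/-- the closed rectangle `[x0,x1] x [y0,y1]` -/
def rswRect (x0 x1 y0 y1 : ℝ) : Set ℂ := {z | x0 ≤ z.re ∧ z.re ≤ x1 ∧ y0 ≤ z.im ∧ z.im ≤ y1}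

/-- a connection pattern: connect `S` to `T` inside `K` -/
structure RswTri where
  K : Set ℂ
  S : Set ℂ
  T : Set ℂ

/-- the pattern is realised in the set `B` -/
def RswTri.Holds (e : RswTri) (B : Set ℂ) : Prop := ∃ x ∈ e.S, ∃ y ∈ e.T, JoinedIn (B ∩ e.K) x y

/-- the class of patterns handled by part II -/
def RswTri.Nice (e : RswTri) : Prop := Convex ℝ e.K ∧ IsSigmaCompact e.K ∧ IsCompact e.S ∧ IsCompact e.T

/-- image of a pattern -/
def RswTri.map (g : ℂ → ℂ) (e : RswTri) : RswTri := ⟨g '' e.K, g '' e.S, g '' e.T⟩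

/-- left-right crossing of `[x0,x1] x [y0,y1]` -/
def rswLR (x0 x1 y0 y1 : ℝ) : RswTri := ⟨rswRect x0 x1 y0 y1, rswRect x0 x0 y0 y1, rswRect x1 x1 y0 y1⟩

/-- bottom-top crossing of `[x0,x1] x [y0,y1]` -/
def rswTB (x0 x1 y0 y1 : ℝ) : RswTri := ⟨rswRect x0 x1 y0 y1, rswRect x0 x1 y0 y0, rswRect x0 x1 y1 y1⟩

/-- from the left side to the window `{x1} x [α,β]`, the right side being touched only inside the window -/
def rswWin (x0 x1 y0 y1 α β : ℝ) : RswTri :=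
  ⟨{z | z ∈ rswRect x0 x1 y0 y1 ∧ (z.re = x1 → α ≤ z.im ∧ z.im ≤ β)}, rswRect x0 x0 y0 y1, rswRect x1 x1 α β⟩

/-- from the right side to the window `{x0} x [α,β]`, the left side being touched only inside the window -/
def rswWinL (x0 x1 y0 y1 α β : ℝ) : RswTri :=
  ⟨{z | z ∈ rswRect x0 x1 y0 y1 ∧ (z.re = x0 → α ≤ z.im ∧ z.im ≤ β)}, rswRect x1 x1 y0 y1, rswRect x0 x0 α β⟩

/-- one arm from the box of radius `t` to the boundary of the box of radius `r` (centre `(cx,cy)`), inside the big box -/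
def rswArm (cx cy t r : ℝ) : RswTri :=
  ⟨rswRect (cx - r) (cx + r) (cy - r) (cy + r), rswRect (cx - t) (cx + t) (cy - t) (cy + t),
   {z | z ∈ rswRect (cx - r) (cx + r) (cy - r) (cy + r) ∧ (z.re = cx - r ∨ z.re = cx + r ∨ z.im = cy - r ∨ z.im = cy + r)}⟩

/-- Tassion's `X` pattern in the square of centre `(cx,cy)` and side `s`: four window crossings (windows at height `≥ α` / `≤ -α` on both vertical sides) and a bottom-top crossing -/
noncomputable def rswX (cx cy s α : ℝ) : List RswTri :=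
  [rswWin (cx - s / 2) (cx + s / 2) (cy - s / 2) (cy + s / 2) (cy + α) (cy + s / 2),
   rswWin (cx - s / 2) (cx + s / 2) (cy - s / 2) (cy + s / 2) (cy - s / 2) (cy - α),
   rswWinL (cx - s / 2) (cx + s / 2) (cy - s / 2) (cy + s / 2) (cy + α) (cy + s / 2),
   rswWinL (cx - s / 2) (cx + s / 2) (cy - s / 2) (cy + s / 2) (cy - s / 2) (cy - α),
   rswTB (cx - s / 2) (cx + s / 2) (cy - s / 2) (cy + s / 2)]

theorem rsw_defs_eqns_cite : True := by
  have := @rswRect.eq_1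
  have := @RswTri.Holds.eq_1
  have := @RswTri.Nice.eq_1
  have := @RswTri.map.eq_1
  have := @rswLR.eq_1
  have := @rswTB.eq_1
  have := @rswWin.eq_1
  have := @rswWinL.eq_1
  have := @rswArm.eq_1
  have := @rswX.eq_1
  trivial

theorem rsw_mem_rect {x0 x1 y0 y1 : ℝ} {z : ℂ} :
    z ∈ rswRect x0 x1 y0 y1 ↔ x0 ≤ z.re ∧ z.re ≤ x1 ∧ y0 ≤ z.im ∧ z.im ≤ y1 := Iff.rfl

theorem rsw_rect_mono {x0 x1 y0 y1 x0' x1' y0' y1' : ℝ} (h0 : x0' ≤ x0) (h1 : x1 ≤ x1') (h2 : y0' ≤ y0) (h3 : y1 ≤ y1') :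
    rswRect x0 x1 y0 y1 ⊆ rswRect x0' x1' y0' y1' := by
  intro z hz
  obtain ⟨a, b, c, d⟩ := hz
  exact ⟨h0.trans a, b.trans h1, h2.trans c, d.trans h3⟩

theorem rsw_rect_eq (x0 x1 y0 y1 : ℝ) : rswRect x0 x1 y0 y1 = Set.Icc x0 x1 ×ℂ Set.Icc y0 y1 := by
  ext z
  simp only [rswRect, Set.mem_ofPred_eq, Complex.mem_reProdIm, Set.mem_Icc, and_assoc]

/-- a convex combination which attains the upper bound: every end with a positive weight attains it -/
theorem rsw_cvx_ext {a b u v m : ℝ} (ha : 0 ≤ a) (hb : 0 ≤ b) (hab : a + b = 1) (hu : u ≤ m) (hv : v ≤ m) (h : a * u + b * v = m) :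
    (a = 0 ∨ u = m) ∧ (b = 0 ∨ v = m) := by
  have h1 : a * (m - u) + b * (m - v) = 0 := by
    have : a * (m - u) + b * (m - v) = (a + b) * m - (a * u + b * v) := by ring
    rw [this, hab, h]; ring
  have h2 : 0 ≤ a * (m - u) := mul_nonneg ha (by linarith)
  have h3 : 0 ≤ b * (m - v) := mul_nonneg hb (by linarith)
  have h4 : a * (m - u) = 0 := by linarith
  have h5 : b * (m - v) = 0 := by linarith
  constructor
  · rcases mul_eq_zero.1 h4 with h | h
    · exact Or.inl h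
    · exact Or.inr (by linarith)
  · rcases mul_eq_zero.1 h5 with h | h
    · exact Or.inl h
    · exact Or.inr (by linarith)

/-- a convex combination of two reals, each of which lies in `[α,β]` unless its weight vanishes -/
theorem rsw_cvx_mem {a b u v α β : ℝ} (ha : 0 ≤ a) (hb : 0 ≤ b) (hab : a + b = 1) (hu : a = 0 ∨ (α ≤ u ∧ u ≤ β))
    (hv : b = 0 ∨ (α ≤ v ∧ v ≤ β)) : α ≤ a * u + b * v ∧ a * u + b * v ≤ β := by
  rcases hu with rfl | ⟨u1, u2⟩
  · have hb1 : b = 1 := by linarith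
    subst hb1
    rcases hv with h | ⟨v1, v2⟩
    · exact absurd h one_ne_zero
    · constructor <;> linarith
  · rcases hv with rfl | ⟨v1, v2⟩
    · have ha1 : a = 1 := by linarith
      subst ha1
      constructor <;> linarith
    · constructor
      · have : α = a * α + b * α := by rw [← add_mul, hab, one_mul]
        rw [this]
        exact add_le_add (mul_le_mul_of_nonneg_left u1 ha) (mul_le_mul_of_nonneg_left v1 hb)
      · have : β = a * β + b * β := by rw [← add_mul, hab, one_mul]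
        rw [this]
        exact add_le_add (mul_le_mul_of_nonneg_left u2 ha) (mul_le_mul_of_nonneg_left v2 hb)

theorem rsw_rect_convex (x0 x1 y0 y1 : ℝ) : Convex ℝ (rswRect x0 x1 y0 y1) := by
  intro z hz w hw a b ha hb hab
  obtain ⟨z1, z2, z3, z4⟩ := hz
  obtain ⟨w1, w2, w3, w4⟩ := hw
  have hre := rsw_cvx_mem ha hb hab (Or.inr ⟨z1, z2⟩) (Or.inr ⟨w1, w2⟩)
  have him := rsw_cvx_mem ha hb hab (Or.inr ⟨z3, z4⟩) (Or.inr ⟨w3, w4⟩)
  simp only [rswRect, Set.mem_ofPred_eq, Complex.add_re, Complex.add_im, Complex.real_smul, Complex.mul_re, Complex.mul_im,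
    Complex.ofReal_re, Complex.ofReal_im, zero_mul, sub_zero, add_zero]
  exact ⟨hre.1, hre.2, him.1, him.2⟩

theorem rsw_rect_compact (x0 x1 y0 y1 : ℝ) : IsCompact (rswRect x0 x1 y0 y1) := by
  rw [rsw_rect_eq]
  exact isCompact_Icc.reProdIm isCompact_Icc

theorem rsw_nice_LR (x0 x1 y0 y1 : ℝ) : (rswLR x0 x1 y0 y1).Nice :=
  ⟨rsw_rect_convex _ _ _ _, (rsw_rect_compact _ _ _ _).isSigmaCompact, rsw_rect_compact _ _ _ _, rsw_rect_compact _ _ _ _⟩

theorem rsw_nice_TB (x0 x1 y0 y1 : ℝ) : (rswTB x0 x1 y0 y1).Nice :=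
  ⟨rsw_rect_convex _ _ _ _, (rsw_rect_compact _ _ _ _).isSigmaCompact, rsw_rect_compact _ _ _ _, rsw_rect_compact _ _ _ _⟩

/-- convex: a point of an open segment with `re = x1` forces both ends on the line.  sigma-compact: union of the rectangles `[x0, x1 - 1/(n+1)] x [y0,y1]` and of the window. -/
theorem rsw_nice_Win (x0 x1 y0 y1 α β : ℝ) : (rswWin x0 x1 y0 y1 α β).Nice := by
  refine ⟨?_, ?_, rsw_rect_compact _ _ _ _, rsw_rect_compact _ _ _ _⟩
  · intro z hz w hw a b ha hb hab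
    refine ⟨rsw_rect_convex _ _ _ _ hz.1 hw.1 ha hb hab, fun h => ?_⟩
    simp only [Complex.add_re, Complex.add_im, Complex.real_smul, Complex.mul_re, Complex.mul_im, Complex.ofReal_re, Complex.ofReal_im,
      zero_mul, sub_zero, add_zero] at h ⊢
    obtain ⟨e1, e2⟩ := rsw_cvx_ext ha hb hab hz.1.2.1 hw.1.2.1 h
    exact rsw_cvx_mem ha hb hab (e1.imp id hz.2) (e2.imp id hw.2)
  · have e : (rswWin x0 x1 y0 y1 α β).K
        = ⋃ n : ℕ, (rswRect x0 (x1 - 1 / ((n : ℝ) + 1)) y0 y1 ∪ (rswRect x0 x1 y0 y1 ∩ rswRect x1 x1 α β)) := by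
      ext z
      simp only [rswWin, Set.mem_ofPred_eq, Set.mem_iUnion, Set.mem_union, Set.mem_inter_iff]
      constructor
      · rintro ⟨hz, hw⟩
        rcases eq_or_lt_of_le hz.2.1 with h | h
        · exact ⟨0, Or.inr ⟨hz, h.ge, h.le, (hw h).1, (hw h).2⟩⟩
        · obtain ⟨n, hn⟩ := exists_nat_one_div_lt (sub_pos.2 h)
          exact ⟨n, Or.inl ⟨hz.1, by linarith, hz.2.2.1, hz.2.2.2⟩⟩
      · rintro ⟨n, hz | ⟨hz, hw⟩⟩
        · have hn : (0 : ℝ) < 1 / ((n : ℝ) + 1) := Nat.one_div_pos_of_nat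
          exact ⟨⟨hz.1, by linarith [hz.2.1], hz.2.2.1, hz.2.2.2⟩, fun h => absurd hz.2.1 (by rw [h]; linarith)⟩
        · exact ⟨hz, fun _ => ⟨hw.2.2.1, hw.2.2.2⟩⟩
    rw [e]
    exact isSigmaCompact_iUnion_of_isCompact _ fun n =>
      (rsw_rect_compact _ _ _ _).union ((rsw_rect_compact _ _ _ _).inter (rsw_rect_compact _ _ _ _))

theorem rsw_nice_WinL (x0 x1 y0 y1 α β : ℝ) : (rswWinL x0 x1 y0 y1 α β).Nice := by
  refine ⟨?_, ?_, rsw_rect_compact _ _ _ _, rsw_rect_compact _ _ _ _⟩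
  · intro z hz w hw a b ha hb hab
    refine ⟨rsw_rect_convex _ _ _ _ hz.1 hw.1 ha hb hab, fun h => ?_⟩
    simp only [Complex.add_re, Complex.add_im, Complex.real_smul, Complex.mul_re, Complex.mul_im, Complex.ofReal_re, Complex.ofReal_im,
      zero_mul, sub_zero, add_zero] at h ⊢
    obtain ⟨e1, e2⟩ := rsw_cvx_ext (u := -z.re) (v := -w.re) (m := -x0) ha hb hab (by linarith [hz.1.1]) (by linarith [hw.1.1])
      (by linarith)
    exact rsw_cvx_mem ha hb hab (e1.imp id fun h' => hz.2 (by linarith)) (e2.imp id fun h' => hw.2 (by linarith))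
  · have e : (rswWinL x0 x1 y0 y1 α β).K
        = ⋃ n : ℕ, (rswRect (x0 + 1 / ((n : ℝ) + 1)) x1 y0 y1 ∪ (rswRect x0 x1 y0 y1 ∩ rswRect x0 x0 α β)) := by
      ext z
      simp only [rswWinL, Set.mem_ofPred_eq, Set.mem_iUnion, Set.mem_union, Set.mem_inter_iff]
      constructor
      · rintro ⟨hz, hw⟩
        rcases eq_or_lt_of_le hz.1 with h | h
        · exact ⟨0, Or.inr ⟨hz, h.le, h.ge, (hw h.symm).1, (hw h.symm).2⟩⟩
        · obtain ⟨n, hn⟩ := exists_nat_one_div_lt (sub_pos.2 h)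
          exact ⟨n, Or.inl ⟨by linarith, hz.2.1, hz.2.2.1, hz.2.2.2⟩⟩
      · rintro ⟨n, hz | ⟨hz, hw⟩⟩
        · have hn : (0 : ℝ) < 1 / ((n : ℝ) + 1) := Nat.one_div_pos_of_nat
          exact ⟨⟨by linarith [hz.1], hz.2.1, hz.2.2.1, hz.2.2.2⟩, fun h => absurd hz.1 (by rw [h]; linarith)⟩
        · exact ⟨hz, fun _ => ⟨hw.2.2.1, hw.2.2.2⟩⟩
    rw [e]
    exact isSigmaCompact_iUnion_of_isCompact _ fun n =>
      (rsw_rect_compact _ _ _ _).union ((rsw_rect_compact _ _ _ _).inter (rsw_rect_compact _ _ _ _))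

theorem rsw_nice_Arm (cx cy t r : ℝ) : (rswArm cx cy t r).Nice := by
  refine ⟨rsw_rect_convex _ _ _ _, (rsw_rect_compact _ _ _ _).isSigmaCompact, rsw_rect_compact _ _ _ _, ?_⟩
  have hc : IsClosed {z : ℂ | z.re = cx - r ∨ z.re = cx + r ∨ z.im = cy - r ∨ z.im = cy + r} :=
    (isClosed_eq Complex.continuous_re continuous_const).union ((isClosed_eq Complex.continuous_re continuous_const).union
      ((isClosed_eq Complex.continuous_im continuous_const).union (isClosed_eq Complex.continuous_im continuous_const)))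
  exact (rsw_rect_compact _ _ _ _).inter_right hc

theorem rsw_nice_X (cx cy s α : ℝ) : ∀ e ∈ rswX cx cy s α, e.Nice := by
  intro e he
  simp only [rswX, List.mem_cons, List.not_mem_nil, or_false] at he
  rcases he with rfl | rfl | rfl | rfl | rfl
  · exact rsw_nice_Win _ _ _ _ _ _
  · exact rsw_nice_Win _ _ _ _ _ _
  · exact rsw_nice_WinL _ _ _ _ _ _
  · exact rsw_nice_WinL _ _ _ _ _ _
  · exact rsw_nice_TB _ _ _ _

/-! ### images of the patterns under the symmetries -/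

theorem rsw_image_tr (w : ℂ) (A : Set ℂ) : (fun z => z + w) '' A = {z | z - w ∈ A} := by
  ext z
  constructor
  · rintro ⟨u, hu, rfl⟩
    simpa using hu
  · intro h
    exact ⟨z - w, h, by simp⟩

theorem rsw_image_I (A : Set ℂ) : (fun z => Complex.I * z) '' A = {z | -Complex.I * z ∈ A} := by
  ext z
  constructor
  · rintro ⟨u, hu, rfl⟩
    have : -Complex.I * (Complex.I * u) = u := by
      rw [← mul_assoc, neg_mul, Complex.I_mul_I]; simp
    show -Complex.I * (Complex.I * u) ∈ A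
    rw [this]
    exact hu
  · intro h
    refine ⟨-Complex.I * z, h, ?_⟩
    show Complex.I * (-Complex.I * z) = z
    rw [← mul_assoc, mul_neg, Complex.I_mul_I]; simp

theorem rsw_image_conj (A : Set ℂ) : (fun z => (starRingEnd ℂ) z) '' A = {z | (starRingEnd ℂ) z ∈ A} := by
  ext z
  constructor
  · rintro ⟨u, hu, rfl⟩
    simpa using hu
  · intro h
    exact ⟨(starRingEnd ℂ) z, h, by simp⟩

theorem rsw_image_nconj (A : Set ℂ) : (fun z => -(starRingEnd ℂ) z) '' A = {z | -(starRingEnd ℂ) z ∈ A} := by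
  ext z
  constructor
  · rintro ⟨u, hu, rfl⟩
    simpa using hu
  · intro h
    exact ⟨-(starRingEnd ℂ) z, h, by simp⟩

theorem rsw_pre_tr_rect (w : ℂ) (x0 x1 y0 y1 : ℝ) :
    {z | z - w ∈ rswRect x0 x1 y0 y1} = rswRect (x0 + w.re) (x1 + w.re) (y0 + w.im) (y1 + w.im) := by
  ext z
  simp only [rswRect, Set.mem_ofPred_eq, Complex.sub_re, Complex.sub_im]
  constructor <;> rintro ⟨a, b, c, d⟩ <;> refine ⟨?_, ?_, ?_, ?_⟩ <;> linarith

theorem rsw_map_tr_LR (w : ℂ) (x0 x1 y0 y1 : ℝ) :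
    (rswLR x0 x1 y0 y1).map (fun z => z + w) = rswLR (x0 + w.re) (x1 + w.re) (y0 + w.im) (y1 + w.im) := by
  simp only [RswTri.map, rswLR, rsw_image_tr, rsw_pre_tr_rect]

theorem rsw_map_tr_TB (w : ℂ) (x0 x1 y0 y1 : ℝ) :
    (rswTB x0 x1 y0 y1).map (fun z => z + w) = rswTB (x0 + w.re) (x1 + w.re) (y0 + w.im) (y1 + w.im) := by
  simp only [RswTri.map, rswTB, rsw_image_tr, rsw_pre_tr_rect]

theorem rsw_map_tr_Win (w : ℂ) (x0 x1 y0 y1 α β : ℝ) :
    (rswWin x0 x1 y0 y1 α β).map (fun z => z + w)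
      = rswWin (x0 + w.re) (x1 + w.re) (y0 + w.im) (y1 + w.im) (α + w.im) (β + w.im) := by
  simp only [RswTri.map, rswWin, rsw_image_tr, rsw_pre_tr_rect]
  congr 1
  ext z
  simp only [rswRect, Set.mem_ofPred_eq, Complex.sub_re, Complex.sub_im]
  constructor
  · rintro ⟨⟨a, b, c, d⟩, h⟩
    refine ⟨⟨?_, ?_, ?_, ?_⟩, fun e => ?_⟩ <;> try linarith
    have := h (by linarith)
    constructor <;> linarith [this.1, this.2]
  · rintro ⟨⟨a, b, c, d⟩, h⟩
    refine ⟨⟨?_, ?_, ?_, ?_⟩, fun e => ?_⟩ <;> try linarith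
    have := h (by linarith)
    constructor <;> linarith [this.1, this.2]

theorem rsw_map_tr_Arm (w : ℂ) (cx cy t r : ℝ) :
    (rswArm cx cy t r).map (fun z => z + w) = rswArm (cx + w.re) (cy + w.im) t r := by
  have e : ∀ s : ℝ, {z | z - w ∈ rswRect (cx - s) (cx + s) (cy - s) (cy + s)}
      = rswRect (cx + w.re - s) (cx + w.re + s) (cy + w.im - s) (cy + w.im + s) := by
    intro s
    rw [rsw_pre_tr_rect]
    congr 1 <;> ring
  simp only [RswTri.map, rswArm, rsw_image_tr, e]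
  congr 1
  ext z
  have e' := Set.ext_iff.1 (e r) z
  simp only [Set.mem_ofPred_eq] at e' ⊢
  rw [e']
  simp only [Complex.sub_re, Complex.sub_im]
  refine and_congr_right fun _ => ?_
  refine or_congr ?_ (or_congr ?_ (or_congr ?_ ?_)) <;> constructor <;> intro h <;> linarith

/-- multiplication by `i` : `(x,y) ↦ (-y,x)` -/
theorem rsw_map_I_LR (x0 x1 y0 y1 : ℝ) :
    (rswLR x0 x1 y0 y1).map (fun z => Complex.I * z) = rswTB (-y1) (-y0) x0 x1 := by
  have e : ∀ a b c d : ℝ, {z | -Complex.I * z ∈ rswRect a b c d} = rswRect (-d) (-c) a b := by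
    intro a b c d
    ext z
    simp only [rswRect, Set.mem_ofPred_eq, Complex.mul_re, Complex.mul_im, Complex.neg_re, Complex.neg_im, Complex.I_re, Complex.I_im,
      zero_mul, neg_mul, one_mul, zero_add]
    constructor <;> rintro ⟨a, b, c, d⟩ <;> refine ⟨?_, ?_, ?_, ?_⟩ <;> linarith
  simp only [RswTri.map, rswLR, rswTB, rsw_image_I, e]

theorem rsw_map_conj_Win (x0 x1 y0 y1 α β : ℝ) :
    (rswWin x0 x1 y0 y1 α β).map (fun z => (starRingEnd ℂ) z) = rswWin x0 x1 (-y1) (-y0) (-β) (-α) := by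
  have e : ∀ a b c d : ℝ, {z | (starRingEnd ℂ) z ∈ rswRect a b c d} = rswRect a b (-d) (-c) := by
    intro a b c d
    ext z
    simp only [rswRect, Set.mem_ofPred_eq, Complex.conj_re, Complex.conj_im]
    constructor <;> rintro ⟨a, b, c, d⟩ <;> refine ⟨?_, ?_, ?_, ?_⟩ <;> linarith
  simp only [RswTri.map, rswWin, rsw_image_conj, e]
  congr 1
  ext z
  have e' := Set.ext_iff.1 (e x0 x1 y0 y1) z
  simp only [Set.mem_ofPred_eq] at e' ⊢
  rw [e']
  simp only [Complex.conj_re, Complex.conj_im]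
  refine and_congr_right fun _ => ?_
  refine imp_congr_right fun _ => ?_
  constructor <;> rintro ⟨a, b⟩ <;> constructor <;> linarith

/-- `z ↦ -conj z` : `(x,y) ↦ (-x,y)` -/
theorem rsw_map_nconj_Win (x0 x1 y0 y1 α β : ℝ) :
    (rswWin x0 x1 y0 y1 α β).map (fun z => -(starRingEnd ℂ) z) = rswWinL (-x1) (-x0) y0 y1 α β := by
  have e : ∀ a b c d : ℝ, {z | -(starRingEnd ℂ) z ∈ rswRect a b c d} = rswRect (-b) (-a) c d := by
    intro a b c d
    ext z
    simp only [rswRect, Set.mem_ofPred_eq, Complex.neg_re, Complex.neg_im, Complex.conj_re, Complex.conj_im, neg_neg]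
    constructor <;> rintro ⟨a, b, c, d⟩ <;> refine ⟨?_, ?_, ?_, ?_⟩ <;> linarith
  simp only [RswTri.map, rswWin, rswWinL, rsw_image_nconj, e]
  congr 1
  ext z
  have e' := Set.ext_iff.1 (e x0 x1 y0 y1) z
  simp only [Set.mem_ofPred_eq] at e' ⊢
  rw [e']
  simp only [Complex.neg_re, Complex.neg_im, Complex.conj_re, Complex.conj_im, neg_neg]
  refine and_congr_right fun _ => ?_
  refine imp_congr ?_ Iff.rfl
  constructor <;> intro h <;> linarith

theorem rsw_map_tr_WinL (w : ℂ) (x0 x1 y0 y1 α β : ℝ) :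
    (rswWinL x0 x1 y0 y1 α β).map (fun z => z + w)
      = rswWinL (x0 + w.re) (x1 + w.re) (y0 + w.im) (y1 + w.im) (α + w.im) (β + w.im) := by
  simp only [RswTri.map, rswWinL, rsw_image_tr, rsw_pre_tr_rect]
  congr 1
  ext z
  simp only [rswRect, Set.mem_ofPred_eq, Complex.sub_re, Complex.sub_im]
  constructor
  · rintro ⟨⟨a, b, c, d⟩, h⟩
    refine ⟨⟨?_, ?_, ?_, ?_⟩, fun e => ?_⟩ <;> try linarith
    have := h (by linarith)
    constructor <;> linarith [this.1, this.2]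
  · rintro ⟨⟨a, b, c, d⟩, h⟩
    refine ⟨⟨?_, ?_, ?_, ?_⟩, fun e => ?_⟩ <;> try linarith
    have := h (by linarith)
    constructor <;> linarith [this.1, this.2]

/-! ## 2. The topological kit -/

/-- **G1\*** (proof: helper259): `p` goes from the left of `q` to the right of `q`, `q` goes from below `p` to above `p`: they meet. -/
theorem rsw_cross {a b c d : ℂ} (p : Path a b) (q : Path c d)
    (hx : ∀ t, a.re ≤ (q t).re ∧ (q t).re ≤ b.re) (hy : ∀ s, c.im ≤ (p s).im ∧ (p s).im ≤ d.im) :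
    ∃ s t, p s = q t := by
  have hmem : ∀ x : Fin 2 → ℝ, x ∈ Set.Icc (fun _ : Fin 2 => (0:ℝ)) (fun _ => 1) → ∀ i, x i ∈ Set.Icc (0:ℝ) 1 :=
    fun x hx i => ⟨hx.1 i, hx.2 i⟩
  obtain ⟨x, hxm, hx0⟩ := Lib.bfp_poincare_miranda (ι := Fin 2) (fun _ => 0) (fun _ => 1) (fun _ => zero_le_one)
    (fun x i => if i = 0 then (p.extend (x 0)).re - (q.extend (x 1)).re
      else (q.extend (x 1)).im - (p.extend (x 0)).im)
    (by
      refine Continuous.continuousOn ?_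
      refine continuous_pi fun i => ?_
      have h1 : Continuous fun x : Fin 2 → ℝ => p.extend (x 0) := p.continuous_extend.comp (continuous_apply 0)
      have h2 : Continuous fun x : Fin 2 → ℝ => q.extend (x 1) := q.continuous_extend.comp (continuous_apply 1)
      by_cases hi : i = 0
      · simp only [hi, if_true]
        exact (Complex.continuous_re.comp h1).sub (Complex.continuous_re.comp h2)
      · simp only [hi, if_false]
        exact (Complex.continuous_im.comp h2).sub (Complex.continuous_im.comp h1))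
    (by
      intro x hxm i hi
      have h0 := hmem x hxm 0
      have h1 := hmem x hxm 1
      fin_cases i
      · simp only [Fin.zero_eta, Fin.isValue, if_true] at hi ⊢
        rw [hi, p.extend_zero, q.extend_apply h1]
        linarith [(hx ⟨x 1, h1⟩).1]
      · simp only [Fin.mk_one, Fin.isValue, one_ne_zero, if_false] at hi ⊢
        rw [hi, q.extend_zero, p.extend_apply h0]
        linarith [(hy ⟨x 0, h0⟩).1])
    (by
      intro x hxm i hi
      have h0 := hmem x hxm 0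
      have h1 := hmem x hxm 1
      fin_cases i
      · simp only [Fin.zero_eta, Fin.isValue, if_true] at hi ⊢
        rw [hi, p.extend_one, q.extend_apply h1]
        linarith [(hx ⟨x 1, h1⟩).2]
      · simp only [Fin.mk_one, Fin.isValue, one_ne_zero, if_false] at hi ⊢
        rw [hi, q.extend_one, p.extend_apply h0]
        linarith [(hy ⟨x 0, h0⟩).2])
  have h0 := hmem x hxm 0
  have h1 := hmem x hxm 1
  refine ⟨⟨x 0, h0⟩, ⟨x 1, h1⟩, ?_⟩
  have e0 := congrFun hx0 0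
  have e1 := congrFun hx0 1
  simp only [Fin.isValue, if_true, one_ne_zero, if_false, Pi.zero_apply] at e0 e1
  rw [p.extend_apply h0, q.extend_apply h1] at e0 e1
  apply Complex.ext <;> linarith

/-- an initial piece of a path -/
theorem rsw_joined_init {A : Set ℂ} {a b : ℂ} (γ : Path a b) (t : I) (h : ∀ s : I, s ≤ t → γ s ∈ A) : JoinedIn A a (γ t) := by
  refine ⟨⟨⟨fun s => γ (s * t), γ.continuous.comp (continuous_id.mul continuous_const)⟩, ?_, ?_⟩, fun s => ?_⟩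
  · show γ (0 * t) = a
    rw [zero_mul, γ.source]
  · show γ (1 * t) = γ t
    rw [one_mul]
  · exact h _ (unitInterval.mul_le_right)

/-- every point of a path inside `A` is joined in `A` to the starting point -/
theorem rsw_joined_pt {A : Set ℂ} {a b : ℂ} (γ : Path a b) (hγ : ∀ t, γ t ∈ A) (t : I) : JoinedIn A a (γ t) :=
  rsw_joined_init γ t fun s _ => hγ s

/-- first time in a closed set -/
theorem rsw_first_time {a b : ℂ} (γ : Path a b) {S : Set ℂ} (hS : IsClosed S) (hb : b ∈ S) :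
    ∃ t : I, γ t ∈ S ∧ ∀ s : I, s < t → γ s ∉ S := by
  have hc : IsCompact (γ ⁻¹' S) := (hS.preimage γ.continuous).isCompact
  have hne : (γ ⁻¹' S).Nonempty := ⟨1, by show γ 1 ∈ S; rw [γ.target]; exact hb⟩
  obtain ⟨t, ht, hmin⟩ := hc.exists_isMinOn hne (continuous_subtype_val.continuousOn)
  refine ⟨t, ht, fun s hs hsS => ?_⟩
  have : (t : ℝ) ≤ s := hmin hsS
  exact absurd hs (not_lt.2 this)

/-- a closed property which holds before `t` and at `0` holds at `t` -/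
theorem rsw_closed_limit {a b : ℂ} (γ : Path a b) {R : Set ℂ} (hR : IsClosed R) (ha : a ∈ R) (t : I) (h : ∀ s : I, s < t → γ s ∈ R) : γ t ∈ R := by
  by_cases h0 : (t : ℝ) = 0
  · have : t = 0 := Subtype.ext h0
    rw [this, γ.source]; exact ha
  · have hpos : (0 : ℝ) < t := lt_of_le_of_ne t.2.1 (Ne.symm h0)
    have hcl : IsClosed {r : ℝ | γ.extend r ∈ R} := hR.preimage γ.continuous_extend
    have hsub : Ico (0 : ℝ) t ⊆ {r : ℝ | γ.extend r ∈ R} := by
      intro r hr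
      have hr1 : r ∈ Icc (0 : ℝ) 1 := ⟨hr.1, hr.2.le.trans t.2.2⟩
      show γ.extend r ∈ R
      rw [γ.extend_apply hr1]
      exact h ⟨r, hr1⟩ hr.2
    have h2 : (t : ℝ) ∈ closure (Ico (0 : ℝ) t) := by
      rw [closure_Ico hpos.ne]
      exact ⟨hpos.le, le_rfl⟩
    have h3 := closure_minimal hsub hcl h2
    have h4 : γ.extend t ∈ R := h3
    rwa [γ.extend_apply t.2] at h4

theorem rsw_rect_closed (x0 x1 y0 y1 : ℝ) : IsClosed (rswRect x0 x1 y0 y1) := by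
  have : rswRect x0 x1 y0 y1 = {z : ℂ | x0 ≤ z.re} ∩ {z | z.re ≤ x1} ∩ {z | y0 ≤ z.im} ∩ {z | z.im ≤ y1} := by
    ext z
    simp only [rswRect, mem_ofPred_eq, mem_inter_iff]
    tauto
  rw [this]
  exact (((isClosed_le continuous_const Complex.continuous_re).inter (isClosed_le Complex.continuous_re continuous_const)).inter
    (isClosed_le continuous_const Complex.continuous_im)).inter (isClosed_le Complex.continuous_im continuous_const)

/-- **G1\*** for `JoinedIn`. -/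
theorem rsw_meet {A A' : Set ℂ} {a b c d : ℂ} (h : JoinedIn A a b) (h' : JoinedIn A' c d)
    (hx : ∀ z ∈ A', a.re ≤ z.re ∧ z.re ≤ b.re) (hy : ∀ z ∈ A, c.im ≤ z.im ∧ z.im ≤ d.im) :
    ∃ z, JoinedIn A a z ∧ JoinedIn A' c z := by
  obtain ⟨p, hp⟩ := h
  obtain ⟨q, hq⟩ := h'
  obtain ⟨s, t, hst⟩ := rsw_cross p q (fun t => hx _ (hq t)) (fun s => hy _ (hp s))
  exact ⟨p s, rsw_joined_pt p hp s, hst ▸ rsw_joined_pt q hq t⟩

/-- core of the window lemmas: `rev = false`: the path `p` goes from the left to the line; `rev = true`: from the right to the line -/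
theorem rsw_window_core {a b u v : ℂ} {x1 ym yp : ℝ} (p : Path a b) (q : Path u v) (hu : u.re = x1) (hv : v.re = x1) (hum : u.im ≤ ym) (hvp : yp ≤ v.im)
    (hwin : ∀ s, (p s).re = x1 → ym ≤ (p s).im ∧ (p s).im ≤ yp)
    (hc : (∀ z : ℂ, z.re = x1 ∨ z ∈ range q → a.re ≤ z.re ∧ z.re ≤ b.re) ∨ (∀ z : ℂ, z.re = x1 ∨ z ∈ range q → b.re ≤ z.re ∧ z.re ≤ a.re)) :
    ∃ s t, p s = q t := by
  obtain ⟨M, hM⟩ := (isCompact_range p.continuous).isBounded.exists_norm_le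
  have him : ∀ z ∈ range p, -M ≤ z.im ∧ z.im ≤ M := fun z hz => abs_le.1 ((Complex.abs_im_le_norm z).trans (hM z hz))
  set ylo : ℝ := min (-M) u.im with hylo
  set yhi : ℝ := max M v.im with hyhi
  set c : ℂ := ⟨x1, ylo⟩ with hcdef
  set d : ℂ := ⟨x1, yhi⟩ with hddef
  set V1 : Set ℂ := rswRect x1 x1 ylo u.im with hV1
  set V2 : Set ℂ := rswRect x1 x1 v.im yhi with hV2
  have j1 : JoinedIn V1 c u := JoinedIn.of_segment_subset ((rsw_rect_convex _ _ _ _).segment_subset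
    ⟨le_rfl, le_rfl, le_rfl, min_le_right _ _⟩ ⟨hu.ge, hu.le, min_le_right _ _, le_rfl⟩)
  have j2 : JoinedIn (range q) u v := ⟨q, fun t => mem_range_self t⟩
  have j3 : JoinedIn V2 v d := JoinedIn.of_segment_subset ((rsw_rect_convex _ _ _ _).segment_subset
    ⟨hv.ge, hv.le, le_rfl, le_max_right _ _⟩ ⟨le_rfl, le_rfl, le_max_right _ _, le_rfl⟩)
  have j : JoinedIn (V1 ∪ range q ∪ V2) c d :=
    ((j1.mono (subset_union_left.trans subset_union_left)).trans (j2.mono (subset_union_right.trans subset_union_left))).trans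
      (j3.mono subset_union_right)
  have hline : ∀ z ∈ V1 ∪ range q ∪ V2, z.re = x1 ∨ z ∈ range q := by
    rintro z ((hz | hz) | hz)
    · exact Or.inl (le_antisymm hz.2.1 hz.1)
    · exact Or.inr hz
    · exact Or.inl (le_antisymm hz.2.1 hz.1)
  have hy : ∀ z ∈ range p, c.im ≤ z.im ∧ z.im ≤ d.im := fun z hz =>
    ⟨(min_le_left _ _).trans (him z hz).1, (him z hz).2.trans (le_max_left _ _)⟩
  have jp : JoinedIn (range p) a b := ⟨p, fun t => mem_range_self t⟩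
  obtain ⟨z, hzp, hzq⟩ : ∃ z, z ∈ range p ∧ z ∈ V1 ∪ range q ∪ V2 := by
    rcases hc with hc | hc
    · obtain ⟨z, h1, h2⟩ := rsw_meet jp j (fun z hz => hc z (hline z hz)) hy
      exact ⟨z, h1.target_mem, h2.target_mem⟩
    · obtain ⟨z, h1, h2⟩ := rsw_meet jp.symm j (fun z hz => hc z (hline z hz)) hy
      exact ⟨z, h1.target_mem, h2.target_mem⟩
  obtain ⟨s, rfl⟩ := hzp
  rcases hzq with (hz | hz) | hz
  · have hr : (p s).re = x1 := le_antisymm hz.2.1 hz.1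
    have hw := hwin s hr
    refine ⟨s, 0, ?_⟩
    rw [q.source]
    apply Complex.ext
    · rw [hr, hu]
    · exact le_antisymm hz.2.2.2 (hum.trans hw.1)
  · obtain ⟨t, ht⟩ := hz
    exact ⟨s, t, ht.symm⟩
  · have hr : (p s).re = x1 := le_antisymm hz.2.1 hz.1
    have hw := hwin s hr
    refine ⟨s, 1, ?_⟩
    rw [q.target]
    apply Complex.ext
    · rw [hr, hv]
    · exact le_antisymm (hw.2.trans hvp) hz.2.2.1

/-- **C2 (window)**: `A` lies in `re ≤ x1` and touches the line `re = x1` only at heights in `[ym,yp]`; a path in `A` from `a` to the line meets every path (in `a.re ≤ re ≤ x1`) joining two points `u`, `v` of the line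
with `u` below and `v` above the window.   PROOF: G1* for the path and `Γ` = vertical segment below `u` + the second path + vertical segment above `v` (long enough: the first path is compact);
a common point on a vertical segment has `re = x1`, hence lies in the window, hence is `u` resp. `v`. -/
theorem rsw_window {A A' : Set ℂ} {a b u v : ℂ} {x1 ym yp : ℝ} (h : JoinedIn A a b) (hb : b.re = x1)
    (hA : ∀ z ∈ A, z.re ≤ x1 ∧ (z.re = x1 → ym ≤ z.im ∧ z.im ≤ yp))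
    (h' : JoinedIn A' u v) (hu : u.re = x1) (hv : v.re = x1) (hum : u.im ≤ ym) (hvp : yp ≤ v.im)
    (hA' : ∀ z ∈ A', a.re ≤ z.re ∧ z.re ≤ x1) :
    ∃ z, JoinedIn A a z ∧ JoinedIn A' u z := by
  obtain ⟨p, hp⟩ := h
  obtain ⟨q, hq⟩ := h'
  have ha : a.re ≤ x1 := by
    have := (hA _ (hp 0)).1
    rwa [p.source] at this
  have hc : ∀ z : ℂ, z.re = x1 ∨ z ∈ range q → a.re ≤ z.re ∧ z.re ≤ b.re := by
    rintro z (hz | ⟨t, rfl⟩)
    · rw [hz, hb]; exact ⟨ha, le_rfl⟩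
    · rw [hb]; exact hA' _ (hq t)
  obtain ⟨s, t, hst⟩ := rsw_window_core p q hu hv hum hvp (fun s => (hA _ (hp s)).2) (Or.inl hc)
  exact ⟨p s, rsw_joined_pt p hp s, hst ▸ rsw_joined_pt q hq t⟩

/-- mirror image of `rsw_window` (`re ≥ x0`) : apply `rsw_window` to the images under `z ↦ -conj z`, or repeat the proof. -/
theorem rsw_window_L {A A' : Set ℂ} {a b u v : ℂ} {x0 ym yp : ℝ} (h : JoinedIn A a b) (hb : b.re = x0)
    (hA : ∀ z ∈ A, x0 ≤ z.re ∧ (z.re = x0 → ym ≤ z.im ∧ z.im ≤ yp))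
    (h' : JoinedIn A' u v) (hu : u.re = x0) (hv : v.re = x0) (hum : u.im ≤ ym) (hvp : yp ≤ v.im)
    (hA' : ∀ z ∈ A', x0 ≤ z.re ∧ z.re ≤ a.re) :
    ∃ z, JoinedIn A a z ∧ JoinedIn A' u z := by
  obtain ⟨p, hp⟩ := h
  obtain ⟨q, hq⟩ := h'
  have ha : x0 ≤ a.re := by
    have := (hA _ (hp 0)).1
    rwa [p.source] at this
  have hc : ∀ z : ℂ, z.re = x0 ∨ z ∈ range q → b.re ≤ z.re ∧ z.re ≤ a.re := by
    rintro z (hz | ⟨t, rfl⟩)
    · rw [hz, hb]; exact ⟨le_rfl, ha⟩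
    · rw [hb]; exact hA' _ (hq t)
  obtain ⟨s, t, hst⟩ := rsw_window_core p q hu hv hum hvp (fun s => (hA _ (hp s)).2) (Or.inr hc)
  exact ⟨p s, rsw_joined_pt p hp s, hst ▸ rsw_joined_pt q hq t⟩

/-- **FT (first touch)**: a path from `re ≤ x1` to `re ≥ x1` has an initial piece which touches the line `re = x1` only at its end point `z`.   (`t* = sInf {t | x1 ≤ (γ t).re}`, truncate.) -/
theorem rsw_first_touch {A : Set ℂ} {a b : ℂ} {x1 : ℝ} (h : JoinedIn A a b) (ha : a.re ≤ x1) (hb : x1 ≤ b.re) :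
    ∃ z, z.re = x1 ∧ JoinedIn (A ∩ ({w | w.re < x1} ∪ {z})) a z := by
  obtain ⟨γ, hγ⟩ := h
  obtain ⟨t, ht, hlt⟩ := rsw_first_time γ (S := {w | x1 ≤ w.re}) (isClosed_le continuous_const Complex.continuous_re) hb
  have h1 : γ t ∈ {w : ℂ | w.re ≤ x1} := rsw_closed_limit γ (isClosed_le Complex.continuous_re continuous_const) ha t
    fun s hs => show (γ s).re ≤ x1 from (not_le.1 (hlt s hs)).le
  refine ⟨γ t, le_antisymm h1 ht, rsw_joined_init γ t fun s hs => ⟨hγ s, ?_⟩⟩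
  rcases hs.lt_or_eq with h2 | h2
  · exact Or.inl (show (γ s).re < x1 from not_le.1 (hlt s h2))
  · exact Or.inr (by rw [h2]; rfl)

/-- **first exit** from an open rectangle: the initial piece stays in the closed rectangle and ends on its boundary. -/
theorem rsw_first_exit {A : Set ℂ} {a b : ℂ} {x0 x1 y0 y1 : ℝ} (h : JoinedIn A a b) (ha : a ∈ rswRect x0 x1 y0 y1)
    (hb : ¬ (x0 < b.re ∧ b.re < x1 ∧ y0 < b.im ∧ b.im < y1)) :
    ∃ z, JoinedIn (A ∩ rswRect x0 x1 y0 y1) a z ∧ (z.re = x0 ∨ z.re = x1 ∨ z.im = y0 ∨ z.im = y1) := by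
  obtain ⟨γ, hγ⟩ := h
  have hop : IsOpen {w : ℂ | x0 < w.re ∧ w.re < x1 ∧ y0 < w.im ∧ w.im < y1} := by
    have : {w : ℂ | x0 < w.re ∧ w.re < x1 ∧ y0 < w.im ∧ w.im < y1} = {z : ℂ | x0 < z.re} ∩ {z | z.re < x1} ∩ {z | y0 < z.im} ∩ {z | z.im < y1} := by
      ext z
      simp only [mem_ofPred_eq, mem_inter_iff]
      tauto
    rw [this]
    exact (((isOpen_lt continuous_const Complex.continuous_re).inter (isOpen_lt Complex.continuous_re continuous_const)).inter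
      (isOpen_lt continuous_const Complex.continuous_im)).inter (isOpen_lt Complex.continuous_im continuous_const)
  obtain ⟨t, ht, hlt⟩ := rsw_first_time γ (S := {w : ℂ | x0 < w.re ∧ w.re < x1 ∧ y0 < w.im ∧ w.im < y1}ᶜ) hop.isClosed_compl hb
  have hin : ∀ s : I, s < t → γ s ∈ rswRect x0 x1 y0 y1 := by
    intro s hs
    have := hlt s hs
    rw [mem_compl_iff, not_not] at this
    exact ⟨this.1.le, this.2.1.le, this.2.2.1.le, this.2.2.2.le⟩
  have h1 : γ t ∈ rswRect x0 x1 y0 y1 := rsw_closed_limit γ (rsw_rect_closed _ _ _ _) ha t hin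
  refine ⟨γ t, rsw_joined_init γ t fun s hs => ⟨hγ s, ?_⟩, ?_⟩
  · rcases hs.lt_or_eq with h2 | h2
    · exact hin s h2
    · rw [h2]; exact h1
  · obtain ⟨c1, c2, c3, c4⟩ := h1
    by_contra hcon
    simp only [not_or] at hcon
    exact ht ⟨lt_of_le_of_ne c1 (Ne.symm hcon.1), lt_of_le_of_ne c2 hcon.2.1, lt_of_le_of_ne c3 (Ne.symm hcon.2.2.1), lt_of_le_of_ne c4 hcon.2.2.2⟩

theorem rsw32_chain_conn {ι : Type*} [Finite ι] {C : ι → Set ℂ} {K : Set ℂ}
    (hC : ∀ i, IsClosed (C i)) {Z : Set ℂ} (hZ : IsPreconnected Z) (hZs : Z ⊆ (⋃ i, C i) ∩ K) {x y : ℂ} (hx : x ∈ Z) (hy : y ∈ Z) :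
    ∃ i j, x ∈ C i ∩ K ∧ y ∈ C j ∩ K ∧ Relation.ReflTransGen (fun i j => (C i ∩ C j ∩ K).Nonempty) i j := by
  obtain ⟨i0, hi0⟩ := mem_iUnion.1 (hZs hx).1
  set R := Relation.ReflTransGen (fun i j => (C i ∩ C j ∩ K).Nonempty) with hR
  set U : Set ℂ := ⋃ i ∈ {i | R i0 i}, C i with hU
  set V : Set ℂ := ⋃ i ∈ {i | ¬ R i0 i}, C i with hV
  have hUc : IsClosed U := (Set.toFinite {i | R i0 i}).isClosed_biUnion fun i _ => hC i
  have hVc : IsClosed V := (Set.toFinite {i | ¬ R i0 i}).isClosed_biUnion fun i _ => hC i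
  have hcov : Z ⊆ U ∪ V := by
    intro z hz
    obtain ⟨i, hi⟩ := mem_iUnion.1 (hZs hz).1
    by_cases h : R i0 i
    · exact Or.inl (mem_biUnion (show i ∈ {i | R i0 i} from h) hi)
    · exact Or.inr (mem_biUnion (show i ∈ {i | ¬ R i0 i} from h) hi)
  have hxU : (Z ∩ U).Nonempty :=
    ⟨x, hx, mem_biUnion (show i0 ∈ {i | R i0 i} from Relation.ReflTransGen.refl) hi0⟩
  have hVe : ¬ (Z ∩ V).Nonempty := by
    intro hVn
    obtain ⟨z, hz, hzU, hzV⟩ := (isPreconnected_closed_iff.1 hZ) U V hUc hVc hcov hxU hVn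
    obtain ⟨i, hi, hzi⟩ := mem_iUnion₂.1 hzU
    obtain ⟨j, hj, hzj⟩ := mem_iUnion₂.1 hzV
    exact hj (Relation.ReflTransGen.tail hi ⟨z, ⟨hzi, hzj⟩, (hZs hz).2⟩)
  have hyU : y ∈ U := by
    rcases hcov hy with h | h
    · exact h
    · exact absurd ⟨y, hy, h⟩ hVe
  obtain ⟨j, hj, hyj⟩ := mem_iUnion₂.1 hyU
  exact ⟨i0, j, ⟨hi0, (hZs hx).2⟩, ⟨hyj, (hZs hy).2⟩, hj⟩

/-- **CH (chains)**: in a convex `K`, for finitely many closed convex pieces, paths are chains.   `←`: polygon through points of the intersections.   `→`: along a path the preimages of the union of the pieces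
chained to the first one and of the union of the other pieces are disjoint closed sets covering `[0,1]`. -/
theorem rsw_chain_iff_path {ι : Type*} [Finite ι] {C : ι → Set ℂ} {K : Set ℂ} (hK : Convex ℝ K)
    (hC : ∀ i, IsClosed (C i) ∧ Convex ℝ (C i)) {x y : ℂ} :
    JoinedIn ((⋃ i, C i) ∩ K) x y ↔
      ∃ i j, x ∈ C i ∩ K ∧ y ∈ C j ∩ K ∧ Relation.ReflTransGen (fun i j => (C i ∩ C j ∩ K).Nonempty) i j := by
  constructor
  · rintro ⟨γ, hγ⟩
    have hZ : IsPreconnected (Set.range γ) := isPreconnected_range γ.continuous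
    have hZs : Set.range γ ⊆ (⋃ i, C i) ∩ K := by
      rintro _ ⟨t, rfl⟩
      exact hγ t
    exact rsw32_chain_conn (fun i => (hC i).1) hZ hZs ⟨0, γ.source⟩ ⟨1, γ.target⟩
  · rintro ⟨i, j, hx, hy, hR⟩
    have hpiece : ∀ k, ∀ a ∈ C k ∩ K, ∀ b ∈ C k ∩ K, JoinedIn ((⋃ i, C i) ∩ K) a b := by
      intro k a ha b hb
      have hc : Convex ℝ (C k ∩ K) := (hC k).2.inter hK
      have hj : JoinedIn (C k ∩ K) a b := (hc.isPathConnected ⟨a, ha⟩).joinedIn a ha b hb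
      exact hj.mono (Set.inter_subset_inter_left _ (Set.subset_iUnion C k))
    have key : ∀ j, Relation.ReflTransGen (fun i j => (C i ∩ C j ∩ K).Nonempty) i j →
        ∀ y ∈ C j ∩ K, JoinedIn ((⋃ i, C i) ∩ K) x y := by
      intro j hR
      induction hR with
      | refl => exact fun y hy => hpiece i x hx y hy
      | tail _ hstep ih =>
        intro y hy
        obtain ⟨z, ⟨hz1, hz2⟩, hzK⟩ := hstep
        exact (ih z ⟨hz1, hzK⟩).trans (hpiece _ z ⟨hz2, hzK⟩ y hy)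
    exact key j hR y hy

/-- the same for connected sets instead of paths (the frozen event speaks of connected sets) -/
theorem rsw_chain_of_connected {ι : Type*} [Finite ι] {C : ι → Set ℂ} {K : Set ℂ}
    (hC : ∀ i, IsClosed (C i)) {Z : Set ℂ} (hZ : IsPreconnected Z) (hZs : Z ⊆ (⋃ i, C i) ∩ K) {x y : ℂ} (hx : x ∈ Z) (hy : y ∈ Z) :
    ∃ i j, x ∈ C i ∩ K ∧ y ∈ C j ∩ K ∧ Relation.ReflTransGen (fun i j => (C i ∩ C j ∩ K).Nonempty) i j := by
  exact rsw32_chain_conn hC hZ hZs hx hy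

theorem rsw32_hex_half {ι : Type*} [Finite ι] {C : ι → Set ℂ}
    (hC : ∀ i, IsClosed (C i) ∧ Convex ℝ (C i)) {R S T : Set ℂ} (hR : Convex ℝ R) (hRc : IsClosed R)
    (hS : IsClosed S) (hT : IsClosed T) (hSR : S ⊆ R) (hSne : S.Nonempty) (hTne : T.Nonempty) :
    (∃ x ∈ S, ∃ y ∈ T, JoinedIn ((⋃ i, C i) ∩ R) x y) ∨
      ∃ F : ℂ → ℝ, Continuous F ∧ (∀ z ∈ S, F z ≤ 0) ∧ (∀ z ∈ T, 0 ≤ F z) ∧ ∀ z ∈ (⋃ i, C i) ∩ R, F z ≠ 0 := by
  set rel : ι → ι → Prop := fun i j => (C i ∩ C j ∩ R).Nonempty with hrel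
  set IL : Set ι := {i | ∃ i0, (C i0 ∩ S).Nonempty ∧ Relation.ReflTransGen rel i0 i} with hIL
  set BL : Set ℂ := ⋃ i ∈ IL, C i ∩ R with hBL
  set Br : Set ℂ := ⋃ i ∈ ILᶜ, C i ∩ R with hBr
  have hBLc : IsClosed BL := (Set.toFinite IL).isClosed_biUnion fun i _ => (hC i).1.inter hRc
  have hBrc : IsClosed Br := (Set.toFinite ILᶜ).isClosed_biUnion fun i _ => (hC i).1.inter hRc
  have hdisj : ∀ z, z ∈ BL → z ∈ Br → False := by
    intro z h1 h2
    obtain ⟨i, hi, hzi⟩ := mem_iUnion₂.1 h1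
    obtain ⟨j, hj, hzj⟩ := mem_iUnion₂.1 h2
    obtain ⟨i0, h0, hch⟩ := hi
    exact hj ⟨i0, h0, Relation.ReflTransGen.tail hch ⟨z, ⟨hzi.1, hzj.1⟩, hzi.2⟩⟩
  have hBrS : ∀ z, z ∈ Br → z ∈ S → False := by
    intro z h1 h2
    obtain ⟨j, hj, hzj⟩ := mem_iUnion₂.1 h1
    exact hj ⟨j, ⟨z, hzj.1, h2⟩, Relation.ReflTransGen.refl⟩
  by_cases hBT : (BL ∩ T).Nonempty
  · left
    obtain ⟨z, hz1, hzT⟩ := hBT
    obtain ⟨i, hi, hzi⟩ := mem_iUnion₂.1 hz1
    obtain ⟨i0, ⟨w, hw1, hwS⟩, hch⟩ := hi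
    exact ⟨w, hwS, z, hzT, (rsw_chain_iff_path hR hC).2 ⟨i0, i, ⟨hw1, hSR hwS⟩, hzi, hch⟩⟩
  · right
    have hBLT : ∀ z, z ∈ BL → z ∈ T → False := fun z h1 h2 => hBT ⟨z, h1, h2⟩
    have hPc : IsClosed (S ∪ BL) := hS.union hBLc
    have hQc : IsClosed (T ∪ Br) := hT.union hBrc
    have hPne : (S ∪ BL).Nonempty := hSne.mono subset_union_left
    have hQne : (T ∪ Br).Nonempty := hTne.mono subset_union_left
    refine ⟨fun z => Metric.infDist z (S ∪ BL) - Metric.infDist z (T ∪ Br),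
      (Metric.continuous_infDist_pt _).sub (Metric.continuous_infDist_pt _), ?_, ?_, ?_⟩
    · intro z hz
      have h0 : Metric.infDist z (S ∪ BL) = 0 := Metric.infDist_zero_of_mem (Or.inl hz)
      have h1 : 0 ≤ Metric.infDist z (T ∪ Br) := Metric.infDist_nonneg
      show Metric.infDist z (S ∪ BL) - Metric.infDist z (T ∪ Br) ≤ 0
      linarith
    · intro z hz
      have h0 : Metric.infDist z (T ∪ Br) = 0 := Metric.infDist_zero_of_mem (Or.inl hz)
      have h1 : 0 ≤ Metric.infDist z (S ∪ BL) := Metric.infDist_nonneg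
      show 0 ≤ Metric.infDist z (S ∪ BL) - Metric.infDist z (T ∪ Br)
      linarith
    · rintro z ⟨hzC, hzR⟩
      obtain ⟨i, hi⟩ := mem_iUnion.1 hzC
      show Metric.infDist z (S ∪ BL) - Metric.infDist z (T ∪ Br) ≠ 0
      by_cases hiL : i ∈ IL
      · have hzB : z ∈ BL := mem_biUnion hiL ⟨hi, hzR⟩
        have h0 : Metric.infDist z (S ∪ BL) = 0 := Metric.infDist_zero_of_mem (Or.inr hzB)
        have hnot : z ∉ T ∪ Br := by
          rintro (h | h)
          · exact hBLT z hzB h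
          · exact hdisj z hzB h
        have h1 : 0 < Metric.infDist z (T ∪ Br) := (hQc.notMem_iff_infDist_pos hQne).1 hnot
        linarith
      · have hzB : z ∈ Br := mem_biUnion (show i ∈ ILᶜ from hiL) ⟨hi, hzR⟩
        have h0 : Metric.infDist z (T ∪ Br) = 0 := Metric.infDist_zero_of_mem (Or.inr hzB)
        have hnot : z ∉ S ∪ BL := by
          rintro (h | h)
          · exact hBrS z hzB h
          · exact hdisj z h hzB
        have h1 : 0 < Metric.infDist z (S ∪ BL) := (hPc.notMem_iff_infDist_pos hPne).1 hnot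
        linarith

theorem rsw32_rect_closed (x0 x1 y0 y1 : ℝ) : IsClosed (rswRect x0 x1 y0 y1) := by
  have e : rswRect x0 x1 y0 y1 = {z : ℂ | x0 ≤ z.re} ∩ {z : ℂ | z.re ≤ x1} ∩ {z : ℂ | y0 ≤ z.im} ∩ {z : ℂ | z.im ≤ y1} := by
    ext z
    simp only [rswRect, mem_ofPred_eq, mem_inter_iff]
    tauto
  rw [e]
  exact (((isClosed_le continuous_const Complex.continuous_re).inter
    (isClosed_le Complex.continuous_re continuous_const)).inter
    (isClosed_le continuous_const Complex.continuous_im)).inter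
    (isClosed_le Complex.continuous_im continuous_const)

theorem rsw32_rect_convex (x0 x1 y0 y1 : ℝ) : Convex ℝ (rswRect x0 x1 y0 y1) := by
  intro z hz w hw a b ha hb hab
  obtain ⟨z1, z2, z3, z4⟩ := hz
  obtain ⟨w1, w2, w3, w4⟩ := hw
  have hre : (a • z + b • w).re = a * z.re + b * w.re := by simp
  have him : (a • z + b • w).im = a * z.im + b * w.im := by simp
  refine ⟨?_, ?_, ?_, ?_⟩
  · rw [hre]
    calc x0 = a * x0 + b * x0 := by rw [← add_mul, hab, one_mul]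
      _ ≤ _ := add_le_add (mul_le_mul_of_nonneg_left z1 ha) (mul_le_mul_of_nonneg_left w1 hb)
  · rw [hre]
    calc _ ≤ a * x1 + b * x1 := add_le_add (mul_le_mul_of_nonneg_left z2 ha) (mul_le_mul_of_nonneg_left w2 hb)
      _ = x1 := by rw [← add_mul, hab, one_mul]
  · rw [him]
    calc y0 = a * y0 + b * y0 := by rw [← add_mul, hab, one_mul]
      _ ≤ _ := add_le_add (mul_le_mul_of_nonneg_left z3 ha) (mul_le_mul_of_nonneg_left w3 hb)
  · rw [him]
    calc _ ≤ a * y1 + b * y1 := add_le_add (mul_le_mul_of_nonneg_left z4 ha) (mul_le_mul_of_nonneg_left w4 hb)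
      _ = y1 := by rw [← add_mul, hab, one_mul]

/-- **HEX (at least one crossing)**: a rectangle covered by two finite families of closed convex sets has a left-right crossing in the first union or a bottom-top crossing in the second one.
PROOF (rsw_259.md sec. 2): `B_L` := union of the pieces `C i ∩ R` chained (inside `R`) to a piece touching the left side, `B_r` := union of the others.  If `B_L` misses the right side,
`F1 z := infDist z (Left ∪ B_L) - infDist z (Right ∪ B_r)` is continuous, `≤ 0` on Left, `≥ 0` on Right, `≠ 0` on `⋃ C i ∩ R`.  Same `F2` for `D`, Bottom, Top.  `(F1,F2)` has no zero on `R`: contradiction with Poincare-Miranda.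
If `B_L` meets the right side: `rsw_chain_iff_path`. -/
theorem rsw_hex_some {ι κ : Type*} [Finite ι] [Finite κ] {C : ι → Set ℂ} {D : κ → Set ℂ}
    (hC : ∀ i, IsClosed (C i) ∧ Convex ℝ (C i)) (hD : ∀ k, IsClosed (D k) ∧ Convex ℝ (D k))
    {x0 x1 y0 y1 : ℝ} (hx : x0 ≤ x1) (hy : y0 ≤ y1) (hcov : rswRect x0 x1 y0 y1 ⊆ (⋃ i, C i) ∪ ⋃ k, D k) :
    (rswLR x0 x1 y0 y1).Holds (⋃ i, C i) ∨ (rswTB x0 x1 y0 y1).Holds (⋃ k, D k) := by
  have hRv := rsw32_rect_convex x0 x1 y0 y1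
  have hRc := rsw32_rect_closed x0 x1 y0 y1
  rcases rsw32_hex_half hC hRv hRc (rsw32_rect_closed x0 x0 y0 y1) (rsw32_rect_closed x1 x1 y0 y1)
    (rsw_rect_mono le_rfl hx le_rfl le_rfl)
    ⟨⟨x0, y0⟩, le_rfl, le_rfl, le_rfl, hy⟩ ⟨⟨x1, y0⟩, le_rfl, le_rfl, le_rfl, hy⟩ with h1 | ⟨F1, hF1c, hF1S, hF1T, hF1n⟩
  · exact Or.inl h1
  rcases rsw32_hex_half hD hRv hRc (rsw32_rect_closed x0 x1 y0 y0) (rsw32_rect_closed x0 x1 y1 y1)
    (rsw_rect_mono le_rfl le_rfl le_rfl hy)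
    ⟨⟨x0, y0⟩, le_rfl, hx, le_rfl, le_rfl⟩ ⟨⟨x0, y1⟩, le_rfl, hx, le_rfl, le_rfl⟩ with h2 | ⟨F2, hF2c, hF2S, hF2T, hF2n⟩
  · exact Or.inr h2
  exfalso
  have hpt : Continuous fun x : Fin 2 → ℝ => (⟨x 0, x 1⟩ : ℂ) := by
    have : (fun x : Fin 2 → ℝ => (⟨x 0, x 1⟩ : ℂ)) = fun x => Complex.equivRealProdCLM.symm (x 0, x 1) := by
      funext x
      rfl
    rw [this]
    exact Complex.equivRealProdCLM.symm.continuous.comp ((continuous_apply 0).prodMk (continuous_apply 1))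
  have hmem : ∀ x : Fin 2 → ℝ, x ∈ Set.Icc (fun i : Fin 2 => if i = 0 then x0 else y0) (fun i => if i = 0 then x1 else y1) →
      x0 ≤ x 0 ∧ x 0 ≤ x1 ∧ y0 ≤ x 1 ∧ x 1 ≤ y1 := by
    intro x hx
    have a0 := hx.1 0
    have a1 := hx.1 1
    have b0 := hx.2 0
    have b1 := hx.2 1
    simp only [Fin.isValue, if_true, one_ne_zero, if_false] at a0 a1 b0 b1
    exact ⟨a0, b0, a1, b1⟩
  obtain ⟨x, hxm, hx0⟩ := Lib.bfp_poincare_miranda (ι := Fin 2) (fun i => if i = 0 then x0 else y0)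
    (fun i => if i = 0 then x1 else y1)
    (by
      intro i
      by_cases hi : i = 0
      · simpa only [hi, if_true] using hx
      · simpa only [hi, if_false] using hy)
    (fun x i => if i = 0 then F1 ⟨x 0, x 1⟩ else F2 ⟨x 0, x 1⟩)
    (by
      refine Continuous.continuousOn ?_
      refine continuous_pi fun i => ?_
      by_cases hi : i = 0
      · simp only [hi, if_true]
        exact hF1c.comp hpt
      · simp only [hi, if_false]
        exact hF2c.comp hpt)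
    (by
      intro x hxm i hi
      obtain ⟨a0, b0, a1, b1⟩ := hmem x hxm
      fin_cases i
      · simp only [Fin.zero_eta, Fin.isValue, if_true] at hi ⊢
        exact hF1S _ ⟨hi.ge, hi.le, a1, b1⟩
      · simp only [Fin.mk_one, Fin.isValue, one_ne_zero, if_false] at hi ⊢
        exact hF2S _ ⟨a0, b0, hi.ge, hi.le⟩)
    (by
      intro x hxm i hi
      obtain ⟨a0, b0, a1, b1⟩ := hmem x hxm
      fin_cases i
      · simp only [Fin.zero_eta, Fin.isValue, if_true] at hi ⊢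
        exact hF1T _ ⟨hi.ge, hi.le, a1, b1⟩
      · simp only [Fin.mk_one, Fin.isValue, one_ne_zero, if_false] at hi ⊢
        exact hF2T _ ⟨a0, b0, hi.ge, hi.le⟩)
  obtain ⟨a0, b0, a1, b1⟩ := hmem x hxm
  have e0 := congrFun hx0 0
  have e1 := congrFun hx0 1
  simp only [Fin.isValue, if_true, one_ne_zero, if_false, Pi.zero_apply] at e0 e1
  have hzR : (⟨x 0, x 1⟩ : ℂ) ∈ rswRect x0 x1 y0 y1 := ⟨a0, b0, a1, b1⟩
  rcases hcov hzR with h | h
  · exact hF1n _ ⟨h, hzR⟩ e0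
  · exact hF2n _ ⟨h, hzR⟩ e1

/-! ## 3. Deterministic gluings -/

theorem rsw_det_mono {e e' : RswTri} {B B' : Set ℂ} (hB : B ⊆ B') (hK : e.K ⊆ e'.K) (hS : e.S ⊆ e'.S) (hT : e.T ⊆ e'.T)
    (h : e.Holds B) : e'.Holds B' := by
  obtain ⟨x, hx, y, hy, hj⟩ := h
  exact ⟨x, hS hx, y, hT hy, hj.mono (Set.inter_subset_inter hB hK)⟩

/-- a full rectangle is crossed (horizontal segment) -/
theorem rsw_det_full {B : Set ℂ} {x0 x1 y0 y1 : ℝ} (hx : x0 ≤ x1) (hy : y0 ≤ y1) (h : rswRect x0 x1 y0 y1 ⊆ B) :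
    (rswLR x0 x1 y0 y1).Holds B := by
  have ha : (⟨x0, y0⟩ : ℂ) ∈ rswRect x0 x1 y0 y1 := ⟨le_rfl, hx, le_rfl, hy⟩
  have hb : (⟨x1, y0⟩ : ℂ) ∈ rswRect x0 x1 y0 y1 := ⟨hx, le_rfl, le_rfl, hy⟩
  refine ⟨⟨x0, y0⟩, ⟨le_rfl, le_rfl, le_rfl, hy⟩, ⟨x1, y0⟩, ⟨le_rfl, le_rfl, le_rfl, hy⟩, ?_⟩
  exact (((rsw_rect_convex x0 x1 y0 y1).isPathConnected ⟨_, ha⟩).joinedIn _ ha _ hb).mono (fun z hz => ⟨h hz, hz⟩)

/-- (E3) a crossing of a long rectangle contains a crossing of a shorter one (FT) -/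
theorem rsw_det_shorten {B : Set ℂ} {x0 x1 x1' y0 y1 : ℝ} (h0 : x0 ≤ x1') (h1 : x1' ≤ x1) (h : (rswLR x0 x1 y0 y1).Holds B) :
    (rswLR x0 x1' y0 y1).Holds B := by
  obtain ⟨a, ha, b, hb, hj⟩ := h
  obtain ⟨z, hz, hjz⟩ := rsw_first_touch (x1 := x1') hj (by have := ha.2.1; linarith) (by have := hb.1; linarith)
  have hzm := hjz.target_mem.1.2
  refine ⟨a, ha, z, ⟨hz.ge, hz.le, hzm.2.2.1, hzm.2.2.2⟩, hjz.mono ?_⟩
  rintro w ⟨⟨hwB, hwK⟩, hw⟩
  refine ⟨hwB, hwK.1, ?_, hwK.2.2.1, hwK.2.2.2⟩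
  rcases hw with hw | hw
  · exact le_of_lt hw
  · rw [hw]; exact hz.le

/-- (E2) lengthening: two crossings overlapping in `[x0',x1] x [y0,y1]` and a bottom-top crossing of the overlap (G1* twice) -/
theorem rsw_det_len {B : Set ℂ} {x0 x0' x1 x1' y0 y1 : ℝ} (h0 : x0 ≤ x0') (h1 : x0' ≤ x1) (h2 : x1 ≤ x1')
    (ha : (rswLR x0 x1 y0 y1).Holds B) (hb : (rswLR x0' x1' y0 y1).Holds B) (hc : (rswTB x0' x1 y0 y1).Holds B) :
    (rswLR x0 x1' y0 y1).Holds B := by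
  obtain ⟨a, haS, b, hbT, hp⟩ := ha
  obtain ⟨c, hcS, d, hdT, hq⟩ := hb
  obtain ⟨e, heS, f, hfT, hr⟩ := hc
  have ea : a.re = x0 := le_antisymm haS.2.1 haS.1
  have eb : b.re = x1 := le_antisymm hbT.2.1 hbT.1
  have ec : c.re = x0' := le_antisymm hcS.2.1 hcS.1
  have ed : d.re = x1' := le_antisymm hdT.2.1 hdT.1
  have ee : e.im = y0 := le_antisymm heS.2.2.2 heS.2.2.1
  have ef : f.im = y1 := le_antisymm hfT.2.2.2 hfT.2.2.1
  obtain ⟨z1, k1, k2⟩ := rsw_meet hp hr (fun z hz => by rw [ea, eb]; exact ⟨h0.trans hz.2.1, hz.2.2.1⟩)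
    (fun z hz => by rw [ee, ef]; exact ⟨hz.2.2.2.1, hz.2.2.2.2⟩)
  obtain ⟨z2, k3, k4⟩ := rsw_meet hq hr (fun z hz => by rw [ec, ed]; exact ⟨hz.2.1, hz.2.2.1.trans h2⟩)
    (fun z hz => by rw [ee, ef]; exact ⟨hz.2.2.2.1, hz.2.2.2.2⟩)
  have m1 : B ∩ (rswLR x0 x1 y0 y1).K ⊆ B ∩ (rswLR x0 x1' y0 y1).K := inter_subset_inter_right _ (rsw_rect_mono le_rfl h2 le_rfl le_rfl)
  have m2 : B ∩ (rswLR x0' x1' y0 y1).K ⊆ B ∩ (rswLR x0 x1' y0 y1).K := inter_subset_inter_right _ (rsw_rect_mono h0 le_rfl le_rfl le_rfl)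
  have m3 : B ∩ (rswTB x0' x1 y0 y1).K ⊆ B ∩ (rswLR x0 x1' y0 y1).K := inter_subset_inter_right _ (rsw_rect_mono h0 h2 le_rfl le_rfl)
  refine ⟨a, haS, d, hdT, ?_⟩
  exact (k1.mono m1).trans ((k2.mono m3).symm.trans ((k4.mono m3).trans ((k3.mono m2).symm.trans (hq.mono m2))))

/-- a crossing, cut at its first touch of the right side, is a window crossing with the full window -/
theorem rsw_det_lr_win {B : Set ℂ} {x0 x1 y0 y1 : ℝ} (hx : x0 ≤ x1) (h : (rswLR x0 x1 y0 y1).Holds B) :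
    (rswWin x0 x1 y0 y1 y0 y1).Holds B :=
  rsw_det_mono (e := rswLR x0 x1 y0 y1) (e' := rswWin x0 x1 y0 y1 y0 y1) subset_rfl (fun z hz => ⟨hz, fun _ => ⟨hz.2.2.1, hz.2.2.2⟩⟩) subset_rfl subset_rfl h

/-- a window crossing, cut at its first touch of the right side, ends in one of the two halves of the window -/
theorem rsw_det_win_split {B : Set ℂ} {x0 x1 y0 y1 α β γ : ℝ} (hx : x0 ≤ x1) (h : (rswWin x0 x1 y0 y1 α γ).Holds B) :
    (rswWin x0 x1 y0 y1 α β).Holds B ∨ (rswWin x0 x1 y0 y1 β γ).Holds B := by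
  obtain ⟨x, hxS, y, hyT, hj⟩ := h
  obtain ⟨z, hz1, hjz⟩ := rsw_first_touch hj (x1 := x1) (by rw [le_antisymm hxS.2.1 hxS.1]; exact hx) hyT.1
  have hzK := hjz.target_mem.1.2
  have hzw := hzK.2 hz1
  rcases le_total z.im β with hβ | hβ
  · refine Or.inl ⟨x, hxS, z, ⟨hz1.ge, hz1.le, hzw.1, hβ⟩, hjz.mono ?_⟩
    rintro w ⟨⟨hwB, hwK⟩, hw⟩
    refine ⟨hwB, hwK.1, fun hr => ?_⟩
    rcases hw with hw | hw
    · exact absurd hr (ne_of_lt hw)
    · rw [mem_singleton_iff.1 hw]; exact ⟨hzw.1, hβ⟩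
  · refine Or.inr ⟨x, hxS, z, ⟨hz1.ge, hz1.le, hβ, hzw.2⟩, hjz.mono ?_⟩
    rintro w ⟨⟨hwB, hwK⟩, hw⟩
    refine ⟨hwB, hwK.1, fun hr => ?_⟩
    rcases hw with hw | hw
    · exact absurd hr (ne_of_lt hw)
    · rw [mem_singleton_iff.1 hw]; exact ⟨hβ, hzw.2⟩

theorem rsw_det_win_mono {B : Set ℂ} {x0 x1 y0 y1 α β α' β' : ℝ} (h0 : α' ≤ α) (h1 : β ≤ β') (h : (rswWin x0 x1 y0 y1 α β).Holds B) :
    (rswWin x0 x1 y0 y1 α' β').Holds B := by
  refine rsw_det_mono (e := rswWin x0 x1 y0 y1 α β) (e' := rswWin x0 x1 y0 y1 α' β') subset_rfl ?_ subset_rfl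
    (rsw_rect_mono le_rfl le_rfl h0 h1) h
  intro z hz
  exact ⟨hz.1, fun hr => ⟨h0.trans (hz.2 hr).1, (hz.2 hr).2.trans h1⟩⟩

/-- a left-right crossing inside a rectangle is joined to the start of a bottom-top crossing -/
theorem rsw_det_hub {B K : Set ℂ} {x0 x1 y0 y1 : ℝ} (hK : K ⊆ rswRect x0 x1 y0 y1) {a b e f : ℂ} (h : JoinedIn (B ∩ K) a b)
    (ha : a.re = x0) (hb : b.re = x1) (h' : JoinedIn (B ∩ rswRect x0 x1 y0 y1) e f) (he : e.im = y0) (hf : f.im = y1) :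
    JoinedIn (B ∩ rswRect x0 x1 y0 y1) e a ∧ JoinedIn (B ∩ rswRect x0 x1 y0 y1) e b := by
  obtain ⟨z, k1, k2⟩ := rsw_meet h h' (fun z hz => by rw [ha, hb]; exact ⟨hz.2.1, hz.2.2.1⟩)
    (fun z hz => by rw [he, hf]; exact ⟨(hK hz.2).2.2.1, (hK hz.2).2.2.2⟩)
  have m : B ∩ K ⊆ B ∩ rswRect x0 x1 y0 y1 := inter_subset_inter_right _ hK
  have k3 : JoinedIn (B ∩ rswRect x0 x1 y0 y1) e a := k2.trans (k1.mono m).symm
  exact ⟨k3, k3.trans (h.mono m)⟩

/-- **the X-set**: if the five patterns of `rswX` hold there is a hub `z0` joined inside `B ∩ square` to a point of each of the four windows, of the bottom side and of the top side.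
(each window crossing is a left-right crossing of the square, so it meets the bottom-top crossing: G1*.) -/
theorem rsw_det_X {B : Set ℂ} {cx cy s α : ℝ} (hs : 0 < s) (hα : 0 ≤ α) (hα2 : α ≤ s / 2) (h : ∀ e ∈ rswX cx cy s α, e.Holds B) :
    ∃ z0 p1 p2 p3 p4 p5 p6 : ℂ,
      p1 ∈ rswRect (cx + s / 2) (cx + s / 2) (cy + α) (cy + s / 2) ∧ p2 ∈ rswRect (cx + s / 2) (cx + s / 2) (cy - s / 2) (cy - α) ∧
      p3 ∈ rswRect (cx - s / 2) (cx - s / 2) (cy + α) (cy + s / 2) ∧ p4 ∈ rswRect (cx - s / 2) (cx - s / 2) (cy - s / 2) (cy - α) ∧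
      p5 ∈ rswRect (cx - s / 2) (cx + s / 2) (cy - s / 2) (cy - s / 2) ∧ p6 ∈ rswRect (cx - s / 2) (cx + s / 2) (cy + s / 2) (cy + s / 2) ∧
      ∀ p ∈ ({p1, p2, p3, p4, p5, p6} : Set ℂ), JoinedIn (B ∩ rswRect (cx - s / 2) (cx + s / 2) (cy - s / 2) (cy + s / 2)) z0 p := by
  obtain ⟨a1, ha1, b1, hb1, j1⟩ := h _ (by simp [rswX] : rswWin (cx - s / 2) (cx + s / 2) (cy - s / 2) (cy + s / 2) (cy + α) (cy + s / 2) ∈ rswX cx cy s α)
  obtain ⟨a2, ha2, b2, hb2, j2⟩ := h _ (by simp [rswX] : rswWin (cx - s / 2) (cx + s / 2) (cy - s / 2) (cy + s / 2) (cy - s / 2) (cy - α) ∈ rswX cx cy s α)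
  obtain ⟨a3, ha3, b3, hb3, j3⟩ := h _ (by simp [rswX] : rswWinL (cx - s / 2) (cx + s / 2) (cy - s / 2) (cy + s / 2) (cy + α) (cy + s / 2) ∈ rswX cx cy s α)
  obtain ⟨a4, ha4, b4, hb4, j4⟩ := h _ (by simp [rswX] : rswWinL (cx - s / 2) (cx + s / 2) (cy - s / 2) (cy + s / 2) (cy - s / 2) (cy - α) ∈ rswX cx cy s α)
  obtain ⟨e, he, f, hf, j5⟩ := h _ (by simp [rswX] : rswTB (cx - s / 2) (cx + s / 2) (cy - s / 2) (cy + s / 2) ∈ rswX cx cy s α)
  have ee : e.im = cy - s / 2 := le_antisymm he.2.2.2 he.2.2.1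
  have ef : f.im = cy + s / 2 := le_antisymm hf.2.2.2 hf.2.2.1
  have q1 := (rsw_det_hub (fun z hz => hz.1) j1 (le_antisymm ha1.2.1 ha1.1) (le_antisymm hb1.2.1 hb1.1) j5 ee ef).2
  have q2 := (rsw_det_hub (fun z hz => hz.1) j2 (le_antisymm ha2.2.1 ha2.1) (le_antisymm hb2.2.1 hb2.1) j5 ee ef).2
  have q3 := (rsw_det_hub (fun z hz => hz.1) j3.symm (le_antisymm hb3.2.1 hb3.1) (le_antisymm ha3.2.1 ha3.1) j5 ee ef).1
  have q4 := (rsw_det_hub (fun z hz => hz.1) j4.symm (le_antisymm hb4.2.1 hb4.1) (le_antisymm ha4.2.1 ha4.1) j5 ee ef).1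
  refine ⟨e, b1, b2, b3, b4, e, f, hb1, hb2, hb3, hb4, he, hf, ?_⟩
  intro p hp
  simp only [mem_insert_iff, mem_singleton_iff] at hp
  rcases hp with rfl | rfl | rfl | rfl | rfl | rfl
  · exact q1
  · exact q2
  · exact q3
  · exact q4
  · exact JoinedIn.refl j5.source_mem
  · exact j5

/-- **Lemma A, case 1** (rsw_259.md sec. 4): `π ∈ H_s(0,a)`, its mirror image in `B_s + s/3`, and the X-set of side `2s/3`, parameter `a/2`, centre `(s/6, a/2)`  give a left-right crossing of `[-s/2, 5s/6] x [-s/2, s/2]`.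
(the points of the X-set on `re = s/2` have heights `≥ a` and `≤ 0`: `rsw_window`; on `re = -s/6`: `rsw_window_L`.) -/
theorem rsw_det_A1 {B : Set ℂ} {s a : ℝ} (hs : 0 < s) (ha0 : 0 ≤ a) (ha : a ≤ s / 3)
    (h1 : (rswWin (-s / 2) (s / 2) (-s / 2) (s / 2) 0 a).Holds B)
    (h2 : (rswWinL (-s / 6) (5 * s / 6) (-s / 2) (s / 2) 0 a).Holds B)
    (h3 : ∀ e ∈ rswX (s / 6) (a / 2) (2 * s / 3) (a / 2), e.Holds B) :
    (rswLR (-s / 2) (5 * s / 6) (-s / 2) (s / 2)).Holds B := by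
  obtain ⟨z0, p1, p2, p3, p4, p5, p6, m1, m2, m3, m4, _, _, hub⟩ := rsw_det_X (by positivity) (by positivity) (by linarith) h3
  obtain ⟨u, hu, v, hv, j1⟩ := h1
  obtain ⟨u', hu', v', hv', j2⟩ := h2
  set Q := rswRect (s / 6 - 2 * s / 3 / 2) (s / 6 + 2 * s / 3 / 2) (a / 2 - 2 * s / 3 / 2) (a / 2 + 2 * s / 3 / 2) with hQ
  have g1 := hub p1 (by simp)
  have g2 := hub p2 (by simp)
  have g3 := hub p3 (by simp)
  have g4 := hub p4 (by simp)
  obtain ⟨u1, u2, u3, u4⟩ := hu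
  obtain ⟨v1, v2, v3, v4⟩ := hv
  obtain ⟨u1', u2', u3', u4'⟩ := hu'
  obtain ⟨v1', v2', v3', v4'⟩ := hv'
  obtain ⟨z, k1, k2⟩ := rsw_window (x1 := s / 2) (ym := 0) (yp := a) j1 (le_antisymm v2 v1)
    (fun w hw => ⟨hw.2.1.2.1, hw.2.2⟩) (g2.symm.trans g1) (by have := m2.1; have := m2.2.1; linarith) (by have := m1.1; have := m1.2.1; linarith)
    (by have := m2.2.2.2; linarith) (by have := m1.2.2.1; linarith)
    (fun w hw => by
      obtain ⟨w1, w2, _, _⟩ := hw.2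
      constructor <;> linarith)
  obtain ⟨z', k1', k2'⟩ := rsw_window_L (x0 := -s / 6) (ym := 0) (yp := a) j2 (le_antisymm v2' v1')
    (fun w hw => ⟨hw.2.1.1, hw.2.2⟩) (g4.symm.trans g3) (by have := m4.1; have := m4.2.1; linarith) (by have := m3.1; have := m3.2.1; linarith)
    (by have := m4.2.2.2; linarith) (by have := m3.2.2.1; linarith)
    (fun w hw => by
      obtain ⟨w1, w2, _, _⟩ := hw.2
      constructor <;> linarith)
  have n1 : B ∩ (rswWin (-s / 2) (s / 2) (-s / 2) (s / 2) 0 a).K ⊆ B ∩ (rswLR (-s / 2) (5 * s / 6) (-s / 2) (s / 2)).K := by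
    rintro w ⟨hwB, ⟨w1, w2, w3, w4⟩, _⟩
    exact ⟨hwB, w1, by linarith, w3, w4⟩
  have n2 : B ∩ (rswWinL (-s / 6) (5 * s / 6) (-s / 2) (s / 2) 0 a).K ⊆ B ∩ (rswLR (-s / 2) (5 * s / 6) (-s / 2) (s / 2)).K := by
    rintro w ⟨hwB, ⟨w1, w2, w3, w4⟩, _⟩
    exact ⟨hwB, by linarith, w2, w3, w4⟩
  have n3 : B ∩ Q ⊆ B ∩ (rswLR (-s / 2) (5 * s / 6) (-s / 2) (s / 2)).K := by
    rintro w ⟨hwB, w1, w2, w3, w4⟩
    exact ⟨hwB, by linarith, by linarith, by linarith, by linarith⟩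
  refine ⟨u, ⟨u1, u2, u3, u4⟩, u', ⟨u1', u2', u3', u4'⟩, ?_⟩
  exact (k1.mono n1).trans ((k2.mono n3).symm.trans ((g2.mono n3).symm.trans ((g4.mono n3).trans ((k2'.mono n3).trans (k1'.mono n2).symm))))

/-- **Lemma A, case 2**: `π ∈ H_s(s/6,s/2)`, a bottom-top crossing of `B_s`, and the X-set of side `s`, parameter `s/6`, centre `(0, s/3)` give a bottom-top crossing of `[-s/2,s/2] x [-s/2, 5s/6]`.
(the points of the X-set on `re = s/2` have heights in `[s/2,5s/6]` and `[-s/6,s/6]`: `rsw_window` with the window `[s/6,s/2]`.) -/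
theorem rsw_det_A2 {B : Set ℂ} {s : ℝ} (hs : 0 < s)
    (h1 : (rswWin (-s / 2) (s / 2) (-s / 2) (s / 2) (s / 6) (s / 2)).Holds B)
    (h2 : (rswTB (-s / 2) (s / 2) (-s / 2) (s / 2)).Holds B)
    (h3 : ∀ e ∈ rswX 0 (s / 3) s (s / 6), e.Holds B) :
    (rswTB (-s / 2) (s / 2) (-s / 2) (5 * s / 6)).Holds B := by
  obtain ⟨z0, p1, p2, p3, p4, p5, p6, m1, m2, _, _, _, m6, hub⟩ := rsw_det_X hs (by positivity) (by linarith) h3
  obtain ⟨u, hu, v, hv, j1⟩ := h1
  obtain ⟨e, he, f, hf, j2⟩ := h2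
  set Q := rswRect (0 - s / 2) (0 + s / 2) (s / 3 - s / 2) (s / 3 + s / 2) with hQ
  have g1 := hub p1 (by simp)
  have g2 := hub p2 (by simp)
  have g6 := hub p6 (by simp)
  obtain ⟨u1, u2, u3, u4⟩ := hu
  obtain ⟨v1, v2, v3, v4⟩ := hv
  obtain ⟨e1, e2, e3, e4⟩ := he
  obtain ⟨f1, f2, f3, f4⟩ := hf
  obtain ⟨z, k1, k2⟩ := rsw_window (x1 := s / 2) (ym := s / 6) (yp := s / 2) j1 (le_antisymm v2 v1)
    (fun w hw => ⟨hw.2.1.2.1, hw.2.2⟩) (g2.symm.trans g1) (by have := m2.1; have := m2.2.1; linarith) (by have := m1.1; have := m1.2.1; linarith)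
    (by have := m2.2.2.2; linarith) (by have := m1.2.2.1; linarith)
    (fun w hw => by
      obtain ⟨w1, w2, _, _⟩ := hw.2
      constructor <;> linarith)
  obtain ⟨z', k3, k4⟩ := rsw_meet j1 j2
    (fun w hw => by
      obtain ⟨w1, w2, _, _⟩ := hw.2
      constructor <;> linarith)
    (fun w hw => by
      obtain ⟨⟨_, _, w3, w4⟩, _⟩ := hw.2
      constructor <;> linarith)
  have n1 : B ∩ (rswWin (-s / 2) (s / 2) (-s / 2) (s / 2) (s / 6) (s / 2)).K ⊆ B ∩ (rswTB (-s / 2) (s / 2) (-s / 2) (5 * s / 6)).K := by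
    rintro w ⟨hwB, ⟨w1, w2, w3, w4⟩, _⟩
    exact ⟨hwB, w1, w2, w3, by linarith⟩
  have n2 : B ∩ (rswTB (-s / 2) (s / 2) (-s / 2) (s / 2)).K ⊆ B ∩ (rswTB (-s / 2) (s / 2) (-s / 2) (5 * s / 6)).K := by
    rintro w ⟨hwB, w1, w2, w3, w4⟩
    exact ⟨hwB, w1, w2, w3, by linarith⟩
  have n3 : B ∩ Q ⊆ B ∩ (rswTB (-s / 2) (s / 2) (-s / 2) (5 * s / 6)).K := by
    rintro w ⟨hwB, w1, w2, w3, w4⟩
    exact ⟨hwB, by linarith, by linarith, by linarith, by linarith⟩
  obtain ⟨q1, q2, q3, q4⟩ := m6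
  refine ⟨e, ⟨e1, e2, e3, e4⟩, p6, ⟨by linarith, by linarith, by linarith, by linarith⟩, ?_⟩
  exact (k4.mono n2).trans ((k3.mono n1).symm.trans ((k1.mono n1).trans ((k2.mono n3).symm.trans ((g2.mono n3).symm.trans (g6.mono n3)))))

/-- **BL (blocking)**: the four long crossings of the four rectangles of the square annulus of radii `t`, `2t` round `(cx,cy)` are joined to each other, and every path from the inner box to the complement of the open outer box meets them. -/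
theorem rsw_block {B A : Set ℂ} {cx cy t : ℝ} (ht : 0 < t)
    (h1 : (rswLR (cx - 2 * t) (cx + 2 * t) (cy + t) (cy + 2 * t)).Holds B)
    (h2 : (rswLR (cx - 2 * t) (cx + 2 * t) (cy - 2 * t) (cy - t)).Holds B)
    (h3 : (rswTB (cx - 2 * t) (cx - t) (cy - 2 * t) (cy + 2 * t)).Holds B)
    (h4 : (rswTB (cx + t) (cx + 2 * t) (cy - 2 * t) (cy + 2 * t)).Holds B) :
    ∃ z0, z0 ∈ B ∩ rswRect (cx - 2 * t) (cx + 2 * t) (cy - 2 * t) (cy + 2 * t) ∧
      ∀ a b : ℂ, JoinedIn A a b → a ∈ rswRect (cx - t) (cx + t) (cy - t) (cy + t) →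
        ¬ (cx - 2 * t < b.re ∧ b.re < cx + 2 * t ∧ cy - 2 * t < b.im ∧ b.im < cy + 2 * t) →
        ∃ z, JoinedIn A a z ∧ JoinedIn (B ∩ rswRect (cx - 2 * t) (cx + 2 * t) (cy - 2 * t) (cy + 2 * t)) z0 z := by
  obtain ⟨a1, ⟨a11, a12, a13, a14⟩, b1, ⟨b11, b12, b13, b14⟩, j1⟩ := h1
  obtain ⟨a2, ⟨a21, a22, a23, a24⟩, b2, ⟨b21, b22, b23, b24⟩, j2⟩ := h2
  obtain ⟨a3, ⟨a31, a32, a33, a34⟩, b3, ⟨b31, b32, b33, b34⟩, j3⟩ := h3
  obtain ⟨a4, ⟨a41, a42, a43, a44⟩, b4, ⟨b41, b42, b43, b44⟩, j4⟩ := h4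
  change JoinedIn (B ∩ rswRect (cx - 2 * t) (cx + 2 * t) (cy + t) (cy + 2 * t)) a1 b1 at j1
  change JoinedIn (B ∩ rswRect (cx - 2 * t) (cx + 2 * t) (cy - 2 * t) (cy - t)) a2 b2 at j2
  change JoinedIn (B ∩ rswRect (cx - 2 * t) (cx - t) (cy - 2 * t) (cy + 2 * t)) a3 b3 at j3
  change JoinedIn (B ∩ rswRect (cx + t) (cx + 2 * t) (cy - 2 * t) (cy + 2 * t)) a4 b4 at j4
  set G : Set ℂ := B ∩ rswRect (cx - 2 * t) (cx + 2 * t) (cy - 2 * t) (cy + 2 * t) with hG
  have s1 : B ∩ rswRect (cx - 2 * t) (cx + 2 * t) (cy + t) (cy + 2 * t) ⊆ G :=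
    inter_subset_inter_right _ (rsw_rect_mono le_rfl le_rfl (by linarith) le_rfl)
  have s2 : B ∩ rswRect (cx - 2 * t) (cx + 2 * t) (cy - 2 * t) (cy - t) ⊆ G :=
    inter_subset_inter_right _ (rsw_rect_mono le_rfl le_rfl le_rfl (by linarith))
  have s3 : B ∩ rswRect (cx - 2 * t) (cx - t) (cy - 2 * t) (cy + 2 * t) ⊆ G :=
    inter_subset_inter_right _ (rsw_rect_mono le_rfl (by linarith) le_rfl le_rfl)
  have s4 : B ∩ rswRect (cx + t) (cx + 2 * t) (cy - 2 * t) (cy + 2 * t) ⊆ G :=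
    inter_subset_inter_right _ (rsw_rect_mono (by linarith) le_rfl le_rfl le_rfl)
  obtain ⟨z13, m13a, m13b⟩ := rsw_meet j1 j3 (fun z hz => by obtain ⟨-, c1, c2, c3, c4⟩ := hz; constructor <;> linarith)
    (fun z hz => by obtain ⟨-, c1, c2, c3, c4⟩ := hz; constructor <;> linarith)
  obtain ⟨z14, m14a, m14b⟩ := rsw_meet j1 j4 (fun z hz => by obtain ⟨-, c1, c2, c3, c4⟩ := hz; constructor <;> linarith)
    (fun z hz => by obtain ⟨-, c1, c2, c3, c4⟩ := hz; constructor <;> linarith)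
  obtain ⟨z23, m23a, m23b⟩ := rsw_meet j2 j3 (fun z hz => by obtain ⟨-, c1, c2, c3, c4⟩ := hz; constructor <;> linarith)
    (fun z hz => by obtain ⟨-, c1, c2, c3, c4⟩ := hz; constructor <;> linarith)
  have J1 : ∀ z, JoinedIn (B ∩ rswRect (cx - 2 * t) (cx + 2 * t) (cy + t) (cy + 2 * t)) a1 z → JoinedIn G a1 z := fun z h => h.mono s1
  have J3 : ∀ z, JoinedIn (B ∩ rswRect (cx - 2 * t) (cx - t) (cy - 2 * t) (cy + 2 * t)) a3 z → JoinedIn G a1 z := fun z h =>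
    ((m13a.mono s1).trans (m13b.mono s3).symm).trans (h.mono s3)
  have J4 : ∀ z, JoinedIn (B ∩ rswRect (cx + t) (cx + 2 * t) (cy - 2 * t) (cy + 2 * t)) a4 z → JoinedIn G a1 z := fun z h =>
    ((m14a.mono s1).trans (m14b.mono s4).symm).trans (h.mono s4)
  have J2 : ∀ z, JoinedIn (B ∩ rswRect (cx - 2 * t) (cx + 2 * t) (cy - 2 * t) (cy - t)) a2 z → JoinedIn G a1 z := fun z h =>
    ((J3 z23 m23b).trans (m23a.mono s2).symm).trans (h.mono s2)
  refine ⟨a1, s1 j1.source_mem, fun a b hab ha hb => ?_⟩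
  obtain ⟨e1, e2, e3, e4⟩ := ha
  obtain ⟨z', hz', hbd⟩ := rsw_first_exit hab (x0 := cx - 2 * t) (x1 := cx + 2 * t) (y0 := cy - 2 * t) (y1 := cy + 2 * t)
    ⟨by linarith, by linarith, by linarith, by linarith⟩ hb
  rcases hbd with hbd | hbd | hbd | hbd
  · obtain ⟨z, k1, k2⟩ := rsw_meet hz'.symm j3 (fun z hz => by obtain ⟨-, c1, c2, c3, c4⟩ := hz; constructor <;> linarith)
      (fun z hz => by obtain ⟨-, c1, c2, c3, c4⟩ := hz; constructor <;> linarith)
    exact ⟨z, (hz'.trans k1).mono inter_subset_left, J3 z k2⟩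
  · obtain ⟨z, k1, k2⟩ := rsw_meet hz' j4 (fun z hz => by obtain ⟨-, c1, c2, c3, c4⟩ := hz; constructor <;> linarith)
      (fun z hz => by obtain ⟨-, c1, c2, c3, c4⟩ := hz; constructor <;> linarith)
    exact ⟨z, k1.mono inter_subset_left, J4 z k2⟩
  · obtain ⟨z, k1, k2⟩ := rsw_meet j2 hz'.symm (fun z hz => by obtain ⟨-, c1, c2, c3, c4⟩ := hz; constructor <;> linarith)
      (fun z hz => by obtain ⟨-, c1, c2, c3, c4⟩ := hz; constructor <;> linarith)
    exact ⟨z, (hz'.trans k2).mono inter_subset_left, J2 z k1⟩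
  · obtain ⟨z, k1, k2⟩ := rsw_meet j1 hz' (fun z hz => by obtain ⟨-, c1, c2, c3, c4⟩ := hz; constructor <;> linarith)
      (fun z hz => by obtain ⟨-, c1, c2, c3, c4⟩ := hz; constructor <;> linarith)
    exact ⟨z, k2.mono inter_subset_left, J1 z k1⟩

/-- **Lemma B, gluing**: `H_u(0,t)`, its mirror image in `B_u + u` and the circuit round `(u/2,0)` give a left-right crossing of `[-u/2, 3u/2] x [-u/2,u/2]`  (`rsw_block` twice). -/
theorem rsw_det_B {B : Set ℂ} {u t : ℝ} (ht : 0 < t) (hu : 4 * t ≤ u)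
    (h1 : (rswWin (-u / 2) (u / 2) (-u / 2) (u / 2) 0 t).Holds B)
    (h2 : (rswWinL (u / 2) (3 * u / 2) (-u / 2) (u / 2) 0 t).Holds B)
    (h3 : (rswLR (u / 2 - 2 * t) (u / 2 + 2 * t) (0 + t) (0 + 2 * t)).Holds B)
    (h4 : (rswLR (u / 2 - 2 * t) (u / 2 + 2 * t) (0 - 2 * t) (0 - t)).Holds B)
    (h5 : (rswTB (u / 2 - 2 * t) (u / 2 - t) (0 - 2 * t) (0 + 2 * t)).Holds B)
    (h6 : (rswTB (u / 2 + t) (u / 2 + 2 * t) (0 - 2 * t) (0 + 2 * t)).Holds B) :
    (rswLR (-u / 2) (3 * u / 2) (-u / 2) (u / 2)).Holds B := by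
  obtain ⟨z0, _, hz0⟩ := rsw_block (A := B ∩ (rswLR (-u / 2) (3 * u / 2) (-u / 2) (u / 2)).K) ht h3 h4 h5 h6
  obtain ⟨a, ha, b, hb, j1⟩ := h1
  obtain ⟨a', ha', b', hb', j2⟩ := h2
  obtain ⟨a1, a2, a3, a4⟩ := ha
  obtain ⟨b1, b2, b3, b4⟩ := hb
  obtain ⟨a1', a2', a3', a4'⟩ := ha'
  obtain ⟨b1', b2', b3', b4'⟩ := hb'
  have n1 : B ∩ (rswWin (-u / 2) (u / 2) (-u / 2) (u / 2) 0 t).K ⊆ B ∩ (rswLR (-u / 2) (3 * u / 2) (-u / 2) (u / 2)).K := by
    rintro w ⟨hwB, ⟨w1, w2, w3, w4⟩, _⟩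
    exact ⟨hwB, w1, by linarith, w3, w4⟩
  have n2 : B ∩ (rswWinL (u / 2) (3 * u / 2) (-u / 2) (u / 2) 0 t).K ⊆ B ∩ (rswLR (-u / 2) (3 * u / 2) (-u / 2) (u / 2)).K := by
    rintro w ⟨hwB, ⟨w1, w2, w3, w4⟩, _⟩
    exact ⟨hwB, by linarith, w2, w3, w4⟩
  have n3 : B ∩ rswRect (u / 2 - 2 * t) (u / 2 + 2 * t) (0 - 2 * t) (0 + 2 * t) ⊆ B ∩ (rswLR (-u / 2) (3 * u / 2) (-u / 2) (u / 2)).K := by
    rintro w ⟨hwB, w1, w2, w3, w4⟩
    exact ⟨hwB, by linarith, by linarith, by linarith, by linarith⟩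
  obtain ⟨z, k1, k2⟩ := hz0 b a (j1.symm.mono n1) ⟨by linarith, by linarith, by linarith, by linarith⟩ (fun h => by linarith [h.1])
  obtain ⟨z', k1', k2'⟩ := hz0 b' a' (j2.symm.mono n2) ⟨by linarith, by linarith, by linarith, by linarith⟩ (fun h => by linarith [h.2.1])
  refine ⟨a, ⟨a1, a2, a3, a4⟩, a', ⟨a1', a2', a3', a4'⟩, ?_⟩
  exact (j1.mono n1).trans (k1.trans ((k2.mono n3).symm.trans ((k2'.mono n3).trans (k1'.symm.trans (j2.symm.mono n2)))))

/-- `H_u(0,t)` is contained in the one-arm event from the box of radius `t` to the box of radius `u` centred at `(u/2,0)` -/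
theorem rsw_det_arm {B : Set ℂ} {u t : ℝ} (ht : 0 ≤ t) (hu : t ≤ u)
    (h : (rswWin (-u / 2) (u / 2) (-u / 2) (u / 2) 0 t).Holds B) : (rswArm (u / 2) 0 t u).Holds B := by
  obtain ⟨a, ha, b, hb, hj⟩ := h
  obtain ⟨a1, a2, a3, a4⟩ := ha
  obtain ⟨b1, b2, b3, b4⟩ := hb
  refine ⟨b, ⟨by linarith, by linarith, by linarith, by linarith⟩, a, ⟨⟨by linarith, by linarith, by linarith, by linarith⟩, Or.inl (by linarith)⟩, hj.symm.mono ?_⟩
  rintro w ⟨hwB, ⟨w1, w2, w3, w4⟩, _⟩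
  exact ⟨hwB, by linarith, by linarith, by linarith, by linarith⟩

end Claimed.Agent.R289
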